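import Vale.Agent.Lib.P262.U.Comp

/-!
The key inequality: the cost of a new point along all descendants.
-/

open scoped RealInnerProductSpace BigOperators
open Module

set_option linter.unusedSectionVars false

namespace Vale.Agent.Lib.P262.U

variable {E : Type*} [NormedAddCommGroup E] [InnerProductSpace ℝ E] [FiniteDimensional ℝ E]

/-- `pf` as a quadratic form: bound for a sum of three. -/
lemma pf_add3 {T : E →ₗ[ℝ] E} (hT : PosOp T) {g : ℝ} (hg : 0 < g) (a b c : E) :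
    pf T g (a + b + c) ≤ 3 * (pf T g a + pf T g b + pf T g c) := by
  have hR := res_posOp hT hg
  set R := res T g with hRe
  have key : ⟪R (a + b + c), a + b + c⟫ ≤ 3 * (⟪R a, a⟫ + ⟪R b, b⟫ + ⟪R c, c⟫) := by
    have h1 := hR.nonneg (a - b)
    have h2 := hR.nonneg (b - c)
    have h3 := hR.nonneg (c - a)
    rw [hR.form_sub] at h1 h2 h3
    rw [hR.form_add, hR.form_add]
    have h4 : ⟪R (a + b), c⟫ = ⟪R a, c⟫ + ⟪R b, c⟫ := by
      rw [map_add, inner_add_left]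
    have h5 := hR.symm' c a
    rw [h4]
    linarith
  unfold pf
  have := mul_le_mul_of_nonneg_left key hg.le
  linarith

/-- Convexity of the form at a midpoint. -/
lemma pf_mid {T : E →ₗ[ℝ] E} (hT : PosOp T) {g : ℝ} (hg : 0 < g) (a b : E) :
    pf T g ((1 / 2 : ℝ) • (a + b)) ≤ (pf T g a + pf T g b) / 2 := by
  have hR := res_posOp hT hg
  set R := res T g with hRe
  have key : ⟪R ((1 / 2 : ℝ) • (a + b)), (1 / 2 : ℝ) • (a + b)⟫ ≤ (⟪R a, a⟫ + ⟪R b, b⟫) / 2 := by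
    have h1 := hR.nonneg (a - b)
    rw [hR.form_sub] at h1
    rw [map_smul, inner_smul_left, inner_smul_right, hR.form_add]
    simp only [conj_trivial]
    linarith
  unfold pf
  have := mul_le_mul_of_nonneg_left key hg.le
  linarith

section key

variable {T T'' : E →ₗ[ℝ] E} {g : ℝ}

/-- The steered vector. -/
noncomputable def steer (T : E →ₗ[ℝ] E) (g : ℝ) (u : E) : E := g • res T g u

/-- `m_y`. -/
noncomputable def mval (T : E →ₗ[ℝ] E) (g : ℝ) (y : E) : ℝ := ⟪T y, y⟫ / g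

lemma steer_eq (hT : PosOp T) (hg : 0 < g) (u : E) : steer T g u = u - T (res T g u) := by
  have := res_right hT hg u
  unfold steer
  rw [eq_sub_iff_add_eq, add_comm]
  exact this

lemma pf_steer (hT : PosOp T) (hg : 0 < g) (u : E) :
    pf T g u = ‖steer T g u‖ ^ 2 + mval T g (steer T g u) := by
  unfold pf steer mval
  set h := res T g u with hh
  have h1 : ⟪h, u⟫ = ⟪T h, h⟫ + g * ‖h‖ ^ 2 := res_form hT hg u
  rw [norm_smul, mul_pow, map_smul, inner_smul_left, inner_smul_right, h1]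
  simp only [conj_trivial, Real.norm_eq_abs, sq_abs]
  field_simp
  ring

lemma mval_nonneg (hT : PosOp T) (hg : 0 < g) (y : E) : 0 ≤ mval T g y :=
  div_nonneg (hT.nonneg y) hg.le

/-- The key inequality. -/
lemma key_ineq (hT : PosOp T) (hT'' : PosOp T'') (hle : ∀ w, ⟪T'' w, w⟫ ≤ ⟪T w, w⟫) (hg : 0 < g)
    (y z : E) :
    pf T'' g (y + z) ≤ ‖y‖ ^ 2 + 2 * ⟪y, z⟫ + (1 / 2) * mval T g y + 3 * pf T'' g z := by
  have hR := res_posOp hT'' hg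
  set R := res T'' g with hRe
  set w := R z with hw
  have h1 : pf T'' g (y + z) = g * ⟪R y, y⟫ + 2 * (g * ⟪y, w⟫) + g * ⟪w, z⟫ := by
    unfold pf
    rw [hR.form_add]
    have : ⟪R y, z⟫ = ⟪y, w⟫ := hR.symm y z
    rw [this]
    ring
  have h2 : g * ⟪R y, y⟫ ≤ ‖y‖ ^ 2 := res_form_le hT'' hg y
  have h3 : ⟪y, z⟫ = ⟪y, T'' w⟫ + g * ⟪y, w⟫ := by
    have := res_right hT'' hg z
    conv_lhs => rw [← this]
    rw [inner_add_right, inner_smul_right]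
  have h4 : pf T'' g z = g * ⟪w, z⟫ := rfl
  have h5 : 0 ≤ pf T'' g z := pf_nonneg hT'' hg z
  -- bound for the cross term
  have h6 : ⟪T'' w, w⟫ * g ≤ pf T'' g z := by
    have h7 : ⟪w, z⟫ = ⟪T'' w, w⟫ + g * ‖w‖ ^ 2 := res_form hT'' hg z
    rw [h4, h7]
    have : 0 ≤ g * ‖w‖ ^ 2 := by positivity
    nlinarith
  have h8 : ⟪T'' y, w⟫ ^ 2 ≤ ⟪T'' y, y⟫ * ⟪T'' w, w⟫ := hT''.cauchy y w
  have h9 : ⟪y, T'' w⟫ = ⟪T'' y, w⟫ := (hT''.symm y w).symm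
  have hm : ⟪T'' y, y⟫ ≤ g * mval T g y := by
    unfold mval
    have := hle y
    field_simp
    exact this
  have hm0 : 0 ≤ mval T g y := mval_nonneg hT hg y
  have hW0 : 0 ≤ ⟪T'' w, w⟫ := hT''.nonneg w
  have h10 : ⟪y, T'' w⟫ ^ 2 ≤ mval T g y * pf T'' g z := by
    rw [h9]
    calc ⟪T'' y, w⟫ ^ 2 ≤ ⟪T'' y, y⟫ * ⟪T'' w, w⟫ := h8
      _ ≤ (g * mval T g y) * ⟪T'' w, w⟫ := mul_le_mul_of_nonneg_right hm hW0
      _ = mval T g y * (⟪T'' w, w⟫ * g) := by ring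
      _ ≤ mval T g y * pf T'' g z := mul_le_mul_of_nonneg_left h6 hm0
  have h11 : -2 * ⟪y, T'' w⟫ ≤ (1 / 2) * mval T g y + 2 * pf T'' g z := by
    nlinarith [sq_nonneg ((1 / 2) * mval T g y - 2 * pf T'' g z),
      sq_nonneg ((1 / 2) * mval T g y + 2 * pf T'' g z + 2 * ⟪y, T'' w⟫),
      sq_nonneg (⟪y, T'' w⟫)]
  rw [h1]
  nlinarith

lemma form_res_le (hT : PosOp T) (hg : 0 < g) (v : E) :
    g * ⟪T (res T g v), res T g v⟫ ≤ ‖v‖ ^ 2 := by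
  have h1 := res_form_le hT hg v
  have h2 := res_form hT hg v
  have h3 : 0 ≤ g * (g * ‖res T g v‖ ^ 2) := by positivity
  rw [h2] at h1
  nlinarith

/-- The cross term with a vector of the form `T res v`. -/
lemma cross_res (hT : PosOp T) (hg : 0 < g) (y v : E) :
    2 * ⟪y, T (res T g v)⟫ ≤ (1 / 4) * mval T g y + 4 * ‖v‖ ^ 2 := by
  set z := res T g v with hz
  have h1 : ⟪T y, z⟫ ^ 2 ≤ ⟪T y, y⟫ * ⟪T z, z⟫ := hT.cauchy y z
  have h2 : ⟪y, T z⟫ = ⟪T y, z⟫ := (hT.symm y z).symm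
  have h3 : g * ⟪T z, z⟫ ≤ ‖v‖ ^ 2 := form_res_le hT hg v
  have h4 : ⟪T y, y⟫ = g * mval T g y := by
    unfold mval
    field_simp
  have h5 : 0 ≤ mval T g y := mval_nonneg hT hg y
  have h6 : ⟪y, T z⟫ ^ 2 ≤ mval T g y * ‖v‖ ^ 2 := by
    rw [h2]
    calc ⟪T y, z⟫ ^ 2 ≤ ⟪T y, y⟫ * ⟪T z, z⟫ := h1
      _ = mval T g y * (g * ⟪T z, z⟫) := by rw [h4]; ring
      _ ≤ _ := mul_le_mul_of_nonneg_left h3 h5
  nlinarith [sq_nonneg ((1 / 4) * mval T g y - 4 * ‖v‖ ^ 2),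
      sq_nonneg ((1 / 4) * mval T g y + 4 * ‖v‖ ^ 2 - 2 * ⟪y, T z⟫), sq_nonneg ⟪y, T z⟫]

/-- Sum over thick eigenvalues. -/
noncomputable def tauS {n : ℕ} (μ : Fin n → ℝ) (Th : Finset (Fin n)) (κ : ℝ) : ℝ :=
  ∑ k ∈ Th, κ / (μ k + κ)

variable {n : ℕ} {b : OrthonormalBasis (Fin n) ℝ E} {μ : Fin n → ℝ} {Th : Finset (Fin n)}

lemma tauS_nonneg (hμ : ∀ k, 0 ≤ μ k) {κ : ℝ} (hκ : 0 < κ) : 0 ≤ tauS μ Th κ :=
  Finset.sum_nonneg (fun k _ => by have := hμ k; positivity)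

/-- The cross term with a thick vector. -/
lemma cross_thick (hT : PosOp T) (hb : ∀ k, T (b k) = μ k • b k) (hμ : ∀ k, 0 ≤ μ k) (hg : 0 < g)
    (hTh : ∀ k ∈ Th, 32 * g ≤ μ k) (y G : E) (hG : ∀ k, k ∉ Th → ⟪b k, G⟫ = 0) :
    2 * ⟪y, G⟫ ≤ (1 / 4) * mval T g y + 4 * ∑ k ∈ Th, g / μ k * ⟪b k, G⟫ ^ 2 := by
  have h1 : ⟪y, G⟫ = ∑ k ∈ Th, ⟪b k, y⟫ * ⟪b k, G⟫ := by
    rw [inner_eq_sum b]
    symm
    apply Finset.sum_subset (Finset.subset_univ _)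
    intro k _ hk
    rw [hG k hk, mul_zero]
  have h2 : mval T g y = ∑ k, μ k / g * ⟪b k, y⟫ ^ 2 := by
    unfold mval
    rw [form_eq_sum hT hb, Finset.sum_div]
    refine Finset.sum_congr rfl (fun k _ => ?_)
    ring
  have h3 : ∑ k ∈ Th, μ k / g * ⟪b k, y⟫ ^ 2 ≤ mval T g y := by
    rw [h2]
    apply Finset.sum_le_sum_of_subset_of_nonneg (Finset.subset_univ _)
    intro k _ _
    have := hμ k
    positivity
  have h4 : ∑ k ∈ Th, 2 * (⟪b k, y⟫ * ⟪b k, G⟫) ≤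
      ∑ k ∈ Th, ((1 / 4) * (μ k / g * ⟪b k, y⟫ ^ 2) + 4 * (g / μ k * ⟪b k, G⟫ ^ 2)) := by
    refine Finset.sum_le_sum (fun k hk => ?_)
    have hk1 : 0 < μ k := by
      have := hTh k hk
      linarith
    have h5 : (1 / 4) * (μ k / g * ⟪b k, y⟫ ^ 2) + 4 * (g / μ k * ⟪b k, G⟫ ^ 2) -
        2 * (⟪b k, y⟫ * ⟪b k, G⟫) =
        (μ k * ⟪b k, y⟫ - 4 * g * ⟪b k, G⟫) ^ 2 / (4 * g * μ k) := by
      field_simp
      ring
    have h6 : 0 ≤ (μ k * ⟪b k, y⟫ - 4 * g * ⟪b k, G⟫) ^ 2 / (4 * g * μ k) := by positivity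
    linarith
  rw [h1, Finset.mul_sum]
  refine h4.trans ?_
  rw [Finset.sum_add_distrib, ← Finset.mul_sum, ← Finset.mul_sum]
  linarith

lemma norm_T_res_le (hT : PosOp T) (hb : ∀ k, T (b k) = μ k • b k) (hμ : ∀ k, 0 ≤ μ k) (hg : 0 < g)
    (v : E) : ‖T (res T g v)‖ ^ 2 ≤ ‖v‖ ^ 2 := by
  rw [norm_sq_eq_sum b, norm_sq_eq_sum b v]
  refine Finset.sum_le_sum (fun k _ => ?_)
  rw [eig_inner hT hb, res_inner_basis hT hb hμ hg]
  have h1 := hμ k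
  have h2 : μ k * (⟪b k, v⟫ / (μ k + g)) = μ k / (μ k + g) * ⟪b k, v⟫ := by ring
  rw [h2, mul_pow]
  have h3 : 0 ≤ μ k / (μ k + g) := by positivity
  have h4 : μ k / (μ k + g) ≤ 1 := by
    rw [div_le_one (by positivity)]
    linarith
  have h5 : (μ k / (μ k + g)) ^ 2 ≤ 1 := pow_le_one₀ h3 h4
  nlinarith [sq_nonneg ⟪b k, v⟫]

/-- The full cost bound for a new point along a descendant. -/
theorem chain_cost (hT : PosOp T) (hT'' : PosOp T'') (hle : ∀ w, ⟪T'' w, w⟫ ≤ ⟪T w, w⟫)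
    (hb : ∀ k, T (b k) = μ k • b k) (hμ : ∀ k, 0 ≤ μ k) (hg : 0 < g)
    (hTh : ∀ k ∈ Th, 32 * g ≤ μ k) {κ : ℝ} (hκ : 2 * g ≤ κ)
    (hup : ∀ v, (1 / 2) * pf T'' g v ≤ pf T κ v)
    (u e G₁ G₂ : E) {B S₀ C₃ : ℝ}
    (hG₁ : ∀ k, k ∉ Th → ⟪b k, G₁⟫ = 0) (hG₁n : ‖G₁‖ ≤ C₃)
    (hye : ⟪steer T g u, e⟫ ≤ 0)
    (j : Fin n → ℝ) (hj0 : ∀ k ∈ Th, 0 < j k) (hj : ∀ k ∈ Th, j k * (κ / (μ k + κ)) ≤ tauS μ Th κ)
    (h1 : ∑ k ∈ Th, ⟪b k, e⟫ ^ 2 / j k ≤ B) (h2 : ∑ k ∈ Thᶜ, ⟪b k, e⟫ ^ 2 ≤ S₀) :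
    pf T'' g (steer T g u + (e + G₁ + T (res T g G₂))) ≤
      pf T g u + (18 * B + 22 * C₃ ^ 2) * tauS μ Th κ + 18 * S₀ + 13 * ‖G₂‖ ^ 2 := by
  set y := steer T g u with hy
  set τ := tauS μ Th κ with hτ
  have hκ0 : 0 < κ := by linarith
  have hτ0 : 0 ≤ τ := tauS_nonneg hμ hκ0
  set Ξ := T (res T g G₂) with hΞ
  have hm0 : 0 ≤ mval T g y := mval_nonneg hT hg y
  have hkey := key_ineq hT hT'' hle hg y (e + G₁ + Ξ)
  have hcross : ⟪y, e + G₁ + Ξ⟫ = ⟪y, e⟫ + ⟪y, G₁⟫ + ⟪y, Ξ⟫ := by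
    rw [inner_add_right, inner_add_right]
  have hc1 := cross_thick hT hb hμ hg hTh y G₁ hG₁
  have hc2 := cross_res hT hg y G₂
  rw [← hΞ] at hc2
  -- coordinates of the thick vector
  have hcoord : ∀ k, ⟪b k, G₁⟫ ^ 2 ≤ C₃ ^ 2 := by
    intro k
    have h3 : |⟪b k, G₁⟫| ≤ ‖b k‖ * ‖G₁‖ := abs_real_inner_le_norm _ _
    rw [b.orthonormal.1 k, one_mul] at h3
    rw [← sq_abs]
    exact pow_le_pow_left₀ (abs_nonneg _) (h3.trans hG₁n) 2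
  have hfk : ∀ k, 0 ≤ κ / (μ k + κ) := fun k => by have := hμ k; positivity
  have hf1 : ∀ k, κ / (μ k + κ) ≤ 1 := fun k => by
    have := hμ k
    rw [div_le_one (by positivity)]
    linarith
  -- Lambda
  have hΛ : ∑ k ∈ Th, g / μ k * ⟪b k, G₁⟫ ^ 2 ≤ τ * C₃ ^ 2 := by
    rw [hτ, tauS, Finset.sum_mul]
    refine Finset.sum_le_sum (fun k hk => ?_)
    have hk1 := hTh k hk
    have hk2 : 0 < μ k := by linarith
    have h3 : g / μ k ≤ κ / (μ k + κ) := by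
      rw [div_le_div_iff₀ hk2 (by positivity)]
      nlinarith
    have h4 : 0 ≤ g / μ k := by positivity
    exact mul_le_mul h3 (hcoord k) (sq_nonneg _) (hfk k)
  -- costs under the large parameter
  have hpfe : pf T κ e ≤ τ * B + S₀ := by
    rw [pf_eq_sum hT hb hμ hκ0, ← Finset.sum_add_sum_compl Th]
    have h3 : ∑ k ∈ Th, κ / (μ k + κ) * ⟪b k, e⟫ ^ 2 ≤ τ * B := by
      calc _ ≤ ∑ k ∈ Th, τ * (⟪b k, e⟫ ^ 2 / j k) := by
            refine Finset.sum_le_sum (fun k hk => ?_)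
            have hj1 := hj0 k hk
            have hj2 := hj k hk
            have h4 : κ / (μ k + κ) ≤ τ / j k := by
              rw [le_div_iff₀ hj1]
              linarith
            calc κ / (μ k + κ) * ⟪b k, e⟫ ^ 2 ≤ τ / j k * ⟪b k, e⟫ ^ 2 :=
                  mul_le_mul_of_nonneg_right h4 (sq_nonneg _)
              _ = _ := by ring
        _ = τ * ∑ k ∈ Th, ⟪b k, e⟫ ^ 2 / j k := by rw [Finset.mul_sum]
        _ ≤ τ * B := mul_le_mul_of_nonneg_left h1 hτ0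
    have h4 : ∑ k ∈ Thᶜ, κ / (μ k + κ) * ⟪b k, e⟫ ^ 2 ≤ S₀ := by
      refine le_trans (Finset.sum_le_sum (fun k _ => ?_)) h2
      have := hf1 k
      nlinarith [sq_nonneg ⟪b k, e⟫]
    linarith
  have hpfG : pf T κ G₁ ≤ τ * C₃ ^ 2 := by
    rw [pf_eq_sum hT hb hμ hκ0, hτ, tauS, Finset.sum_mul]
    have h3 : ∑ k, κ / (μ k + κ) * ⟪b k, G₁⟫ ^ 2 = ∑ k ∈ Th, κ / (μ k + κ) * ⟪b k, G₁⟫ ^ 2 := by
      symm
      apply Finset.sum_subset (Finset.subset_univ _)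
      intro k _ hk
      rw [hG₁ k hk]
      simp
    rw [h3]
    refine Finset.sum_le_sum (fun k _ => ?_)
    exact mul_le_mul_of_nonneg_left (hcoord k) (hfk k)
  have hpfe' : pf T'' g e ≤ 2 * (τ * B + S₀) := by
    have := hup e
    linarith
  have hpfG' : pf T'' g G₁ ≤ 2 * (τ * C₃ ^ 2) := by
    have := hup G₁
    linarith
  have hpfΞ : pf T'' g Ξ ≤ ‖G₂‖ ^ 2 :=
    (pf_le hT'' hg Ξ).trans (norm_T_res_le hT hb hμ hg G₂)
  have h3 := pf_add3 hT'' hg e G₁ Ξ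
  have h4 := pf_steer hT hg u
  rw [← hy] at h4
  rw [hcross] at hkey
  rw [h4]
  have h5 : 4 * ∑ k ∈ Th, g / μ k * ⟪b k, G₁⟫ ^ 2 ≤ 4 * (τ * C₃ ^ 2) := by linarith
  nlinarith

/-- The payment of the trace potential for a descendant. -/
theorem psi_pay {D ζ ξ : ℝ} {a : ℕ} (hT : PosOp T) (hT'' : PosOp T'')
    (hle : ∀ w, ⟪T'' w, w⟫ ≤ ⟪T w, w⟫) (hn : finrank ℝ E = n)
    (hb : ∀ k, T (b k) = μ k • b k) (hμ : ∀ k, 0 ≤ μ k) (hg : 0 < g)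
    (hTh : ∀ k ∈ Th, 32 * g ≤ μ k) (hD : 0 ≤ D) (hζ : 0 ≤ ζ)
    (hξ : 2 * D / g + 7 * ζ / Real.sqrt g ≤ ξ) (hξ0 : 0 ≤ ξ) (hξ1 : ξ ≤ 1 / 20)
    (hc : Comp D ζ g T T'' (a + 1)) :
    (2 / 5) * tauS μ Th (2 ^ (a + 1) * g) ≤ psi T g - psi T'' g := by
  set κ : ℝ := 2 ^ (a + 1) * g with hκ
  have hκ0 : 0 < κ := by positivity
  have hκ2 : 2 * g ≤ κ := by
    rw [hκ, pow_succ]
    have h1 : (1 : ℝ) ≤ 2 ^ a := one_le_pow₀ (by norm_num)
    nlinarith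
  rw [psi_eq_basis hn b T g, psi_eq_basis hn b T'' g, ← Finset.sum_sub_distrib]
  rw [tauS, Finset.mul_sum]
  have h1 : ∑ k ∈ Th, (2 / 5 : ℝ) * (κ / (μ k + κ)) ≤
      ∑ k ∈ Th, ((1 - pf T g (b k)) - (1 - pf T'' g (b k))) := by
    refine Finset.sum_le_sum (fun k hk => ?_)
    have hk1 := hTh k hk
    have hk2 : 0 < μ k := by linarith
    have h2 := comp_pf_lower hT hT'' hD hζ hg hξ hξ0 hc (b k)
    rw [pf_basis hT hb hμ (by positivity), ← hκ] at h2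
    have h3 := pf_basis hT hb hμ hg k
    rw [h3]
    -- numeric comparison
    have h4 : g / (μ k + g) ≤ (17 / 33) * (κ / (μ k + κ)) := by
      rw [div_le_iff₀ (by positivity)]
      have h5 : (17 / 33 : ℝ) * (κ / (μ k + κ)) * (μ k + g) =
          (17 / 33 : ℝ) * (κ * (μ k + g)) / (μ k + κ) := by ring
      rw [h5, le_div_iff₀ (by positivity)]
      nlinarith
    have h6 : (1 + ξ) * pf T'' g (b k) ≤ (21 / 20) * pf T'' g (b k) := by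
      have := pf_nonneg hT'' hg (b k)
      nlinarith
    have h7 : κ / (μ k + κ) ≤ (21 / 20) * pf T'' g (b k) := h2.trans h6
    have hf0 : 0 ≤ κ / (μ k + κ) := by positivity
    linarith
  refine h1.trans ?_
  apply Finset.sum_le_sum_of_subset_of_nonneg (Finset.subset_univ _)
  intro k _ _
  have := pf_anti hT'' hT hle hg (b k)
  linarith

end key

end Vale.Agent.Lib.P262.U
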