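import Vale.Agent.Lib.P262.U.Potential

/-!
Comparison of descendants with an ancestor: the halving relation.
-/

open scoped RealInnerProductSpace BigOperators
open Module

set_option linter.unusedSectionVars false

namespace Vale.Agent.Lib.P262.U

variable {E : Type*} [NormedAddCommGroup E] [InnerProductSpace ℝ E] [FiniteDimensional ℝ E]

/-- The operator `T'` looks like `(1/2)^a TC` up to controlled errors. -/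
def Comp (D ζ g : ℝ) (TC T' : E →ₗ[ℝ] E) (a : ℕ) : Prop :=
  ∀ v, |⟪T' v, v⟫ - (1 / 2 : ℝ) ^ a * ⟪TC v, v⟫| ≤
    2 * D * ‖v‖ ^ 2 + 7 * ζ * ‖v‖ * Real.sqrt ((1 / 2 : ℝ) ^ a * ⟪TC v, v⟫ + g * ‖v‖ ^ 2)

lemma comp_zero {D ζ g : ℝ} (hD : 0 ≤ D) (hζ : 0 ≤ ζ) (TC : E →ₗ[ℝ] E) : Comp D ζ g TC TC 0 := by
  intro v
  simp only [pow_zero, one_mul, sub_self, abs_zero]
  have := Real.sqrt_nonneg (⟪TC v, v⟫ + g * ‖v‖ ^ 2)
  positivity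

lemma comp_step {D ζ g : ℝ} {TC T M : E →ₗ[ℝ] E} {a : ℕ} (hTC : PosOp TC) (hT : PosOp T)
    (hD : 0 ≤ D) (hζ : 0 ≤ ζ) (hg : 0 < g) (h2D : 2 * D ≤ g) (h7 : 7 * ζ ≤ Real.sqrt g)
    (hc : Comp D ζ g TC T a)
    (hb : ∀ v, |⟪M v, v⟫ - (1 / 2 : ℝ) * ⟪T v, v⟫| ≤ D * ‖v‖ ^ 2 + ζ * ‖v‖ * Real.sqrt ⟪T v, v⟫) :
    Comp D ζ g TC M (a + 1) := by
  intro v
  set Aa := (1 / 2 : ℝ) ^ a * ⟪TC v, v⟫ with hAa
  have hAa0 : 0 ≤ Aa := mul_nonneg (by positivity) (hTC.nonneg v)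
  set X := Aa + g * ‖v‖ ^ 2 with hX
  have hX0 : 0 ≤ X := by positivity
  set X' := (1 / 2 : ℝ) ^ (a + 1) * ⟪TC v, v⟫ + g * ‖v‖ ^ 2 with hX'
  have hX'e : X' = (1 / 2) * Aa + g * ‖v‖ ^ 2 := by
    rw [hX', hAa, pow_succ]
    ring
  have hn0 : 0 ≤ ‖v‖ := norm_nonneg v
  have hgn : 0 ≤ g * ‖v‖ ^ 2 := by positivity
  have hX'0 : 0 ≤ X' := by rw [hX'e]; positivity
  set r := Real.sqrt X' with hr
  have hr0 : 0 ≤ r := Real.sqrt_nonneg _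
  have hr2 : r ^ 2 = X' := Real.sq_sqrt hX'0
  -- square root of g
  have hsg0 : 0 ≤ Real.sqrt g := Real.sqrt_nonneg _
  have hsg2 : Real.sqrt g ^ 2 = g := Real.sq_sqrt hg.le
  have hsX0 : 0 ≤ Real.sqrt X := Real.sqrt_nonneg _
  have hsX2 : Real.sqrt X ^ 2 = X := Real.sq_sqrt hX0
  -- `√g ‖v‖ ≤ √X`
  have h1 : Real.sqrt g * ‖v‖ ≤ Real.sqrt X := by
    apply Real.le_sqrt_of_sq_le
    rw [mul_pow, hsg2, hX]
    linarith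
  have hc' := abs_le.mp (hc v)
  have herr : 7 * ζ * ‖v‖ * Real.sqrt X ≤ X := by
    have h2 : 7 * ζ * ‖v‖ ≤ Real.sqrt X := by
      have : 7 * ζ * ‖v‖ ≤ Real.sqrt g * ‖v‖ := mul_le_mul_of_nonneg_right h7 hn0
      linarith
    calc 7 * ζ * ‖v‖ * Real.sqrt X ≤ Real.sqrt X * Real.sqrt X :=
          mul_le_mul_of_nonneg_right h2 hsX0
      _ = X := by rw [← sq, hsX2]
  have hD2 : 2 * D * ‖v‖ ^ 2 ≤ g * ‖v‖ ^ 2 := mul_le_mul_of_nonneg_right h2D (by positivity)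
  have hT2 : ⟪T v, v⟫ ≤ 2 * X := by
    have := hc'.2
    have hXe : Aa + g * ‖v‖ ^ 2 = X := rfl
    linarith
  have hT0 : 0 ≤ ⟪T v, v⟫ := hT.nonneg v
  have hsT : Real.sqrt ⟪T v, v⟫ ≤ 2 * r := by
    apply Real.sqrt_le_iff.mpr
    refine ⟨by positivity, ?_⟩
    have : (2 * r) ^ 2 = 4 * X' := by rw [mul_pow, hr2]; norm_num
    rw [this, hX'e]
    nlinarith
  have hsX : Real.sqrt X ≤ 1.42 * r := by
    apply Real.sqrt_le_iff.mpr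
    refine ⟨by positivity, ?_⟩
    have : (1.42 * r) ^ 2 = 2.0164 * X' := by rw [mul_pow, hr2]; norm_num
    rw [this, hX'e, hX]
    nlinarith
  have hbv := abs_le.mp (hb v)
  have hz : 0 ≤ ζ * ‖v‖ := by positivity
  have h3 : ζ * ‖v‖ * Real.sqrt ⟪T v, v⟫ ≤ ζ * ‖v‖ * (2 * r) :=
    mul_le_mul_of_nonneg_left hsT hz
  have h4 : ζ * ‖v‖ * Real.sqrt X ≤ ζ * ‖v‖ * (1.42 * r) :=
    mul_le_mul_of_nonneg_left hsX hz
  have h5 : 0 ≤ ζ * ‖v‖ * r := by positivity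
  have hpow : (1 / 2 : ℝ) ^ (a + 1) * ⟪TC v, v⟫ = (1 / 2) * Aa := by
    rw [hAa, pow_succ]
    ring
  rw [hpow]
  have h6 : 7 * ζ * ‖v‖ * Real.sqrt X = 7 * (ζ * ‖v‖ * Real.sqrt X) := by ring
  have h7' : 7 * ζ * ‖v‖ * r = 7 * (ζ * ‖v‖ * r) := by ring
  rw [abs_le]
  rw [h6] at hc'
  constructor
  · have := hc'.1
    have := hbv.1
    rw [h7']
    nlinarith
  · have := hc'.2
    have := hbv.2
    rw [h7']
    nlinarith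

/-- Comparison in relative form. -/
lemma comp_rel {D ζ g ξ : ℝ} {TC T' : E →ₗ[ℝ] E} {a : ℕ} (hTC : PosOp TC)
    (hD : 0 ≤ D) (hζ : 0 ≤ ζ) (hg : 0 < g) (hξ : 2 * D / g + 7 * ζ / Real.sqrt g ≤ ξ)
    (hc : Comp D ζ g TC T' a) (v : E) :
    |⟪T' v, v⟫ - (1 / 2 : ℝ) ^ a * ⟪TC v, v⟫| ≤ ξ * ((1 / 2 : ℝ) ^ a * ⟪TC v, v⟫ + g * ‖v‖ ^ 2) := by
  refine (hc v).trans ?_
  set Aa := (1 / 2 : ℝ) ^ a * ⟪TC v, v⟫ with hAa
  have hAa0 : 0 ≤ Aa := mul_nonneg (by positivity) (hTC.nonneg v)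
  set X := Aa + g * ‖v‖ ^ 2 with hX
  have hX0 : 0 ≤ X := by positivity
  have hn0 : 0 ≤ ‖v‖ := norm_nonneg v
  have hsg0 : 0 < Real.sqrt g := Real.sqrt_pos.mpr hg
  have hsg2 : Real.sqrt g ^ 2 = g := Real.sq_sqrt hg.le
  have hsX0 : 0 ≤ Real.sqrt X := Real.sqrt_nonneg _
  have hsX2 : Real.sqrt X ^ 2 = X := Real.sq_sqrt hX0
  have h1 : Real.sqrt g * ‖v‖ ≤ Real.sqrt X := by
    apply Real.le_sqrt_of_sq_le
    rw [mul_pow, hsg2, hX]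
    linarith
  have h2 : 2 * D * ‖v‖ ^ 2 = 2 * D / g * (g * ‖v‖ ^ 2) := by
    field_simp
  have h3 : 2 * D / g * (g * ‖v‖ ^ 2) ≤ 2 * D / g * X := by
    apply mul_le_mul_of_nonneg_left _ (by positivity)
    rw [hX]
    linarith
  have h4 : 7 * ζ * ‖v‖ * Real.sqrt X = 7 * ζ / Real.sqrt g * (Real.sqrt g * ‖v‖) * Real.sqrt X := by
    field_simp
  have h5 : 7 * ζ / Real.sqrt g * (Real.sqrt g * ‖v‖) * Real.sqrt X ≤ 7 * ζ / Real.sqrt g * X := by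
    have h6 : Real.sqrt g * ‖v‖ * Real.sqrt X ≤ X := by
      calc Real.sqrt g * ‖v‖ * Real.sqrt X ≤ Real.sqrt X * Real.sqrt X :=
            mul_le_mul_of_nonneg_right h1 hsX0
        _ = X := by rw [← sq, hsX2]
    have h7 : 0 ≤ 7 * ζ / Real.sqrt g := by positivity
    calc _ = 7 * ζ / Real.sqrt g * (Real.sqrt g * ‖v‖ * Real.sqrt X) := by ring
      _ ≤ _ := mul_le_mul_of_nonneg_left h6 h7
  have h8 : (2 * D / g + 7 * ζ / Real.sqrt g) * X ≤ ξ * X := mul_le_mul_of_nonneg_right hξ hX0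
  rw [h2, h4]
  linarith

lemma comp_pf_upper {D ζ g ξ : ℝ} {TC T' : E →ₗ[ℝ] E} {a : ℕ} (hTC : PosOp TC) (hT' : PosOp T')
    (hD : 0 ≤ D) (hζ : 0 ≤ ζ) (hg : 0 < g) (hξ : 2 * D / g + 7 * ζ / Real.sqrt g ≤ ξ)
    (hξ1 : ξ < 1) (hc : Comp D ζ g TC T' a) (v : E) :
    (1 - ξ) * pf T' g v ≤ pf TC (2 ^ a * g) v := by
  have hpos : (0 : ℝ) < 2 ^ a := by positivity
  have hinv : (1 / 2 : ℝ) ^ a * 2 ^ a = 1 := by
    rw [← mul_pow]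
    norm_num
  have h := res_le_of_form hT' hTC (κ := g) (σ := 2 ^ a * g) (c := (1 - ξ) * (1 / 2 : ℝ) ^ a) hg
    (by positivity) (mul_pos (by linarith) (by positivity)) (fun w => by
      have h1 := abs_le.mp (comp_rel hTC hD hζ hg hξ hc w)
      have h2 : (1 - ξ) * (1 / 2 : ℝ) ^ a * (⟪TC w, w⟫ + 2 ^ a * g * ‖w‖ ^ 2) =
          (1 - ξ) * ((1 / 2 : ℝ) ^ a * ⟪TC w, w⟫ + ((1 / 2 : ℝ) ^ a * 2 ^ a) * (g * ‖w‖ ^ 2)) := by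
        ring
      rw [h2, hinv, one_mul]
      have h3 := h1.1
      nlinarith [h3]) v
  unfold pf
  have h4 := mul_le_mul_of_nonneg_left h (by positivity : 0 ≤ 2 ^ a * g)
  have h5 : 2 ^ a * g * ((1 - ξ) * (1 / 2 : ℝ) ^ a * ⟪res T' g v, v⟫) =
      ((1 / 2 : ℝ) ^ a * 2 ^ a) * ((1 - ξ) * (g * ⟪res T' g v, v⟫)) := by ring
  rw [h5, hinv, one_mul] at h4
  exact h4

lemma comp_pf_lower {D ζ g ξ : ℝ} {TC T' : E →ₗ[ℝ] E} {a : ℕ} (hTC : PosOp TC) (hT' : PosOp T')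
    (hD : 0 ≤ D) (hζ : 0 ≤ ζ) (hg : 0 < g) (hξ : 2 * D / g + 7 * ζ / Real.sqrt g ≤ ξ)
    (hξ0 : 0 ≤ ξ) (hc : Comp D ζ g TC T' a) (v : E) :
    pf TC (2 ^ a * g) v ≤ (1 + ξ) * pf T' g v := by
  have hpos : (0 : ℝ) < 2 ^ a := by positivity
  have hinv : (2 : ℝ) ^ a * (1 / 2) ^ a = 1 := by
    rw [← mul_pow]
    norm_num
  have h1ξ : 0 < 1 + ξ := by linarith
  have h := res_le_of_form hTC hT' (κ := 2 ^ a * g) (σ := g) (c := 2 ^ a / (1 + ξ)) (by positivity)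
    hg (by positivity) (fun w => by
      have h1 := abs_le.mp (comp_rel hTC hD hζ hg hξ hc w)
      have h2 : ⟪TC w, w⟫ + 2 ^ a * g * ‖w‖ ^ 2 =
          2 ^ a * ((1 / 2 : ℝ) ^ a * ⟪TC w, w⟫ + g * ‖w‖ ^ 2) := by
        have : (2 : ℝ) ^ a * ((1 / 2 : ℝ) ^ a * ⟪TC w, w⟫ + g * ‖w‖ ^ 2) =
            ((2 : ℝ) ^ a * (1 / 2) ^ a) * ⟪TC w, w⟫ + 2 ^ a * g * ‖w‖ ^ 2 := by ring
        rw [this, hinv, one_mul]
      rw [h2, div_mul_eq_mul_div, div_le_iff₀ h1ξ]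
      have h3 := h1.2
      have h4 : ⟪T' w, w⟫ + g * ‖w‖ ^ 2 ≤ (1 + ξ) * ((1 / 2 : ℝ) ^ a * ⟪TC w, w⟫ + g * ‖w‖ ^ 2) := by
        nlinarith [h3]
      calc 2 ^ a * (⟪T' w, w⟫ + g * ‖w‖ ^ 2)
          ≤ 2 ^ a * ((1 + ξ) * ((1 / 2 : ℝ) ^ a * ⟪TC w, w⟫ + g * ‖w‖ ^ 2)) :=
            mul_le_mul_of_nonneg_left h4 hpos.le
        _ = _ := by ring) v
  unfold pf
  have h4 := mul_le_mul_of_nonneg_left h (by positivity : 0 ≤ (1 + ξ) * g)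
  have h5 : (1 + ξ) * g * (2 ^ a / (1 + ξ) * ⟪res TC (2 ^ a * g) v, v⟫) =
      2 ^ a * g * ⟪res TC (2 ^ a * g) v, v⟫ := by
    field_simp
  rw [h5] at h4
  calc _ ≤ _ := h4
    _ = _ := by ring

end Vale.Agent.Lib.P262.U
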