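import Vale.Agent.Lib.P262.U.Chain

/-!
The energy of committed items: the telescoping of the dyadic sums.
-/

open scoped RealInnerProductSpace BigOperators
open Module

set_option linter.unusedSectionVars false

namespace Vale.Agent.Lib.P262.U

variable {E : Type*} [NormedAddCommGroup E] [InnerProductSpace ℝ E] [FiniteDimensional ℝ E]
variable {ι : Type*} [DecidableEq ι]
variable {n : ℕ} {b : OrthonormalBasis (Fin n) ℝ E} {μ : Fin n → ℝ}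

lemma sproj_symm (b : OrthonormalBasis (Fin n) ℝ E) (S : Finset (Fin n)) (v w : E) :
    ⟪sproj b S v, w⟫ = ⟪v, sproj b S w⟫ := by
  rw [sproj_inner_right, real_inner_comm, sproj_inner_right]
  refine Finset.sum_congr rfl (fun k _ => ?_)
  ring


lemma form_sproj {T : E →ₗ[ℝ] E} (hT : PosOp T) (hb : ∀ k, T (b k) = μ k • b k)
    (S : Finset (Fin n)) (w : E) : ⟪T (sproj b S w), sproj b S w⟫ = ∑ k ∈ S, μ k * ⟪b k, w⟫ ^ 2 := by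
  rw [form_eq_sum hT hb]
  simp_rw [sproj_inner]
  rw [← Finset.sum_subset (Finset.subset_univ S)]
  · refine Finset.sum_congr rfl (fun k hk => ?_)
    rw [if_pos hk]
    ring
  · intro k _ hk
    rw [if_neg hk]
    simp

lemma inner_item_sq_le {v : E} (hv : ‖v‖ ≤ 1) (w : E) : ⟪v, w⟫ ^ 2 ≤ ‖w‖ ^ 2 := by
  have h1 : |⟪v, w⟫| ≤ ‖v‖ * ‖w‖ := abs_real_inner_le_norm _ _
  have h2 : ‖v‖ * ‖w‖ ≤ 1 * ‖w‖ := mul_le_mul_of_nonneg_right hv (norm_nonneg _)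
  rw [← sq_abs]
  exact pow_le_pow_left₀ (abs_nonneg _) (by linarith) 2

section mid

variable (x : ι → E) (A I : Finset ι) (hb : ∀ k, (rkS x A) (b k) = μ k • b k) (hμ : ∀ k, 0 ≤ μ k)
  (Th Ac : Finset (Fin n))

include hb hμ in
/-- The bound for the deviation from halving on a test vector. -/
lemma xform_bound (hx : ∀ i, ‖x i‖ ≤ 1) {E₂ ε η ζ κ : ℝ} {D : ℕ} (hE₂ : 2 ≤ E₂)
    (hTh : ∀ k ∈ Th, E₂ ≤ μ k) (hAc : Disjoint Th Ac)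
    (hDe : ∀ k, k ∉ Th → k ∉ Ac → μ k ≤ ε * η ^ 2 / 4)
    (hsoft : ∀ i ∈ A, ‖sproj b Thᶜ (x i)‖ ^ 2 ≤ ε) {h : E} (hζ : 0 ≤ ζ)
    (hh : ⟪rkS x A h, h⟫ ≤ ζ ^ 2) {σ : ℝ} (hσ : |σ| ≤ 1) (a : ι → ℝ) (F' : Finset ι) (hF' : F' ⊆ A)
    (hcard : F'.card ≤ D) (ha : ∀ i ∈ F', |a i| ≤ 1)
    (hbal : ∀ v, ⟪rkS x I v, v⟫ = (1 / 2) * ⟪rkS x A v, v⟫ +
      σ * ∑ i ∈ A, ⟪x i, h⟫ * ⟪x i, v⟫ ^ 2 + ∑ i ∈ F', a i * ⟪x i, v⟫ ^ 2)
    (hblock : ∀ v, (∀ k, k ∉ Ac → ⟪b k, v⟫ = 0) → ∑ i ∈ F', a i * ⟪x i, v⟫ ^ 2 ≤ 0)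
    (hκ : 0 < κ) (hε0 : 0 ≤ ε) (hε : ε ≤ κ) (hDE : 8 * (D : ℝ) ≤ η ^ 2 * E₂) (hη0 : 0 ≤ η) (hη : η ≤ 1)
    {w : E} (hw : ‖w‖ ≤ 1) (hTw : ⟪rkS x A w, w⟫ ≤ 2 * κ) :
    ⟪rkS x I w, w⟫ - (1 / 2) * ⟪rkS x A w, w⟫ ≤ κ * (3 * ζ + 4 * η) := by
  have hT := rkS_posOp x A
  set T := rkS x A with hTdef
  have hE₂0 : 0 < E₂ := by linarith
  have hw2 : ‖w‖ ^ 2 ≤ 1 := pow_le_one₀ (norm_nonneg _) hw
  -- thick part of the test vector
  have hthick : ‖sproj b Th w‖ ^ 2 ≤ 2 * κ / E₂ := by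
    rw [sproj_norm_sq, le_div_iff₀ hE₂0]
    have h1 : ∑ k ∈ Th, ⟪b k, w⟫ ^ 2 * E₂ ≤ ∑ k ∈ Th, μ k * ⟪b k, w⟫ ^ 2 := by
      refine Finset.sum_le_sum (fun k hk => ?_)
      rw [mul_comm]
      exact mul_le_mul_of_nonneg_right (hTh k hk) (sq_nonneg _)
    have h2 : ∑ k ∈ Th, μ k * ⟪b k, w⟫ ^ 2 ≤ ⟪T w, w⟫ := by
      rw [form_eq_sum hT hb]
      have h3 : ∑ k ∈ Th, μ k * ⟪b k, w⟫ ^ 2 = ∑ k ∈ Th, μ k * (⟪b k, w⟫ * ⟪b k, w⟫) :=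
        Finset.sum_congr rfl (fun k _ => by ring)
      rw [h3]
      apply Finset.sum_le_sum_of_subset_of_nonneg (Finset.subset_univ _)
      intro k _ _
      exact mul_nonneg (hμ k) (mul_self_nonneg _)
    rw [Finset.sum_mul]
    linarith
  have hthick' : 2 * ‖sproj b Th w‖ ^ 2 ≤ 2 * κ := by
    have h1 : 2 * κ / E₂ ≤ κ := by
      rw [div_le_iff₀ hE₂0]
      nlinarith
    linarith
  -- size of the scalar products with items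
  have hM : ∀ i ∈ A, ⟪x i, w⟫ ^ 2 ≤ 4 * κ := by
    intro i hi
    have h1 : ⟪x i, w⟫ = ⟪x i, sproj b Th w⟫ + ⟪sproj b Thᶜ (x i), w⟫ := by
      rw [← sproj_symm]
      have := sproj_add_compl b Th (x i)
      conv_lhs => rw [← this]
      rw [inner_add_left]
    have h2 := inner_item_sq_le (hx i) (sproj b Th w)
    have h3 : ⟪sproj b Thᶜ (x i), w⟫ ^ 2 ≤ ‖sproj b Thᶜ (x i)‖ ^ 2 * ‖w‖ ^ 2 := by
      have h4 : |⟪sproj b Thᶜ (x i), w⟫| ≤ ‖sproj b Thᶜ (x i)‖ * ‖w‖ :=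
        abs_real_inner_le_norm _ _
      rw [← sq_abs, ← mul_pow]
      exact pow_le_pow_left₀ (abs_nonneg _) h4 2
    have h5 : ‖sproj b Thᶜ (x i)‖ ^ 2 * ‖w‖ ^ 2 ≤ ε * 1 :=
      mul_le_mul (hsoft i hi) hw2 (sq_nonneg _) hε0
    rw [h1]
    have h6 := sq_nonneg (⟪x i, sproj b Th w⟫ - ⟪sproj b Thᶜ (x i), w⟫)
    have h7 : (⟪x i, sproj b Th w⟫ + ⟪sproj b Thᶜ (x i), w⟫) ^ 2 =
      2 * ⟪x i, sproj b Th w⟫ ^ 2 + 2 * ⟪sproj b Thᶜ (x i), w⟫ ^ 2 -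
        (⟪x i, sproj b Th w⟫ - ⟪sproj b Thᶜ (x i), w⟫) ^ 2 := by ring
    rw [h7]
    linarith
  -- the steering part
  have hTf : ⟪T w, w⟫ = ∑ i ∈ A, ⟪x i, w⟫ ^ 2 := rkS_form x A w
  have hTf0 : 0 ≤ ⟪T w, w⟫ := hT.nonneg w
  have hδ : σ * ∑ i ∈ A, ⟪x i, h⟫ * ⟪x i, w⟫ ^ 2 ≤ κ * (3 * ζ) := by
    have h1 : (∑ i ∈ A, ⟪x i, h⟫ * ⟪x i, w⟫ ^ 2) ^ 2 ≤
        (∑ i ∈ A, ⟪x i, h⟫ ^ 2) * ∑ i ∈ A, (⟪x i, w⟫ ^ 2) ^ 2 :=
      Finset.sum_mul_sq_le_sq_mul_sq _ _ _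
    have h2 : ∑ i ∈ A, (⟪x i, w⟫ ^ 2) ^ 2 ≤ 4 * κ * ⟪T w, w⟫ := by
      rw [hTf, Finset.mul_sum]
      refine Finset.sum_le_sum (fun i hi => ?_)
      have := hM i hi
      rw [sq (⟪x i, w⟫ ^ 2)]
      exact mul_le_mul_of_nonneg_right this (sq_nonneg _)
    have h3 : ∑ i ∈ A, ⟪x i, h⟫ ^ 2 ≤ ζ ^ 2 := by
      have := rkS_form x A h
      rw [← this]
      exact hh
    have h4 : 0 ≤ ∑ i ∈ A, (⟪x i, w⟫ ^ 2) ^ 2 := Finset.sum_nonneg (fun i _ => sq_nonneg _)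
    have h5 : (∑ i ∈ A, ⟪x i, h⟫ * ⟪x i, w⟫ ^ 2) ^ 2 ≤ (κ * (3 * ζ)) ^ 2 := by
      calc _ ≤ _ := h1
        _ ≤ ζ ^ 2 * (4 * κ * ⟪T w, w⟫) := mul_le_mul h3 h2 h4 (sq_nonneg _)
        _ ≤ ζ ^ 2 * (4 * κ * (2 * κ)) := by
            apply mul_le_mul_of_nonneg_left _ (sq_nonneg _)
            apply mul_le_mul_of_nonneg_left hTw (by positivity)
        _ ≤ _ := by
            have h5a : ζ ^ 2 * (4 * κ * (2 * κ)) = 8 * (ζ * κ) ^ 2 := by ring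
            have h5b : (κ * (3 * ζ)) ^ 2 = 9 * (ζ * κ) ^ 2 := by ring
            rw [h5a, h5b]
            linarith [sq_nonneg (ζ * κ)]
    have h6 : |∑ i ∈ A, ⟪x i, h⟫ * ⟪x i, w⟫ ^ 2| ≤ κ * (3 * ζ) :=
      abs_le_of_sq_le_sq h5 (by positivity)
    calc σ * ∑ i ∈ A, ⟪x i, h⟫ * ⟪x i, w⟫ ^ 2 ≤ |σ * ∑ i ∈ A, ⟪x i, h⟫ * ⟪x i, w⟫ ^ 2| :=
          le_abs_self _
      _ = |σ| * |∑ i ∈ A, ⟪x i, h⟫ * ⟪x i, w⟫ ^ 2| := abs_mul _ _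
      _ ≤ 1 * (κ * (3 * ζ)) := mul_le_mul hσ h6 (abs_nonneg _) zero_le_one
      _ = _ := one_mul _
  -- split into the block and the rest
  set wb := sproj b Ac w with hwb
  set wo := sproj b Acᶜ w with hwo
  have hsplit : w = wb + wo := (sproj_add_compl b Ac w).symm
  set De : Finset (Fin n) := (Th ∪ Ac)ᶜ with hDedef
  have hAcc : Acᶜ = Th ∪ De := by
    ext k
    simp only [Finset.mem_compl, Finset.mem_union, hDedef, not_or]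
    have hd := Finset.disjoint_left.mp hAc
    have := @hd k
    tauto
  have hTd : Disjoint Th De := by
    rw [Finset.disjoint_left]
    intro k hk hk2
    simp only [hDedef, Finset.mem_compl, Finset.mem_union, not_or] at hk2
    exact hk2.1 hk
  have hwoe : wo = sproj b Th w + sproj b De w := by
    rw [hwo, hAcc]
    unfold sproj
    rw [Finset.sum_union hTd]
  -- the rest is small on the floating items
  have hYo : ∑ i ∈ F', ⟪x i, wo⟫ ^ 2 ≤ κ * η ^ 2 := by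
    have h1 : ∀ i ∈ F', ⟪x i, wo⟫ ^ 2 ≤ 2 * ‖sproj b Th w‖ ^ 2 + 2 * ⟪x i, sproj b De w⟫ ^ 2 := by
      intro i _
      have h2 := inner_item_sq_le (hx i) (sproj b Th w)
      rw [hwoe, inner_add_right]
      have h6 := sq_nonneg (⟪x i, sproj b Th w⟫ - ⟪x i, sproj b De w⟫)
      have h7 : (⟪x i, sproj b Th w⟫ + ⟪x i, sproj b De w⟫) ^ 2 =
        2 * ⟪x i, sproj b Th w⟫ ^ 2 + 2 * ⟪x i, sproj b De w⟫ ^ 2 -
          (⟪x i, sproj b Th w⟫ - ⟪x i, sproj b De w⟫) ^ 2 := by ring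
      rw [h7]
      linarith
    have h3 : ∑ i ∈ F', ⟪x i, sproj b De w⟫ ^ 2 ≤ ε * η ^ 2 / 4 := by
      calc _ ≤ ∑ i ∈ A, ⟪x i, sproj b De w⟫ ^ 2 :=
            Finset.sum_le_sum_of_subset_of_nonneg hF' (fun _ _ _ => sq_nonneg _)
        _ = ⟪T (sproj b De w), sproj b De w⟫ := (rkS_form x A _).symm
        _ = ∑ k ∈ De, μ k * ⟪b k, w⟫ ^ 2 := form_sproj hT hb De w
        _ ≤ ∑ k ∈ De, ε * η ^ 2 / 4 * ⟪b k, w⟫ ^ 2 := by
            refine Finset.sum_le_sum (fun k hk => ?_)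
            simp only [hDedef, Finset.mem_compl, Finset.mem_union, not_or] at hk
            exact mul_le_mul_of_nonneg_right (hDe k hk.1 hk.2) (sq_nonneg _)
        _ = ε * η ^ 2 / 4 * ∑ k ∈ De, ⟪b k, w⟫ ^ 2 := by rw [Finset.mul_sum]
        _ = ε * η ^ 2 / 4 * ‖sproj b De w‖ ^ 2 := by rw [sproj_norm_sq]
        _ ≤ ε * η ^ 2 / 4 * 1 := by
            apply mul_le_mul_of_nonneg_left _ (by positivity)
            rw [sproj_norm_sq]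
            refine le_trans ?_ hw2
            rw [norm_sq_eq_sum b w]
            exact Finset.sum_le_sum_of_subset_of_nonneg (Finset.subset_univ _)
              (fun _ _ _ => sq_nonneg _)
        _ = _ := mul_one _
    have h4 : ∑ i ∈ F', (2 * ‖sproj b Th w‖ ^ 2 + 2 * ⟪x i, sproj b De w⟫ ^ 2) =
        (F'.card : ℝ) * (2 * ‖sproj b Th w‖ ^ 2) + 2 * ∑ i ∈ F', ⟪x i, sproj b De w⟫ ^ 2 := by
      rw [Finset.sum_add_distrib, Finset.sum_const, nsmul_eq_mul, Finset.mul_sum]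
    have h5 : ((F'.card : ℝ)) * (2 * ‖sproj b Th w‖ ^ 2) ≤ (D : ℝ) * (2 * (2 * κ / E₂)) := by
      have hc : (F'.card : ℝ) ≤ D := by exact_mod_cast hcard
      apply mul_le_mul hc (by linarith) (by positivity) (by positivity)
    have h6 : (D : ℝ) * (2 * (2 * κ / E₂)) ≤ κ * η ^ 2 / 2 := by
      have h7 : (D : ℝ) * (2 * (2 * κ / E₂)) = 8 * (D : ℝ) * κ / (2 * E₂) := by
        field_simp
        ring
      rw [h7, div_le_iff₀ (by positivity)]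
      have := mul_le_mul_of_nonneg_right hDE hκ.le
      have h7a : κ * η ^ 2 / 2 * (2 * E₂) = η ^ 2 * E₂ * κ := by ring
      rw [h7a]
      exact this
    have h8 : 2 * (ε * η ^ 2 / 4) ≤ κ * η ^ 2 / 2 := by
      have := mul_le_mul_of_nonneg_right hε (sq_nonneg η)
      linarith
    calc _ ≤ _ := Finset.sum_le_sum h1
      _ ≤ _ := by rw [h4]; linarith
  have hYb : ∑ i ∈ F', ⟪x i, wb⟫ ^ 2 ≤ 2 * κ := by
    calc _ ≤ ∑ i ∈ A, ⟪x i, wb⟫ ^ 2 :=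
          Finset.sum_le_sum_of_subset_of_nonneg hF' (fun _ _ _ => sq_nonneg _)
      _ = ⟪T wb, wb⟫ := (rkS_form x A _).symm
      _ = ∑ k ∈ Ac, μ k * ⟪b k, w⟫ ^ 2 := form_sproj hT hb Ac w
      _ ≤ ⟪T w, w⟫ := by
          rw [form_eq_sum hT hb]
          have h3 : ∑ k ∈ Ac, μ k * ⟪b k, w⟫ ^ 2 = ∑ k ∈ Ac, μ k * (⟪b k, w⟫ * ⟪b k, w⟫) :=
            Finset.sum_congr rfl (fun k _ => by ring)
          rw [h3]
          apply Finset.sum_le_sum_of_subset_of_nonneg (Finset.subset_univ _)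
          intro k _ _
          exact mul_nonneg (hμ k) (mul_self_nonneg _)
      _ ≤ _ := hTw
  have hF : ∑ i ∈ F', a i * ⟪x i, w⟫ ^ 2 ≤ κ * (4 * η) := by
    have h1 : ∑ i ∈ F', a i * ⟪x i, w⟫ ^ 2 = ∑ i ∈ F', a i * ⟪x i, wb⟫ ^ 2 +
        2 * ∑ i ∈ F', (a i * ⟪x i, wb⟫) * ⟪x i, wo⟫ + ∑ i ∈ F', a i * ⟪x i, wo⟫ ^ 2 := by
      rw [Finset.mul_sum, ← Finset.sum_add_distrib, ← Finset.sum_add_distrib]
      refine Finset.sum_congr rfl (fun i _ => ?_)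
      conv_lhs => rw [hsplit, inner_add_right]
      ring
    have h2 : ∑ i ∈ F', a i * ⟪x i, wb⟫ ^ 2 ≤ 0 := by
      apply hblock
      intro k hk
      rw [hwb, sproj_inner, if_neg hk]
    have ha2 : ∀ i ∈ F', (a i) ^ 2 ≤ 1 := fun i hi => by
      rw [← sq_abs]
      exact pow_le_one₀ (abs_nonneg _) (ha i hi)
    have h3 : ∑ i ∈ F', a i * ⟪x i, wo⟫ ^ 2 ≤ κ * η ^ 2 := by
      refine le_trans (Finset.sum_le_sum (fun i hi => ?_)) hYo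
      have := (abs_le.mp (ha i hi)).2
      calc a i * ⟪x i, wo⟫ ^ 2 ≤ 1 * ⟪x i, wo⟫ ^ 2 := mul_le_mul_of_nonneg_right this (sq_nonneg _)
        _ = _ := one_mul _
    have h4 : (∑ i ∈ F', (a i * ⟪x i, wb⟫) * ⟪x i, wo⟫) ^ 2 ≤ (κ * (3 / 2 * η)) ^ 2 := by
      have h5 : (∑ i ∈ F', (a i * ⟪x i, wb⟫) * ⟪x i, wo⟫) ^ 2 ≤
          (∑ i ∈ F', (a i * ⟪x i, wb⟫) ^ 2) * ∑ i ∈ F', ⟪x i, wo⟫ ^ 2 :=
        Finset.sum_mul_sq_le_sq_mul_sq _ _ _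
      have h6 : ∑ i ∈ F', (a i * ⟪x i, wb⟫) ^ 2 ≤ 2 * κ := by
        refine le_trans (Finset.sum_le_sum (fun i hi => ?_)) hYb
        have := ha2 i hi
        rw [mul_pow]
        calc a i ^ 2 * ⟪x i, wb⟫ ^ 2 ≤ 1 * ⟪x i, wb⟫ ^ 2 := mul_le_mul_of_nonneg_right this (sq_nonneg _)
          _ = _ := one_mul _
      have h7 : 0 ≤ ∑ i ∈ F', ⟪x i, wo⟫ ^ 2 := Finset.sum_nonneg (fun i _ => sq_nonneg _)
      have h5a : (κ * (3 / 2 * η)) ^ 2 = 9 / 4 * (κ * η) ^ 2 := by ring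
      have h5b : (2 * κ) * (κ * η ^ 2) = 2 * (κ * η) ^ 2 := by ring
      calc _ ≤ _ := h5
        _ ≤ (2 * κ) * (κ * η ^ 2) := mul_le_mul h6 hYo h7 (by positivity)
        _ ≤ _ := by rw [h5a, h5b]; linarith [sq_nonneg (κ * η)]
    have h8 : ∑ i ∈ F', (a i * ⟪x i, wb⟫) * ⟪x i, wo⟫ ≤ κ * (3 / 2 * η) :=
      (abs_le_of_sq_le_sq' h4 (by positivity)).2
    have h9 : κ * η ^ 2 ≤ κ * η :=
      mul_le_mul_of_nonneg_left (pow_le_of_le_one hη0 hη (by norm_num)) hκ.le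
    rw [h1]
    have h10 : κ * (3 / 2 * η) = 3 / 2 * (κ * η) := by ring
    have h11 : κ * (4 * η) = 4 * (κ * η) := by ring
    rw [h11]
    rw [h10] at h8
    linarith
  have hbw := hbal w
  rw [hbw]
  have : κ * (3 * ζ + 4 * η) = κ * (3 * ζ) + κ * (4 * η) := by ring
  rw [this]
  linarith

include hb hμ in
/-- One doubling step: halving the operator on the block doubles the parameter. -/
lemma mid_step (hx : ∀ i, ‖x i‖ ≤ 1) {E₂ ε η ζ κ : ℝ} {D : ℕ} (hE₂ : 2 ≤ E₂)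
    (hTh : ∀ k ∈ Th, E₂ ≤ μ k) (hAc : Disjoint Th Ac)
    (hDe : ∀ k, k ∉ Th → k ∉ Ac → μ k ≤ ε * η ^ 2 / 4)
    (hsoft : ∀ i ∈ A, ‖sproj b Thᶜ (x i)‖ ^ 2 ≤ ε) {h : E} (hζ : 0 ≤ ζ)
    (hh : ⟪rkS x A h, h⟫ ≤ ζ ^ 2) {σ : ℝ} (hσ : |σ| ≤ 1) (a : ι → ℝ) (F' : Finset ι) (hF' : F' ⊆ A)
    (hcard : F'.card ≤ D) (ha : ∀ i ∈ F', |a i| ≤ 1)
    (hbal : ∀ v, ⟪rkS x I v, v⟫ = (1 / 2) * ⟪rkS x A v, v⟫ +
      σ * ∑ i ∈ A, ⟪x i, h⟫ * ⟪x i, v⟫ ^ 2 + ∑ i ∈ F', a i * ⟪x i, v⟫ ^ 2)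
    (hblock : ∀ v, (∀ k, k ∉ Ac → ⟪b k, v⟫ = 0) → ∑ i ∈ F', a i * ⟪x i, v⟫ ^ 2 ≤ 0)
    (hκ : 0 < κ) (hε0 : 0 ≤ ε) (hε : ε ≤ κ) (hDE : 8 * (D : ℝ) ≤ η ^ 2 * E₂) (hη0 : 0 ≤ η) (hη : η ≤ 1)
    {θ : E} (hθ : ‖θ‖ = 1) :
    pf (rkS x A) (κ * 2) θ ≤ pf (rkS x I) κ θ + (3 * ζ + 4 * η) := by
  have hT := rkS_posOp x A
  have hTp := rkS_posOp x I
  set T := rkS x A with hTdef
  have hκ2 : 0 < κ * 2 := by positivity
  set z := res T (κ * 2) θ with hz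
  have h1 : ⟪z, θ⟫ = ⟪T z, z⟫ + (κ * 2) * ‖z‖ ^ 2 := res_form hT hκ2 θ
  have hpfle : pf T (κ * 2) θ ≤ 1 := by
    have := pf_le hT hκ2 θ
    rw [hθ] at this
    simpa using this
  have hpfe : pf T (κ * 2) θ = (κ * 2) * ⟪z, θ⟫ := rfl
  set w := (κ * 2) • z with hw
  have hwn : ‖w‖ ≤ 1 := by
    rw [hw, norm_smul, Real.norm_eq_abs, abs_of_pos hκ2]
    have := res_norm_le hT hκ2 θ
    rw [hθ] at this
    exact this
  have hz0 : 0 ≤ ⟪T z, z⟫ := hT.nonneg z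
  have hTw : ⟪T w, w⟫ ≤ 2 * κ := by
    rw [hw, map_smul, inner_smul_left, inner_smul_right]
    simp only [conj_trivial]
    have h2 : (κ * 2) * ⟪T z, z⟫ ≤ (κ * 2) * ⟪z, θ⟫ := by
      rw [h1]
      have : 0 ≤ (κ * 2) * ((κ * 2) * ‖z‖ ^ 2) := by positivity
      nlinarith
    have h3 : (κ * 2) * ⟪T z, z⟫ ≤ 1 := by rw [hpfe] at hpfle; linarith
    have h4 := mul_le_mul_of_nonneg_left h3 hκ2.le
    nlinarith
  have hX := xform_bound x A I hb hμ Th Ac hx hE₂ hTh hAc hDe hsoft hζ hh hσ a F' hF' hcard ha hbal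
    hblock hκ hε0 hε hDE hη0 hη hwn hTw
  -- the test vector `2 z`
  have hvar := res_var hTp hκ θ ((2 : ℝ) • z)
  have h5 : ⟪rkS x I ((2 : ℝ) • z), (2 : ℝ) • z⟫ = 4 * ⟪rkS x I z, z⟫ := by
    rw [map_smul, inner_smul_left, inner_smul_right]
    simp only [conj_trivial]
    ring
  have h6 : ‖(2 : ℝ) • z‖ ^ 2 = 4 * ‖z‖ ^ 2 := by
    rw [norm_smul, mul_pow]
    norm_num
  have h7 : ⟪θ, (2 : ℝ) • z⟫ = 2 * ⟪z, θ⟫ := by
    rw [inner_smul_right, real_inner_comm]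
  rw [h5, h6, h7] at hvar
  -- rewrite the bound on `w` in terms of `z`
  have h8 : ⟪rkS x I w, w⟫ = (κ * 2) ^ 2 * ⟪rkS x I z, z⟫ := by
    rw [hw, map_smul, inner_smul_left, inner_smul_right]
    simp only [conj_trivial]
    ring
  have h9 : ⟪T w, w⟫ = (κ * 2) ^ 2 * ⟪T z, z⟫ := by
    rw [hw, map_smul, inner_smul_left, inner_smul_right]
    simp only [conj_trivial]
    ring
  rw [h8, h9] at hX
  have hκ3 : (κ * 2) ^ 2 * (⟪rkS x I z, z⟫ - (1 / 2) * ⟪T z, z⟫) ≤ κ * (3 * ζ + 4 * η) := by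
    linarith
  have h10 : κ * 4 * (⟪rkS x I z, z⟫ - (1 / 2) * ⟪T z, z⟫) ≤ 3 * ζ + 4 * η := by
    have h11 : κ * (κ * 4 * (⟪rkS x I z, z⟫ - (1 / 2) * ⟪T z, z⟫)) ≤ κ * (3 * ζ + 4 * η) := by
      calc _ = (κ * 2) ^ 2 * (⟪rkS x I z, z⟫ - (1 / 2) * ⟪T z, z⟫) := by ring
        _ ≤ _ := hκ3
    exact le_of_mul_le_mul_left h11 hκ
  unfold pf
  have hvar2 := mul_le_mul_of_nonneg_left hvar hκ.le
  rw [hpfe] at *
  nlinarith

/-- The dyadic sum of forms. -/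
noncomputable def Wf (T : E →ₗ[ℝ] E) (κ : ℝ) (L : ℕ) (θ : E) : ℝ :=
  ∑ l ∈ Finset.range L, pf T (κ * 2 ^ l) θ

lemma Wf_nonneg {T : E →ₗ[ℝ] E} (hT : PosOp T) {κ : ℝ} (hκ : 0 < κ) (L : ℕ) (θ : E) :
    0 ≤ Wf T κ L θ :=
  Finset.sum_nonneg (fun _ _ => pf_nonneg hT (by positivity) θ)

lemma Wf_le {T : E →ₗ[ℝ] E} (hT : PosOp T) {κ : ℝ} (hκ : 0 < κ) (L : ℕ) {θ : E} (hθ : ‖θ‖ = 1) :
    Wf T κ L θ ≤ L := by
  unfold Wf
  calc _ ≤ ∑ l ∈ Finset.range L, (1 : ℝ) := by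
        refine Finset.sum_le_sum (fun l _ => ?_)
        have := pf_le hT (by positivity : 0 < κ * 2 ^ l) θ
        rw [hθ] at this
        simpa using this
    _ = L := by simp

lemma Wf_mono {T S : E →ₗ[ℝ] E} (hT : PosOp T) (hS : PosOp S) (hle : ∀ w, ⟪T w, w⟫ ≤ ⟪S w, w⟫)
    {κ : ℝ} (hκ : 0 < κ) (L : ℕ) (θ : E) : Wf S κ L θ ≤ Wf T κ L θ :=
  Finset.sum_le_sum (fun _ _ => pf_anti hT hS hle (by positivity) θ)

/-- Telescoping the dyadic forms. -/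
lemma Wf_telescope {T Tp : E →ₗ[ℝ] E} {κ err : ℝ} {L : ℕ} {θ : E}
    (h : ∀ l, l < L → pf T (κ * 2 ^ l * 2) θ ≤ pf Tp (κ * 2 ^ l) θ + err) :
    pf T (κ * 2 ^ L) θ - pf T κ θ ≤ Wf Tp κ L θ - Wf T κ L θ + L * err := by
  unfold Wf
  have h1 : pf T (κ * 2 ^ L) θ - pf T κ θ =
      ∑ l ∈ Finset.range L, (pf T (κ * 2 ^ (l + 1)) θ - pf T (κ * 2 ^ l) θ) := by
    rw [Finset.sum_range_sub (fun l => pf T (κ * 2 ^ l) θ) L]
    simp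
  rw [h1, ← Finset.sum_sub_distrib]
  have h2 : (L : ℝ) * err = ∑ l ∈ Finset.range L, err := by simp
  rw [h2, ← Finset.sum_add_distrib]
  refine Finset.sum_le_sum (fun l hl => ?_)
  have h3 := h l (Finset.mem_range.mp hl)
  rw [show κ * 2 ^ l * 2 = κ * 2 ^ (l + 1) by rw [pow_succ]; ring] at h3
  linarith

/-- The difference of two resolvent operators is positive. -/
lemma diff_posOp {T : E →ₗ[ℝ] E} (hT : PosOp T) {κ g : ℝ} (hκ : 0 < κ) (hle : κ ≤ g) :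
    PosOp (g • res T g - κ • res T κ) := by
  have hg : 0 < g := lt_of_lt_of_le hκ hle
  refine ⟨?_, ?_⟩
  · intro v w
    simp only [LinearMap.sub_apply, LinearMap.smul_apply, inner_sub_left, inner_sub_right,
      inner_smul_left, inner_smul_right, conj_trivial]
    rw [res_symm hT hg, res_symm hT hκ]
  · intro v
    simp only [LinearMap.sub_apply, LinearMap.smul_apply, inner_sub_left, inner_smul_left,
      conj_trivial]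
    have := pf_mono hT hκ hle v
    unfold pf at this
    linarith

/-- The energy of the committed items at one node. -/
theorem energy_step (x : ι → E) (A I : Finset ι) (hb : ∀ k, (rkS x A) (b k) = μ k • b k)
    (hμ : ∀ k, 0 ≤ μ k) (Th : Finset (Fin n)) (hx : ∀ i, ‖x i‖ ≤ 1) {E₂ ε κ g err : ℝ}
    (hE₂ : 0 < E₂) (hTh : ∀ k ∈ Th, E₂ ≤ μ k)
    (hsoft : ∀ i ∈ A, ‖sproj b Thᶜ (x i)‖ ^ 2 ≤ ε) (hκ : 0 < κ) (hε : ε ≤ κ)
    {L : ℕ} (hL : κ * 2 ^ L = g) (Fc : Finset ι) (hFc : Fc ⊆ A \ I) (hI : I ⊆ A) {θ : E} (hθ : ‖θ‖ = 1)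
    (hmid : ∀ l, l < L → pf (rkS x A) (κ * 2 ^ l * 2) θ ≤ pf (rkS x I) (κ * 2 ^ l) θ + err) :
    ∑ i ∈ Fc, ⟪θ, g • res (rkS x A) g (sproj b Thᶜ (x i))⟫ ^ 2 ≤
      4 * κ * (pf (rkS x I) κ θ - pf (rkS x A) κ θ) +
      2 * (Fc.card : ℝ) * κ * (Wf (rkS x I) κ L θ - Wf (rkS x A) κ L θ + L * err) +
      4 * (Fc.card : ℝ) * (κ / E₂) ^ 2 := by
  have hT := rkS_posOp x A
  set T := rkS x A with hTdef
  have hg : 0 < g := by rw [← hL]; positivity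
  have hκg : κ ≤ g := by
    rw [← hL]
    have : (1 : ℝ) ≤ 2 ^ L := one_le_pow₀ (by norm_num)
    nlinarith
  set z := res T κ θ with hz
  set Δ := pf T g θ - pf T κ θ with hΔ
  have hDpos := diff_posOp hT hκ hκg
  set Dop := g • res T g - κ • res T κ with hDop
  have hDform : ⟪Dop θ, θ⟫ = Δ := by
    simp only [hDop, LinearMap.sub_apply, LinearMap.smul_apply, inner_sub_left, inner_smul_left,
      conj_trivial]
    rfl
  have hΔ0 : 0 ≤ Δ := by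
    rw [← hDform]
    exact hDpos.nonneg θ
  -- thick part of `z`
  have hzthick : (κ * ‖sproj b Th z‖) ^ 2 ≤ (κ / E₂) ^ 2 := by
    have h1 : ‖sproj b Th z‖ ^ 2 ≤ (1 / E₂) ^ 2 := by
      rw [sproj_norm_sq]
      have h2 : ∀ k ∈ Th, ⟪b k, z⟫ ^ 2 ≤ (1 / E₂) ^ 2 * ⟪b k, θ⟫ ^ 2 := by
        intro k hk
        rw [hz, res_inner_basis hT hb hμ hκ, div_pow, one_div, inv_pow]
        have h3 : E₂ ^ 2 ≤ (μ k + κ) ^ 2 := by
          apply pow_le_pow_left₀ hE₂.le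
          have := hTh k hk
          linarith
        have h4 : (0 : ℝ) < (μ k + κ) ^ 2 := by
          have := hμ k
          positivity
        rw [div_eq_inv_mul]
        apply mul_le_mul_of_nonneg_right _ (sq_nonneg _)
        exact inv_anti₀ (by positivity) h3
      calc _ ≤ ∑ k ∈ Th, (1 / E₂) ^ 2 * ⟪b k, θ⟫ ^ 2 := Finset.sum_le_sum h2
        _ = (1 / E₂) ^ 2 * ∑ k ∈ Th, ⟪b k, θ⟫ ^ 2 := by rw [Finset.mul_sum]
        _ ≤ (1 / E₂) ^ 2 * 1 := by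
            apply mul_le_mul_of_nonneg_left _ (sq_nonneg _)
            have h5 := norm_sq_eq_sum b θ
            rw [hθ, one_pow] at h5
            rw [h5]
            exact Finset.sum_le_sum_of_subset_of_nonneg (Finset.subset_univ _)
              (fun _ _ _ => sq_nonneg _)
        _ = _ := mul_one _
    have h6 : (κ / E₂) ^ 2 = κ ^ 2 * (1 / E₂) ^ 2 := by ring
    rw [h6, mul_pow]
    exact mul_le_mul_of_nonneg_left h1 (sq_nonneg _)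
  -- the pointwise bound
  have hpt : ∀ i ∈ Fc, ⟪θ, g • res T g (sproj b Thᶜ (x i))⟫ ^ 2 ≤
      4 * (κ ^ 2 * ⟪x i, z⟫ ^ 2) + 4 * (κ / E₂) ^ 2 + 2 * (κ * Δ) := by
    intro i hi
    have hiA : i ∈ A := (Finset.mem_sdiff.mp (hFc hi)).1
    set v := sproj b Thᶜ (x i) with hv
    have h1 : ⟪θ, g • res T g v⟫ = ⟪θ, κ • res T κ v⟫ + ⟪Dop v, θ⟫ := by
      simp only [hDop, LinearMap.sub_apply, LinearMap.smul_apply, inner_sub_left, inner_smul_left,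
        inner_smul_right, conj_trivial]
      rw [real_inner_comm (res T g v), real_inner_comm (res T κ v)]
      ring
    have h2 : ⟪θ, κ • res T κ v⟫ = κ * ⟪x i, z⟫ - κ * ⟪sproj b Th z, x i⟫ := by
      have h2a : ⟪θ, res T κ v⟫ = ⟪z, v⟫ := (res_symm hT hκ θ v).symm
      have h2b : ⟪z, v⟫ = ⟪sproj b Thᶜ z, x i⟫ := (sproj_symm b Thᶜ z (x i)).symm
      have h2c : ⟪x i, z⟫ = ⟪sproj b Th z, x i⟫ + ⟪sproj b Thᶜ z, x i⟫ := by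
        calc ⟪x i, z⟫ = ⟪z, x i⟫ := real_inner_comm _ _
          _ = ⟪sproj b Th z + sproj b Thᶜ z, x i⟫ := by rw [sproj_add_compl]
          _ = _ := inner_add_left _ _ _
      rw [inner_smul_right, h2a, h2b, h2c]
      ring
    have h3 : ⟪Dop v, θ⟫ ^ 2 ≤ κ * Δ := by
      have h3a := hDpos.cauchy v θ
      rw [hDform] at h3a
      have h3b : ⟪Dop v, v⟫ ≤ κ := by
        have h3c : ⟪Dop v, v⟫ = pf T g v - pf T κ v := by
          simp only [hDop, LinearMap.sub_apply, LinearMap.smul_apply, inner_sub_left,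
            inner_smul_left, conj_trivial]
          rfl
        have h3d := pf_nonneg hT hκ v
        have h3e := pf_le hT hg v
        have h3f := hsoft i hiA
        rw [h3c]
        linarith
      exact h3a.trans (mul_le_mul_of_nonneg_right h3b hΔ0)
    have h4 : (κ * ⟪sproj b Th z, x i⟫) ^ 2 ≤ (κ / E₂) ^ 2 := by
      refine le_trans ?_ hzthick
      rw [mul_pow, mul_pow]
      apply mul_le_mul_of_nonneg_left _ (sq_nonneg _)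
      rw [real_inner_comm]
      exact inner_item_sq_le (hx i) _
    rw [h1, h2]
    have h5 := sq_nonneg ((κ * ⟪x i, z⟫ - κ * ⟪sproj b Th z, x i⟫) - ⟪Dop v, θ⟫)
    have h6 := sq_nonneg (κ * ⟪x i, z⟫ + κ * ⟪sproj b Th z, x i⟫)
    have h7 : (κ * ⟪x i, z⟫) ^ 2 = κ ^ 2 * ⟪x i, z⟫ ^ 2 := by ring
    nlinarith
  have hpr := pf_remove x hI hκ θ
  rw [← hTdef, ← hz] at hpr
  have hs1 : ∑ i ∈ Fc, ⟪x i, z⟫ ^ 2 ≤ ∑ i ∈ A \ I, ⟪x i, z⟫ ^ 2 :=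
    Finset.sum_le_sum_of_subset_of_nonneg hFc (fun _ _ _ => sq_nonneg _)
  have hs2 : κ * (κ * ∑ i ∈ Fc, ⟪x i, z⟫ ^ 2) ≤ κ * (pf (rkS x I) κ θ - pf T κ θ) := by
    apply mul_le_mul_of_nonneg_left _ hκ.le
    have := mul_le_mul_of_nonneg_left hs1 hκ.le
    linarith
  have hW : Δ ≤ Wf (rkS x I) κ L θ - Wf T κ L θ + L * err := by
    have := Wf_telescope hmid
    rwa [hL] at this
  have hc : (0 : ℝ) ≤ (Fc.card : ℝ) := Nat.cast_nonneg _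
  have hs3 : 2 * (Fc.card : ℝ) * κ * Δ ≤
      2 * (Fc.card : ℝ) * κ * (Wf (rkS x I) κ L θ - Wf T κ L θ + L * err) :=
    mul_le_mul_of_nonneg_left hW (by positivity)
  calc _ ≤ ∑ i ∈ Fc, (4 * (κ ^ 2 * ⟪x i, z⟫ ^ 2) + 4 * (κ / E₂) ^ 2 + 2 * (κ * Δ)) :=
        Finset.sum_le_sum hpt
    _ = 4 * (κ * (κ * ∑ i ∈ Fc, ⟪x i, z⟫ ^ 2)) + 4 * (Fc.card : ℝ) * (κ / E₂) ^ 2 +
          2 * (Fc.card : ℝ) * κ * Δ := by
        rw [Finset.sum_add_distrib, Finset.sum_add_distrib, Finset.sum_const, Finset.sum_const,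
          nsmul_eq_mul, nsmul_eq_mul, Finset.mul_sum, Finset.mul_sum, Finset.mul_sum]
        have : ∑ i ∈ Fc, 4 * (κ * (κ * ⟪x i, z⟫ ^ 2)) = ∑ i ∈ Fc, 4 * (κ ^ 2 * ⟪x i, z⟫ ^ 2) :=
          Finset.sum_congr rfl (fun i _ => by ring)
        rw [this]
        ring
    _ ≤ _ := by linarith

end mid

end Vale.Agent.Lib.P262.U
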