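import Vale.Agent.Lib.P262.U.Tree

/-!
Choice of the parameters and the final form of the theorem.
-/

open scoped RealInnerProductSpace BigOperators
open Module

set_option linter.unusedSectionVars false

namespace Vale.Agent.Lib.P262.U

/-- The parameters for dimension `n`. -/
noncomputable def mkP (n : ℕ) : Par := ⟨n, Nat.clog 2 n, 9 * Nat.clog 2 n + 60⟩

/-- A numerical constant. -/
noncomputable def Zc : ℝ := 36 * 415375 + 22 * 165893 ^ 2

/-- A numerical constant. -/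
noncomputable def Yc : ℝ := 161287 * Zc

lemma C₃_val : C₃ = 165893 := by
  unfold C₃ cH
  norm_num

lemma cube_le (ρ : ℕ) : ((ρ : ℝ) + 1) ^ 3 ≤ 2 * 4 ^ ρ := by
  induction ρ with
  | zero => norm_num
  | succ m ih =>
    rcases Nat.eq_zero_or_pos m with h0 | h0
    · subst h0
      norm_num
    · have h1 : (1 : ℝ) ≤ (m : ℝ) := by exact_mod_cast h0
      push_cast
      have h2 : ((m : ℝ) + 1 + 1) ^ 3 ≤ 4 * ((m : ℝ) + 1) ^ 3 := by
        nlinarith [mul_nonneg (mul_nonneg (sub_nonneg.mpr h1) (sub_nonneg.mpr h1))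
          (sub_nonneg.mpr h1), mul_nonneg (sub_nonneg.mpr h1) (sub_nonneg.mpr h1)]
      rw [pow_succ (4 : ℝ) m]
      linarith

section bounds

variable {n : ℕ}

lemma mk_r_one : 1 ≤ ((mkP n).ρ : ℝ) + 1 := by
  have : (0 : ℝ) ≤ ((mkP n).ρ : ℝ) := Nat.cast_nonneg _
  linarith

lemma mk_B_le : (mkP n).B ≤ (((mkP n).ρ : ℝ) + 1) ^ 2 * 415375 := by
  unfold Par.B cH
  have h1 : (1 : ℝ) ≤ (((mkP n).ρ : ℝ) + 1) ^ 2 := one_le_pow₀ mk_r_one
  push_cast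
  nlinarith

lemma mk_CT_le : (mkP n).CT ≤ (((mkP n).ρ : ℝ) + 1) ^ 2 * Zc := by
  unfold Par.CT Zc
  rw [C₃_val]
  have h1 : (1 : ℝ) ≤ (((mkP n).ρ : ℝ) + 1) ^ 2 := one_le_pow₀ mk_r_one
  have h2 := mk_B_le (n := n)
  nlinarith

lemma mk_CS_le : (mkP n).CS ≤ (((mkP n).ρ : ℝ) + 1) ^ 2 * Zc := by
  unfold Par.CS Zc
  rw [C₃_val]
  have h1 : (1 : ℝ) ≤ (((mkP n).ρ : ℝ) + 1) ^ 2 := one_le_pow₀ mk_r_one
  have h2 := mk_B_le (n := n)
  nlinarith

lemma mk_J_le : ((mkP n).J 0 : ℝ) + 1 ≤ 70 * (((mkP n).ρ : ℝ) + 1) := by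
  have h0 : (0 : ℝ) ≤ ((mkP n).ρ : ℝ) := Nat.cast_nonneg _
  have h1 : ((mkP n).J 0 : ℝ) = 15 * ((mkP n).ρ : ℝ) + 69 := by
    unfold Par.J
    have : (mkP n).e = 9 * (mkP n).ρ + 60 := rfl
    rw [this]
    push_cast
    ring
  rw [h1]
  linarith

lemma Zc_pos : 0 < Zc := by
  unfold Zc
  norm_num

lemma mk_F_le : (mkP n).F ≤ (n : ℝ) * (((mkP n).ρ : ℝ) + 1) ^ 3 * (80643 * Zc) := by
  set r := ((mkP n).ρ : ℝ) + 1 with hr
  have hr1 : 1 ≤ r := mk_r_one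
  have hn0 : (0 : ℝ) ≤ (n : ℝ) := Nat.cast_nonneg _
  have hZ := Zc_pos
  have h1 := mk_CT_le (n := n)
  have h2 := mk_CS_le (n := n)
  have h3 := mk_J_le (n := n)
  rw [← hr] at h1 h2 h3
  have hCS := Par.CS_pos (P := mkP n)
  have hJ0 : (0 : ℝ) ≤ ((mkP n).J 0 : ℝ) + 1 := by positivity
  have h4 : (mkP n).β ≤ 5 / 2 * (r ^ 3 * Zc) := by
    unfold Par.β
    have h5 : r ^ 2 * Zc ≤ r ^ 3 * Zc := by
      apply mul_le_mul_of_nonneg_right _ hZ.le
      rw [pow_succ r 2]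
      nlinarith [sq_nonneg r]
    linarith
  have h6 : (mkP n).CS * (((mkP n).J 0 : ℝ) + 1) ≤ (r ^ 2 * Zc) * (70 * r) :=
    mul_le_mul h2 h3 hJ0 (by positivity)
  have h7 : (r ^ 2 * Zc) * (70 * r) = 70 * (r ^ 3 * Zc) := by ring
  unfold Par.F
  have h8 : (mkP n).n = n := rfl
  rw [h8]
  have h9 : (mkP n).β + 1152 * (mkP n).CS * (((mkP n).J 0 : ℝ) + 1) ≤ r ^ 3 * (80643 * Zc) := by
    have h10 : 0 ≤ r ^ 3 * Zc := by positivity
    nlinarith
  calc _ ≤ (n : ℝ) * (r ^ 3 * (80643 * Zc)) := mul_le_mul_of_nonneg_left h9 hn0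
    _ = _ := by ring

lemma mk_Ru2_le (hn : 1 ≤ n) : (mkP n).Ru2 ≤ (n : ℝ) * (((mkP n).ρ : ℝ) + 1) ^ 3 * Yc := by
  set r := ((mkP n).ρ : ℝ) + 1 with hr
  have hr1 : 1 ≤ r := mk_r_one
  have hn1 : (1 : ℝ) ≤ (n : ℝ) := by exact_mod_cast hn
  have hZ := Zc_pos
  have h1 := mk_F_le (n := n)
  have h2 := mk_B_le (n := n)
  rw [← hr] at h1 h2
  unfold Par.Ru2 Yc
  rw [C₃_val]
  have h8 : (mkP n).n = n := rfl
  rw [h8]
  have hW : 1 ≤ (n : ℝ) * r ^ 3 := by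
    have : 1 ≤ r ^ 3 := one_le_pow₀ hr1
    nlinarith
  have h3 : r ^ 2 ≤ r ^ 3 := by
    rw [pow_succ r 2]
    nlinarith [sq_nonneg r]
  have h4 : 18 * (n : ℝ) * (mkP n).B ≤ (n : ℝ) * r ^ 3 * (18 * 415375) := by
    have h5 : (n : ℝ) * (mkP n).B ≤ (n : ℝ) * (r ^ 3 * 415375) := by
      apply mul_le_mul_of_nonneg_left _ (by linarith)
      nlinarith
    nlinarith
  have h6 : 12 * (165893 : ℝ) ^ 2 ≤ (n : ℝ) * r ^ 3 * (12 * 165893 ^ 2) := by
    nlinarith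
  have h7 : (n : ℝ) * r ^ 3 * (18 * 415375) + (n : ℝ) * r ^ 3 * (12 * 165893 ^ 2) ≤
      (n : ℝ) * r ^ 3 * Zc := by
    rw [← mul_add]
    apply mul_le_mul_of_nonneg_left _ (by linarith)
    unfold Zc
    norm_num
  nlinarith

lemma mk_pow_le (hn : 1 ≤ n) (k : ℕ) : (n : ℝ) ^ k ≤ ((2 : ℝ) ^ (mkP n).ρ) ^ k := by
  apply pow_le_pow_left₀ (Nat.cast_nonneg _)
  have h1 : n ≤ 2 ^ Nat.clog 2 n := Nat.le_pow_clog (by norm_num) n
  exact_mod_cast h1

lemma mk_g_eq : (mkP n).g = ((2 : ℝ) ^ (mkP n).ρ) ^ 9 * 2 ^ 60 := by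
  unfold Par.g
  have : (mkP n).e = 9 * (mkP n).ρ + 60 := rfl
  rw [this, pow_add, mul_comm 9, pow_mul]

lemma mk_hRu (hn : 1 ≤ n) : (mkP n).Ru2 * (n : ℝ) ^ 6 ≤ (mkP n).g := by
  set r := ((mkP n).ρ : ℝ) + 1 with hr
  set A := (2 : ℝ) ^ (mkP n).ρ with hA
  have hA1 : 1 ≤ A := one_le_pow₀ (by norm_num)
  have hn1 : (1 : ℝ) ≤ (n : ℝ) := by exact_mod_cast hn
  have h1 := mk_Ru2_le hn
  rw [← hr] at h1
  have h2 := mk_pow_le hn 7
  rw [← hA] at h2
  have h3 : r ^ 3 ≤ 2 * A ^ 2 := by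
    have h4 := cube_le (mkP n).ρ
    have h5 : (4 : ℝ) ^ (mkP n).ρ = A ^ 2 := by
      rw [hA, ← pow_mul, mul_comm, pow_mul]
      norm_num
    rw [h5] at h4
    exact h4
  have hYc : 0 < Yc := by
    unfold Yc
    have := Zc_pos
    positivity
  have h6 : 2 * Yc ≤ 2 ^ 60 := by
    unfold Yc Zc
    norm_num
  rw [mk_g_eq, ← hA]
  have h7 : (n : ℝ) ^ 7 * r ^ 3 ≤ A ^ 7 * (2 * A ^ 2) :=
    mul_le_mul h2 h3 (by positivity) (by positivity)
  calc (mkP n).Ru2 * (n : ℝ) ^ 6 ≤ ((n : ℝ) * r ^ 3 * Yc) * (n : ℝ) ^ 6 :=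
        mul_le_mul_of_nonneg_right h1 (by positivity)
    _ = ((n : ℝ) ^ 7 * r ^ 3) * Yc := by ring
    _ ≤ (A ^ 7 * (2 * A ^ 2)) * Yc := mul_le_mul_of_nonneg_right h7 hYc.le
    _ = A ^ 9 * (2 * Yc) := by ring
    _ ≤ A ^ 9 * 2 ^ 60 := mul_le_mul_of_nonneg_left h6 (by positivity)

lemma mk_D_le (hn : 1 ≤ n) : ((mkP n).D : ℝ) ≤ 165895 * (n : ℝ) ^ 2 := by
  have hn1 : (1 : ℝ) ≤ (n : ℝ) := by exact_mod_cast hn
  unfold Par.D cH
  have h8 : (mkP n).n = n := rfl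
  rw [h8]
  push_cast
  nlinarith

lemma mk_g_ge (hn : 1 ≤ n) : 80 * ((mkP n).D : ℝ) ≤ (mkP n).g := by
  set A := (2 : ℝ) ^ (mkP n).ρ with hA
  have hA1 : 1 ≤ A := one_le_pow₀ (by norm_num)
  have h1 := mk_D_le hn
  have h2 := mk_pow_le hn 2
  rw [← hA] at h2
  rw [mk_g_eq, ← hA]
  have h3 : A ^ 2 ≤ A ^ 9 := pow_le_pow_right₀ hA1 (by norm_num)
  have h4 : (2 : ℝ) ^ 60 = 1152921504606846976 := by norm_num
  rw [h4]
  have h5 : (0 : ℝ) ≤ A ^ 9 := by positivity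
  nlinarith

lemma mk_hDE (hn : 1 ≤ n) : 8 * ((mkP n).D : ℝ) * (n : ℝ) ^ 6 ≤ (mkP n).E₂ := by
  set A := (2 : ℝ) ^ (mkP n).ρ with hA
  have hA1 : 1 ≤ A := one_le_pow₀ (by norm_num)
  have h1 := mk_D_le hn
  have h2 := mk_pow_le hn 8
  rw [← hA] at h2
  have h3 : (mkP n).E₂ = 32 * (mkP n).g := rfl
  rw [h3, mk_g_eq, ← hA]
  have h4 : A ^ 8 ≤ A ^ 9 := pow_le_pow_right₀ hA1 (by norm_num)
  have h5 : 8 * ((mkP n).D : ℝ) * (n : ℝ) ^ 6 ≤ 8 * (165895 * (n : ℝ) ^ 2) * (n : ℝ) ^ 6 := by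
    apply mul_le_mul_of_nonneg_right _ (by positivity)
    linarith
  have h6 : 8 * (165895 * (n : ℝ) ^ 2) * (n : ℝ) ^ 6 = 1327160 * (n : ℝ) ^ 8 := by ring
  have h7 : (2 : ℝ) ^ 60 = 1152921504606846976 := by norm_num
  rw [h7]
  have h8 : (0 : ℝ) ≤ A ^ 9 := by positivity
  nlinarith

/-- The parameters are admissible. -/
theorem mk_adm (hn : 1 ≤ n) : (mkP n).Adm := by
  have hn1 : (1 : ℝ) ≤ (n : ℝ) := by exact_mod_cast hn
  have hg := Par.g_pos (P := mkP n)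
  have hRu := mk_hRu hn
  have hRu0 := Par.Ru2_nonneg (P := mkP n)
  have h1 : (mkP n).Ru2 ≤ (mkP n).g := by
    have h2 : 1 ≤ (n : ℝ) ^ 6 := one_le_pow₀ hn1
    nlinarith
  have hs := Real.sqrt_nonneg (mkP n).g
  have hsq : Real.sqrt (mkP n).g ^ 2 = (mkP n).g := Real.sq_sqrt hg.le
  have hRle : (mkP n).Ru ≤ Real.sqrt (mkP n).g :=
    Real.sqrt_le_sqrt h1
  have hg60 : (2 : ℝ) ^ 60 ≤ (mkP n).g := by
    rw [mk_g_eq]
    have h2 : 1 ≤ ((2 : ℝ) ^ (mkP n).ρ) ^ 9 := one_le_pow₀ (one_le_pow₀ (by norm_num))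
    have h3 : (0 : ℝ) < 2 ^ 60 := by positivity
    nlinarith
  have hs30 : (2 : ℝ) ^ 30 ≤ Real.sqrt (mkP n).g := by
    apply Real.le_sqrt_of_sq_le
    rw [← pow_mul]
    exact hg60
  have hspos : 0 < Real.sqrt (mkP n).g := Real.sqrt_pos.mpr hg
  have hζ1 : (mkP n).ζ ≤ 1 := by
    unfold Par.ζ
    rw [div_le_one hspos]
    exact hRle
  have hζ0 := Par.ζ_nonneg (P := mkP n)
  have hD := mk_g_ge hn
  have hD0 : (0 : ℝ) ≤ ((mkP n).D : ℝ) := Nat.cast_nonneg _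
  refine ⟨hn, Nat.le_pow_clog (by norm_num) n, ?_, hRu, mk_hDE hn, ?_, ?_, ?_, ?_⟩
  · -- the power is at most twice the dimension
    change 2 ^ Nat.clog 2 n ≤ 2 * n
    rcases Nat.lt_or_ge 1 n with h2 | h2
    · have h3 := Nat.pow_pred_clog_lt_self (by norm_num : 1 < 2) h2
      have h4 : 0 < Nat.clog 2 n := Nat.clog_pos (by norm_num) h2
      have h5 : 2 ^ Nat.clog 2 n = 2 * 2 ^ (Nat.clog 2 n).pred := by
        rw [← pow_succ']
        congr 1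
        exact (Nat.succ_pred_eq_of_pos h4).symm
      rw [h5]
      omega
    · have h3 : n = 1 := by omega
      subst h3
      simp
  · -- the precision
    have h2 : 2 * ((mkP n).D : ℝ) / (mkP n).g ≤ 1 / 40 := by
      rw [div_le_iff₀ hg]
      linarith
    have h3 : 7 * (mkP n).ζ / Real.sqrt (mkP n).g ≤ 1 / 40 := by
      rw [div_le_iff₀ hspos]
      have h4 : (1 / 40 : ℝ) * 2 ^ 30 ≤ 1 / 40 * Real.sqrt (mkP n).g :=
        mul_le_mul_of_nonneg_left hs30 (by norm_num)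
      have h5 : (7 : ℝ) ≤ 1 / 40 * 2 ^ 30 := by norm_num
      linarith
    linarith
  · -- steering
    have h2 : (4 : ℝ) ≤ Real.sqrt (mkP n).g := by
      have h3 : (4 : ℝ) ≤ 2 ^ 30 := by norm_num
      linarith
    nlinarith
  · linarith
  · -- the last one
    have h2 : (7 : ℝ) ≤ Real.sqrt (mkP n).g := by
      have h3 : (7 : ℝ) ≤ 2 ^ 30 := by norm_num
      linarith
    linarith

lemma mk_r_le (hn : 1 ≤ n) :
    ((mkP n).ρ : ℝ) + 1 ≤ 2 * (Real.log ((n : ℝ) + 1) + 1) := by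
  have hlog0 : 0 ≤ Real.log ((n : ℝ) + 1) := by
    apply Real.log_nonneg
    have : (0 : ℝ) ≤ (n : ℝ) := Nat.cast_nonneg _
    linarith
  change ((Nat.clog 2 n : ℕ) : ℝ) + 1 ≤ _
  rcases Nat.lt_or_ge 1 n with h2 | h2
  · have h3 := Nat.pow_pred_clog_lt_self (by norm_num : 1 < 2) h2
    have h4 : 0 < Nat.clog 2 n := Nat.clog_pos (by norm_num) h2
    have h5 : ((2 : ℝ) ^ (Nat.clog 2 n).pred) ≤ (n : ℝ) + 1 := by
      have h6 : ((2 ^ (Nat.clog 2 n).pred : ℕ) : ℝ) ≤ (n : ℝ) := by exact_mod_cast h3.le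
      push_cast at h6
      linarith
    have h7 := Real.log_le_log (by positivity) h5
    rw [Real.log_pow] at h7
    have h8 := Real.log_two_gt_d9
    have h9 : ((Nat.clog 2 n).pred : ℝ) = ((Nat.clog 2 n : ℕ) : ℝ) - 1 := by
      have h10 : Nat.clog 2 n = (Nat.clog 2 n).pred + 1 := (Nat.succ_pred_eq_of_pos h4).symm
      conv_rhs => rw [h10]
      push_cast
      ring
    rw [h9] at h7
    have h10 : (0 : ℝ) ≤ ((Nat.clog 2 n : ℕ) : ℝ) - 1 := by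
      have : (1 : ℝ) ≤ ((Nat.clog 2 n : ℕ) : ℝ) := by exact_mod_cast h4
      linarith
    nlinarith
  · have h3 : n = 1 := by omega
    subst h3
    rw [show Nat.clog 2 1 = 0 from Nat.clog_one_right 2]
    norm_num at hlog0 ⊢
    linarith

/-- The total bound in terms of the dimension. -/
noncomputable def Kc : ℝ :=
  3 * (Real.sqrt Yc + Real.sqrt (204 * c₁ * Kz * 70 ^ 3) + C₃ + 33)

theorem mk_Rtot (hn : 1 ≤ n) :
    Rtot (mkP n) ≤ Kc * Real.sqrt ((n : ℝ) * (Real.log ((n : ℝ) + 1) + 1) ^ 3) := by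
  set r := ((mkP n).ρ : ℝ) + 1 with hr
  have hr1 : 1 ≤ r := mk_r_one
  have hn1 : (1 : ℝ) ≤ (n : ℝ) := by exact_mod_cast hn
  set W := (n : ℝ) * r ^ 3 with hW
  have hW1 : 1 ≤ W := by
    have : 1 ≤ r ^ 3 := one_le_pow₀ hr1
    nlinarith
  have hW0 : 0 ≤ W := by linarith
  have hsW : 1 ≤ Real.sqrt W := by
    rw [Real.one_le_sqrt]
    exact hW1
  have hYc : 0 < Yc := by
    unfold Yc
    have := Zc_pos
    positivity
  have h1 : (mkP n).Ru ≤ Real.sqrt Yc * Real.sqrt W := by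
    rw [← Real.sqrt_mul hYc.le]
    apply Real.sqrt_le_sqrt
    have h2 := mk_Ru2_le hn
    rw [← hr] at h2
    rw [mul_comm Yc W]
    exact h2
  have hc := c₁_pos
  have hK := Kz_pos
  have h2 : Real.sqrt (204 * c₁ * Kz * ((mkP n).n : ℝ) * (((mkP n).J 0 : ℝ) + 1) ^ 3) ≤
      Real.sqrt (204 * c₁ * Kz * 70 ^ 3) * Real.sqrt W := by
    rw [← Real.sqrt_mul (by positivity)]
    apply Real.sqrt_le_sqrt
    have h3 := mk_J_le (n := n)
    rw [← hr] at h3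
    have h4 : (((mkP n).J 0 : ℝ) + 1) ^ 3 ≤ (70 * r) ^ 3 :=
      pow_le_pow_left₀ (by positivity) h3 3
    have h8 : (mkP n).n = n := rfl
    rw [h8]
    calc 204 * c₁ * Kz * (n : ℝ) * (((mkP n).J 0 : ℝ) + 1) ^ 3
        ≤ 204 * c₁ * Kz * (n : ℝ) * (70 * r) ^ 3 :=
          mul_le_mul_of_nonneg_left h4 (by positivity)
      _ = _ := by rw [hW]; ring
  have hC := Par.C₃_pos
  have h3 : C₃ + 33 ≤ (C₃ + 33) * Real.sqrt W := by
    have : 0 < C₃ + 33 := by linarith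
    nlinarith
  -- from `r` to the logarithm
  set Lg := Real.log ((n : ℝ) + 1) + 1 with hLg
  have hLg0 : 0 ≤ Lg := by
    have : 0 ≤ Real.log ((n : ℝ) + 1) := by
      apply Real.log_nonneg
      linarith
    rw [hLg]
    linarith
  have h4 : Real.sqrt W ≤ 3 * Real.sqrt ((n : ℝ) * Lg ^ 3) := by
    have h5 := mk_r_le hn
    rw [← hr, ← hLg] at h5
    have h6 : r ^ 3 ≤ (2 * Lg) ^ 3 := pow_le_pow_left₀ (by linarith) h5 3
    have h7 : W ≤ 3 ^ 2 * ((n : ℝ) * Lg ^ 3) := by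
      rw [hW]
      have h8 : (n : ℝ) * r ^ 3 ≤ (n : ℝ) * (2 * Lg) ^ 3 :=
        mul_le_mul_of_nonneg_left h6 (by linarith)
      have h9 : 0 ≤ (n : ℝ) * Lg ^ 3 := by positivity
      calc _ ≤ _ := h8
        _ = 8 * ((n : ℝ) * Lg ^ 3) := by ring
        _ ≤ _ := by nlinarith
    calc Real.sqrt W ≤ Real.sqrt (3 ^ 2 * ((n : ℝ) * Lg ^ 3)) := Real.sqrt_le_sqrt h7
      _ = _ := by
        rw [Real.sqrt_mul (by norm_num), Real.sqrt_sq (by norm_num)]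
  unfold Rtot Kc
  have h5 : 0 ≤ Real.sqrt Yc + Real.sqrt (204 * c₁ * Kz * 70 ^ 3) + C₃ + 33 := by
    have := Real.sqrt_nonneg Yc
    have := Real.sqrt_nonneg (204 * c₁ * Kz * 70 ^ 3)
    linarith
  have h6 := mul_le_mul_of_nonneg_left h4 h5
  nlinarith

end bounds

variable {E : Type*} [NormedAddCommGroup E] [InnerProductSpace ℝ E] [FiniteDimensional ℝ E]

/-- The partial sums of a list as sums over an initial segment. -/
lemma sum_take_eq {N : ℕ} {K : Type*} [AddCommMonoid K] (l : List (Fin N)) (hl : l.length = N)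
    (f : Fin N → K) (k : ℕ) (hk : k ≤ N) :
    ∑ i : Fin N with i.val < k, f (l.get (Fin.cast hl.symm i)) = ((l.take k).map f).sum := by
  induction k with
  | zero => simp
  | succ k ih =>
    have hk' : k < N := by omega
    have h1 : (Finset.univ.filter (fun i : Fin N => i.val < k + 1)) =
        insert (⟨k, hk'⟩ : Fin N) (Finset.univ.filter (fun i : Fin N => i.val < k)) := by
      ext i
      simp only [Finset.mem_filter, Finset.mem_univ, true_and, Finset.mem_insert, Fin.ext_iff]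
      omega
    have h2 : (⟨k, hk'⟩ : Fin N) ∉ Finset.univ.filter (fun i : Fin N => i.val < k) := by
      simp
    have hkl : k < l.length := by omega
    have h3 : l.take (k + 1) = l.take k ++ [l[k]] := by
      rw [List.take_add_one, List.getElem?_eq_getElem hkl]
      simp
    rw [h1, Finset.sum_insert h2, ih (by omega), h3, List.map_append, List.sum_append]
    simp only [List.map_cons, List.map_nil, List.sum_cons, List.sum_nil, add_zero]
    rw [add_comm]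
    simp [Fin.cast]

/-- The theorem for an abstract Euclidean space. -/
theorem steinitz_final (hd : 1 ≤ finrank ℝ E) (N : ℕ) (v : Fin N → E) (hv : ∀ i, ‖v i‖ ≤ 1)
    (h0 : ∑ i, v i = 0) :
    ∃ π : Equiv.Perm (Fin N), ∀ k : ℕ, k ≤ N →
      ‖∑ i : Fin N with i.val < k, v (π i)‖ ≤
        Kc * Real.sqrt ((finrank ℝ E : ℝ) * (Real.log ((finrank ℝ E : ℝ) + 1) + 1) ^ 3) := by
  classical
  obtain ⟨l, hn, ht, hb⟩ := steinitz_core (P := mkP (finrank ℝ E)) (mk_adm hd) rfl hv Finset.univ h0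
  have hlen : l.length = N := by
    have h1 := List.toFinset_card_of_nodup hn
    rw [ht] at h1
    simpa using h1.symm
  let f : Fin N → Fin N := fun i => l.get (Fin.cast hlen.symm i)
  have hinj : Function.Injective f := by
    intro i j hij
    have h1 := (List.nodup_iff_injective_get.mp hn) hij
    exact Fin.cast_injective _ h1
  have hbij : Function.Bijective f :=
    (Fintype.bijective_iff_injective_and_card f).mpr ⟨hinj, rfl⟩
  refine ⟨Equiv.ofBijective f hbij, fun k hk => ?_⟩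
  have h2 := sum_take_eq l hlen v k hk
  have h3 : ∑ i : Fin N with i.val < k, v ((Equiv.ofBijective f hbij) i) =
      ((l.take k).map v).sum := h2
  rw [h3]
  exact (hb k).trans (mk_Rtot hd)

end Vale.Agent.Lib.P262.U
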