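import Vale.Agent.Lib.P262.U.Params

/-!
Ranks, weights and the schedule of a node; the two phases of the walk.
-/

open scoped RealInnerProductSpace BigOperators
open Module

set_option linter.unusedSectionVars false

namespace Vale.Agent.Lib.P262.U

variable {E : Type*} [NormedAddCommGroup E] [InnerProductSpace ℝ E] [FiniteDimensional ℝ E]
variable {ι : Type*} [DecidableEq ι]
variable {n : ℕ} {b : OrthonormalBasis (Fin n) ℝ E} {μ : Fin n → ℝ}

/-- Rank of an eigenvalue inside a set. -/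
noncomputable def jr (μ : Fin n → ℝ) (Th : Finset (Fin n)) (k : Fin n) : ℕ :=
  (Th.filter (fun l => μ l ≤ μ k)).card

lemma jr_pos {Th : Finset (Fin n)} {k : Fin n} (hk : k ∈ Th) : 1 ≤ jr μ Th k := by
  unfold jr
  apply Finset.card_pos.mpr
  exact ⟨k, Finset.mem_filter.mpr ⟨hk, le_refl _⟩⟩

lemma jr_le (Th : Finset (Fin n)) (k : Fin n) : jr μ Th k ≤ n := by
  unfold jr
  calc _ ≤ Th.card := Finset.card_filter_le _ _
    _ ≤ _ := by simpa using Finset.card_le_univ Th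

lemma jr_filter_card (Th : Finset (Fin n)) (m : ℕ) :
    (Th.filter (fun k => jr μ Th k ≤ m)).card ≤ m := by
  set U := Th.filter (fun k => jr μ Th k ≤ m) with hU
  by_cases hne : U.Nonempty
  · obtain ⟨k₀, hk₀, hmax⟩ := Finset.exists_max_image U μ hne
    have h1 : U ⊆ Th.filter (fun l => μ l ≤ μ k₀) := by
      intro l hl
      exact Finset.mem_filter.mpr ⟨(Finset.mem_filter.mp hl).1, hmax l hl⟩
    have h2 := Finset.card_le_card h1
    have h3 : jr μ Th k₀ ≤ m := (Finset.mem_filter.mp hk₀).2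
    unfold jr at h3
    omega
  · rw [Finset.not_nonempty_iff_eq_empty] at hne
    rw [hne]
    simp

lemma jr_mul_le {Th : Finset (Fin n)} (hμ : ∀ k, 0 ≤ μ k) {κ : ℝ} (hκ : 0 < κ) {k : Fin n}
    (_hk : k ∈ Th) : (jr μ Th k : ℝ) * (κ / (μ k + κ)) ≤ tauS μ Th κ := by
  unfold tauS jr
  have h1 : ∀ l ∈ Th.filter (fun l => μ l ≤ μ k), κ / (μ k + κ) ≤ κ / (μ l + κ) := by
    intro l hl
    have h2 := (Finset.mem_filter.mp hl).2
    have h3 := hμ l
    apply div_le_div_of_nonneg_left hκ.le (by positivity)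
    linarith
  have h4 := Finset.card_nsmul_le_sum _ _ _ h1
  rw [nsmul_eq_mul] at h4
  refine h4.trans ?_
  apply Finset.sum_le_sum_of_subset_of_nonneg (Finset.filter_subset _ _)
  intro l _ _
  have := hμ l
  positivity

/-- The weights of a node. -/
noncomputable def wgt (μ : Fin n → ℝ) (Th Ac : Finset (Fin n)) (ε : ℝ) (k : Fin n) : ℝ :=
  if k ∈ Th then 1 / (jr μ Th k : ℝ) else if k ∈ Ac then 1 / (ε * (Ac.card : ℝ)) else 1 / ε

lemma wgt_nonneg (Th Ac : Finset (Fin n)) {ε : ℝ} (hε : 0 ≤ ε) (k : Fin n) :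
    0 ≤ wgt μ Th Ac ε k := by
  unfold wgt
  split_ifs <;> positivity

/-- The schedule of a node. -/
noncomputable def schS (μ : Fin n → ℝ) (Th Ac : Finset (Fin n)) (t : ℕ) : Finset (Fin n) :=
  (Th.filter (fun k => jr μ Th k ≤ 2 ^ t / 2)) ∪ (if Ac.card ≤ 2 ^ t / 2 then Ac else ∅)

lemma schS_card (Th Ac : Finset (Fin n)) (t : ℕ) : (schS μ Th Ac t).card ≤ 2 ^ t := by
  unfold schS
  have h1 := Finset.card_union_le (Th.filter (fun k => jr μ Th k ≤ 2 ^ t / 2))
    (if Ac.card ≤ 2 ^ t / 2 then Ac else ∅)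
  have h2 := jr_filter_card (μ := μ) Th (2 ^ t / 2)
  have h3 : (if Ac.card ≤ 2 ^ t / 2 then Ac else ∅).card ≤ 2 ^ t / 2 := by
    split_ifs with h
    · exact h
    · simp
  have h4 : 2 * (2 ^ t / 2) ≤ 2 ^ t := Nat.mul_div_le _ _
  omega

lemma half_le_succ {t m : ℕ} (h : 2 ^ t / 2 < m) : (2 : ℝ) ^ t / 2 ≤ m := by
  have h1 : 2 ^ t ≤ 2 * m := by omega
  have h2 : ((2 ^ t : ℕ) : ℝ) ≤ ((2 * m : ℕ) : ℝ) := by exact_mod_cast h1
  push_cast at h2
  linarith

/-- The stage bound for the weights of a node. -/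
lemma sched_tau (Th Ac : Finset (Fin n)) {ε d : ℝ} (hε : 0 ≤ ε) (hd : 0 ≤ d) (c : Fin n → ℝ) (t : ℕ)
    (hTh : ∑ k ∈ Th, c k ^ 2 ≤ 1) (hSo : ∑ k ∈ Thᶜ, c k ^ 2 ≤ ε)
    (hdead : ∀ k, k ∉ Th → k ∉ Ac → c k ^ 2 ≤ ε * d) (hnd : (n : ℝ) * d ≤ 1 / 2 ^ t) :
    ∑ k, (if k ∈ schS μ Th Ac t then 0 else wgt μ Th Ac ε k) * c k ^ 2 ≤ 5 / 2 ^ t := by
  set q : ℝ := 1 / 2 ^ t with hq
  have hq0 : 0 < q := by positivity
  have hpt : 0 < (2 : ℝ) ^ t := by positivity
  -- the pointwise bound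
  have hterm : ∀ k, (if k ∈ schS μ Th Ac t then 0 else wgt μ Th Ac ε k) * c k ^ 2 ≤
      (if k ∈ Th then 2 * q * c k ^ 2 else 0) + (if k ∈ Thᶜ then 2 * q / ε * c k ^ 2 else 0) + d := by
    intro k
    by_cases hk : k ∈ schS μ Th Ac t
    · rw [if_pos hk, zero_mul]
      have h1 : 0 ≤ (if k ∈ Th then 2 * q * c k ^ 2 else 0) := by
        split_ifs <;> positivity
      have h2 : 0 ≤ (if k ∈ Thᶜ then 2 * q / ε * c k ^ 2 else 0) := by
        split_ifs <;> positivity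
      linarith
    · rw [if_neg hk]
      unfold wgt
      by_cases hkT : k ∈ Th
      · rw [if_pos hkT, if_pos hkT]
        have hkc : k ∉ Thᶜ := by simpa using hkT
        rw [if_neg hkc]
        have h1 : 2 ^ t / 2 < jr μ Th k := by
          by_contra hcon
          push Not at hcon
          apply hk
          unfold schS
          exact Finset.mem_union_left _ (Finset.mem_filter.mpr ⟨hkT, hcon⟩)
        have h2 := half_le_succ h1
        have h3 : 1 / (jr μ Th k : ℝ) ≤ 2 * q := by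
          have h4 : (0 : ℝ) < (jr μ Th k : ℝ) := by
            have := jr_pos (μ := μ) hkT
            exact_mod_cast this
          rw [div_le_iff₀ h4, hq]
          have h5 : 2 * (1 / (2 : ℝ) ^ t) * (jr μ Th k : ℝ) = (jr μ Th k : ℝ) / ((2 : ℝ) ^ t / 2) := by
            field_simp
          rw [h5, le_div_iff₀ (by positivity)]
          linarith
        have h6 := mul_le_mul_of_nonneg_right h3 (sq_nonneg (c k))
        linarith
      · rw [if_neg hkT, if_neg hkT]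
        have hkc : k ∈ Thᶜ := by simpa using hkT
        rw [if_pos hkc]
        by_cases hkA : k ∈ Ac
        · rw [if_pos hkA]
          have h1 : 2 ^ t / 2 < Ac.card := by
            by_contra hcon
            push Not at hcon
            apply hk
            unfold schS
            rw [if_pos hcon]
            exact Finset.mem_union_right _ hkA
          have h2 := half_le_succ h1
          by_cases hε0 : ε = 0
          · rw [hε0]
            simp
            exact hd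
          · have hεp : 0 < ε := lt_of_le_of_ne hε (Ne.symm hε0)
            have h3 : 1 / (ε * (Ac.card : ℝ)) ≤ 2 * q / ε := by
              have h4 : (0 : ℝ) < (Ac.card : ℝ) := by
                have : 0 < Ac.card := lt_of_le_of_lt (Nat.zero_le _) h1
                exact_mod_cast this
              rw [div_le_div_iff₀ (by positivity) hεp, hq]
              have h5 : 2 * (1 / (2 : ℝ) ^ t) * (ε * (Ac.card : ℝ)) =
                  ε * ((Ac.card : ℝ) / ((2 : ℝ) ^ t / 2)) := by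
                field_simp
              rw [h5]
              have h6 : 1 ≤ (Ac.card : ℝ) / ((2 : ℝ) ^ t / 2) := by
                rw [le_div_iff₀ (by positivity)]
                linarith
              nlinarith
            have h7 := mul_le_mul_of_nonneg_right h3 (sq_nonneg (c k))
            linarith
        · rw [if_neg hkA]
          have h1 := hdead k hkT hkA
          by_cases hε0 : ε = 0
          · rw [hε0]
            simp
            have : 0 ≤ q * 2 / 0 * c k ^ 2 := by simp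
            exact hd
          · have hεp : 0 < ε := lt_of_le_of_ne hε (Ne.symm hε0)
            have h2 : 1 / ε * c k ^ 2 ≤ d := by
              rw [div_mul_eq_mul_div, div_le_iff₀ hεp]
              linarith
            have h3 : 0 ≤ 2 * q / ε * c k ^ 2 := by positivity
            linarith
  refine (Finset.sum_le_sum (fun k _ => hterm k)).trans ?_
  rw [Finset.sum_add_distrib, Finset.sum_add_distrib, Finset.sum_ite_mem, Finset.sum_ite_mem]
  simp only [Finset.univ_inter, Finset.sum_const, Finset.card_univ, Fintype.card_fin, nsmul_eq_mul]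
  rw [← Finset.mul_sum, ← Finset.mul_sum]
  have h1 : 2 * q * ∑ k ∈ Th, c k ^ 2 ≤ 2 * q * 1 :=
    mul_le_mul_of_nonneg_left hTh (by positivity)
  have h2 : 2 * q / ε * ∑ k ∈ Thᶜ, c k ^ 2 ≤ 2 * q := by
    by_cases hε0 : ε = 0
    · rw [hε0]
      simp
      positivity
    · have hεp : 0 < ε := lt_of_le_of_ne hε (Ne.symm hε0)
      have h3 : 2 * q / ε * ∑ k ∈ Thᶜ, c k ^ 2 ≤ 2 * q / ε * ε :=
        mul_le_mul_of_nonneg_left hSo (by positivity)
      refine h3.trans (le_of_eq ?_)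
      field_simp
  have h5 : (5 : ℝ) / 2 ^ t = 5 * q := by
    rw [hq]
    ring
  rw [h5]
  linarith

/-- Extracting the bounds on the coordinates from the weighted budget. -/
lemma wgt_cons (Th Ac : Finset (Fin n)) (hAc : Disjoint Th Ac) {ε B : ℝ} (hε : 0 < ε)
    (hr : 1 ≤ (Ac.card : ℝ)) (hB : 0 ≤ B) (c : Fin n → ℝ)
    (hQ : ∑ k, wgt μ Th Ac ε k * c k ^ 2 ≤ B) :
    ∑ k ∈ Thᶜ, c k ^ 2 ≤ 2 * B * (ε * (Ac.card : ℝ)) := by
  have hr0 : 0 < (Ac.card : ℝ) := by linarith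
  have h1 : ∀ k ∈ Thᶜ, c k ^ 2 ≤ (ε * (Ac.card : ℝ)) * 2 * (wgt μ Th Ac ε k * c k ^ 2) := by
    intro k hk
    have hkT : k ∉ Th := by simpa using hk
    unfold wgt
    rw [if_neg hkT]
    have h2 := sq_nonneg (c k)
    split_ifs with hkA
    · have h3 : ε * (Ac.card : ℝ) * 2 * (1 / (ε * (Ac.card : ℝ)) * c k ^ 2) = 2 * c k ^ 2 := by
        field_simp
      rw [h3]
      linarith
    · have h3 : ε * (Ac.card : ℝ) * 2 * (1 / ε * c k ^ 2) = (Ac.card : ℝ) * 2 * c k ^ 2 := by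
        field_simp
      rw [h3]
      nlinarith
  have h2 : ∑ k ∈ Thᶜ, wgt μ Th Ac ε k * c k ^ 2 ≤ B := by
    refine le_trans ?_ hQ
    apply Finset.sum_le_sum_of_subset_of_nonneg (Finset.subset_univ _)
    intro k _ _
    exact mul_nonneg (wgt_nonneg Th Ac hε.le k) (sq_nonneg _)
  calc _ ≤ ∑ k ∈ Thᶜ, (ε * (Ac.card : ℝ)) * 2 * (wgt μ Th Ac ε k * c k ^ 2) :=
        Finset.sum_le_sum h1
    _ = (ε * (Ac.card : ℝ)) * 2 * ∑ k ∈ Thᶜ, wgt μ Th Ac ε k * c k ^ 2 := by rw [Finset.mul_sum]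
    _ ≤ (ε * (Ac.card : ℝ)) * 2 * B := mul_le_mul_of_nonneg_left h2 (by positivity)
    _ = _ := by ring

lemma wgt_cons_th (Th Ac : Finset (Fin n)) {ε B : ℝ} (hε : 0 ≤ ε) (c : Fin n → ℝ)
    (hQ : ∑ k, wgt μ Th Ac ε k * c k ^ 2 ≤ B) :
    ∑ k ∈ Th, c k ^ 2 / (jr μ Th k : ℝ) ≤ B := by
  refine le_trans ?_ hQ
  have h1 : ∑ k ∈ Th, c k ^ 2 / (jr μ Th k : ℝ) = ∑ k ∈ Th, wgt μ Th Ac ε k * c k ^ 2 := by
    refine Finset.sum_congr rfl (fun k hk => ?_)
    unfold wgt
    rw [if_pos hk]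
    ring
  rw [h1]
  apply Finset.sum_le_sum_of_subset_of_nonneg (Finset.subset_univ _)
  intro k _ _
  exact mul_nonneg (wgt_nonneg Th Ac hε k) (sq_nonneg _)

/-- The thick coordinates are bounded by the rank budget. -/
lemma th_sum_le (Th : Finset (Fin n)) {B : ℝ} (c : Fin n → ℝ)
    (hQ : ∑ k ∈ Th, c k ^ 2 / (jr μ Th k : ℝ) ≤ B) : ∑ k ∈ Th, c k ^ 2 ≤ (n : ℝ) * B := by
  have hn : (0 : ℝ) ≤ (n : ℝ) := Nat.cast_nonneg _
  calc _ ≤ ∑ k ∈ Th, (n : ℝ) * (c k ^ 2 / (jr μ Th k : ℝ)) := by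
        refine Finset.sum_le_sum (fun k hk => ?_)
        have h1 : (0 : ℝ) < (jr μ Th k : ℝ) := by
          have := jr_pos (μ := μ) hk
          exact_mod_cast this
        have h2 : (jr μ Th k : ℝ) ≤ n := by exact_mod_cast jr_le Th k
        rw [mul_div_assoc', le_div_iff₀ h1]
        exact mul_le_mul_of_nonneg_left h2 (sq_nonneg _) |>.trans (le_of_eq (by ring))
    _ = (n : ℝ) * ∑ k ∈ Th, c k ^ 2 / (jr μ Th k : ℝ) := by rw [Finset.mul_sum]
    _ ≤ _ := mul_le_mul_of_nonneg_left hQ hn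

/-- The two phases of the walk. -/
lemma node_walk (x : ι → E) (A' : Finset ι) (b : OrthonormalBasis (Fin n) ℝ E) (nb : ι → ℝ)
    (hnb : ∀ i ∈ A', 0 ≤ nb i ∧ nb i ≤ 1) (w : Fin n → ℝ) (hw : ∀ k, 0 ≤ w k)
    (L₀ : Finset (ι → ℝ)) (S : ℕ → Finset (Fin n)) (ρ : ℕ) (hS : ∀ t ≤ ρ, (S t).card ≤ 2 ^ t)
    (hτ : ∀ t ≤ ρ, ∀ i ∈ A', ∑ k, (if k ∈ S t then 0 else w k) * ⟪b k, x i⟫ ^ 2 ≤ 5 / 2 ^ t)
    (hK : n ≤ 2 ^ (ρ + 1)) :
    ∃ ν₁ ν : ι → ℝ, (∀ i ∈ A', 0 ≤ ν₁ i ∧ ν₁ i ≤ 1) ∧ (∀ i ∈ A', 0 ≤ ν i ∧ ν i ≤ 1) ∧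
      (fl A' ν).card ≤ 2 * L₀.card + 2 ∧
      (∀ a ∈ L₀, ∑ i ∈ A', a i * (ν i - nb i) = 0) ∧
      (∀ i, i ∉ fl A' ν₁ → ν i = ν₁ i) ∧
      (fl A' ν₁).card ≤ 2 * (L₀.card + n + n ^ 2) ∧
      (∀ v, ∑ i ∈ A', (ν₁ i - nb i) * ⟪x i, v⟫ ^ 2 = 0) ∧
      (∑ i ∈ A', (ν₁ i - nb i) • x i = 0) ∧
      ∑ k, w k * ⟪b k, ∑ i ∈ A', (ν i - nb i) • x i⟫ ^ 2 ≤
        ((ρ : ℝ) + 1) ^ 2 * (10 + 5 * (L₀.card : ℝ)) := by
  classical
  let g : Fin n → ι → ℝ := fun k i => ⟪b k, x i⟫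
  let L₁ : Finset (ι → ℝ) := (Finset.univ : Finset (Fin n)).image g
  let L₂ : Finset (ι → ℝ) := (Finset.univ : Finset (Fin n × Fin n)).image
    (fun p i => g p.1 i * g p.2 i)
  let L : Finset (ι → ℝ) := L₀ ∪ (L₁ ∪ L₂)
  have hL₁ : L₁.card ≤ n := by
    calc L₁.card ≤ (Finset.univ : Finset (Fin n)).card := Finset.card_image_le
      _ = n := by simp
  have hL₂ : L₂.card ≤ n ^ 2 := by
    calc L₂.card ≤ (Finset.univ : Finset (Fin n × Fin n)).card := Finset.card_image_le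
      _ = n ^ 2 := by simp [sq]
  have hL : L.card ≤ L₀.card + n + n ^ 2 := by
    have h1 := Finset.card_union_le L₀ (L₁ ∪ L₂)
    have h2 := Finset.card_union_le L₁ L₂
    change (L₀ ∪ (L₁ ∪ L₂)).card ≤ _
    omega
  obtain ⟨ν₁, h1, h2, h3, h4, _⟩ := stage (fun _ : Fin n => (0 : ℝ)) (fun _ => le_rfl) g A' L
    (2 * (L₀.card + n + n ^ 2)) (by omega) 0 nb hnb (by simp)
  obtain ⟨ν, h5, h6, h7, h8, h9⟩ := schedule_walk w hw g A' L₀ ρ S hS hτ
    (by simpa using hK) ν₁ h1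
  have hcomp : ∀ k, ∑ i ∈ A', (ν₁ i - nb i) * g k i = 0 := by
    intro k
    have := h4 (g k) (Finset.mem_union_right _ (Finset.mem_union_left _
      (Finset.mem_image_of_mem _ (Finset.mem_univ k))))
    rw [← this]
    exact Finset.sum_congr rfl (fun i _ => by ring)
  have hprod : ∀ k l, ∑ i ∈ A', (ν₁ i - nb i) * (g k i * g l i) = 0 := by
    intro k l
    have := h4 (fun i => g k i * g l i) (Finset.mem_union_right _ (Finset.mem_union_right _
      (Finset.mem_image_of_mem (fun (p : Fin n × Fin n) i => g p.1 i * g p.2 i)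
        (Finset.mem_univ (k, l)))))
    rw [← this]
    exact Finset.sum_congr rfl (fun i _ => by ring)
  have hcoord : ∀ (c : ι → ℝ) k, ⟪b k, ∑ i ∈ A', c i • x i⟫ = ∑ i ∈ A', c i * g k i := by
    intro c k
    rw [inner_sum]
    exact Finset.sum_congr rfl (fun i _ => by rw [inner_smul_right])
  refine ⟨ν₁, ν, h1, h5, h7, ?_, h6, h3, ?_, ?_, ?_⟩
  · intro a ha
    have h10 := h8 a ha
    have h11 := h4 a (Finset.mem_union_left _ ha)
    have : ∑ i ∈ A', a i * (ν i - nb i) =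
        ∑ i ∈ A', a i * (ν i - ν₁ i) + ∑ i ∈ A', a i * (ν₁ i - nb i) := by
      rw [← Finset.sum_add_distrib]
      exact Finset.sum_congr rfl (fun i _ => by ring)
    rw [this, h10, h11, add_zero]
  · intro v
    have h10 : ∀ i, ⟪x i, v⟫ ^ 2 = ∑ k, ∑ l, ⟪b k, v⟫ * ⟪b l, v⟫ * (g k i * g l i) := by
      intro i
      have h11 : ⟪x i, v⟫ = ∑ k, g k i * ⟪b k, v⟫ := inner_eq_sum b (x i) v
      rw [sq, h11, Finset.sum_mul_sum]
      refine Finset.sum_congr rfl (fun k _ => Finset.sum_congr rfl (fun l _ => ?_))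
      ring
    simp_rw [h10, Finset.mul_sum]
    rw [Finset.sum_comm]
    apply Finset.sum_eq_zero
    intro k _
    rw [Finset.sum_comm]
    apply Finset.sum_eq_zero
    intro l _
    have h12 := hprod k l
    calc _ = ⟪b k, v⟫ * ⟪b l, v⟫ * ∑ i ∈ A', (ν₁ i - nb i) * (g k i * g l i) := by
          rw [Finset.mul_sum]
          exact Finset.sum_congr rfl (fun i _ => by ring)
      _ = 0 := by rw [h12, mul_zero]
  · have h10 : ‖∑ i ∈ A', (ν₁ i - nb i) • x i‖ ^ 2 = 0 := by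
      rw [norm_sq_eq_sum b]
      apply Finset.sum_eq_zero
      intro k _
      rw [hcoord, hcomp]
      simp
    simpa using h10
  · have h10 : ∀ k, ⟪b k, ∑ i ∈ A', (ν i - nb i) • x i⟫ = ∑ i ∈ A', (ν i - ν₁ i) * g k i := by
      intro k
      rw [hcoord]
      have h11 := hcomp k
      have : ∑ i ∈ A', (ν i - nb i) * g k i =
          ∑ i ∈ A', (ν i - ν₁ i) * g k i + ∑ i ∈ A', (ν₁ i - nb i) * g k i := by
        rw [← Finset.sum_add_distrib]
        exact Finset.sum_congr rfl (fun i _ => by ring)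
      rw [this, h11, add_zero]
    simp_rw [h10]
    exact h9

end Vale.Agent.Lib.P262.U
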