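import Vale.Agent.Lib.P262.U.NodeH

/-!
The output of a node: classes of eigenvectors, and existence of the split.
-/

open scoped RealInnerProductSpace BigOperators
open Module

set_option linter.unusedSectionVars false

namespace Vale.Agent.Lib.P262.U

variable {E : Type*} [NormedAddCommGroup E] [InnerProductSpace ℝ E] [FiniteDimensional ℝ E]
variable {ι : Type*} [DecidableEq ι]

/-- Thick eigenvalues. -/
noncomputable def thickSet (P : Par) (μ : Fin P.n → ℝ) : Finset (Fin P.n) :=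
  Finset.univ.filter (fun k => P.E₂ ≤ μ k)

/-- What a node produces. -/
structure NodeOut (P : Par) (x : ι → E) (A : Finset ι) (b : OrthonormalBasis (Fin P.n) ℝ E)
    (μ : Fin P.n → ℝ) (h y : E) where
  ε : ℝ
  s : ℕ
  Ac : Finset (Fin P.n)
  I₁ : Finset ι
  I₀ : Finset ι
  Fc : Finset ι
  ν : ι → ℝ
  e : E
  a₁ : ι → ℝ
  a₀ : ι → ℝ
  F₁ : Finset ι
  F₀ : Finset ι
  hε0 : 0 ≤ ε
  hε1 : ε ≤ 1
  hsoft : ∀ i ∈ A, ‖sproj b (thickSet P μ)ᶜ (x i)‖ ^ 2 ≤ ε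
  hAc : Disjoint (thickSet P μ) Ac
  hεs : 0 < ε → ε ≤ (1 / 4) ^ s
  hr1 : 0 < ε → 1 ≤ (Ac.card : ℝ)
  hI₁ : I₁ ⊆ A
  hI₀ : I₀ ⊆ A
  hFc : Fc ⊆ A
  hd₁ : Disjoint I₁ I₀
  hd₂ : Disjoint I₁ Fc
  hd₃ : Disjoint I₀ Fc
  hU : I₁ ∪ Fc ∪ I₀ = A
  hc₁ : I₁.card < A.card
  hc₀ : I₀.card < A.card
  hFcC : (Fc.card : ℝ) ≤ C₃
  hνFc : ∀ i ∈ Fc, 0 ≤ ν i ∧ ν i ≤ 1
  hsum : ∑ i ∈ I₁, x i = ∑ i ∈ A, nbv x h i • x i + e - ∑ i ∈ Fc, ν i • x i
  hye : ⟪y, e⟫ ≤ 0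
  hth : ∑ k ∈ thickSet P μ, ⟪b k, e⟫ ^ 2 / (jr μ (thickSet P μ) k : ℝ) ≤ P.B
  hso : ∑ k ∈ (thickSet P μ)ᶜ, ⟪b k, e⟫ ^ 2 ≤ 2 * P.B * (ε * (Ac.card : ℝ))
  hen : ‖e‖ ^ 2 ≤ 3 * (P.n : ℝ) * P.B
  hbal₁ : ∀ v, ⟪rkS x I₁ v, v⟫ = (1 / 2) * ⟪rkS x A v, v⟫ +
    (-1) * ∑ i ∈ A, ⟪x i, h⟫ * ⟪x i, v⟫ ^ 2 + ∑ i ∈ F₁, a₁ i * ⟪x i, v⟫ ^ 2
  hbal₀ : ∀ v, ⟪rkS x I₀ v, v⟫ = (1 / 2) * ⟪rkS x A v, v⟫ +
    1 * ∑ i ∈ A, ⟪x i, h⟫ * ⟪x i, v⟫ ^ 2 + ∑ i ∈ F₀, a₀ i * ⟪x i, v⟫ ^ 2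
  hF₁ : F₁ ⊆ A
  hF₀ : F₀ ⊆ A
  hF₁c : F₁.card ≤ P.D
  hF₀c : F₀.card ≤ P.D
  ha₁ : ∀ i ∈ F₁, |a₁ i| ≤ 1
  ha₀ : ∀ i ∈ F₀, |a₀ i| ≤ 1
  hdrop₁ : 0 < ε → (Ac.card : ℝ) / 288 ≤ P.Lev (rkS x A) s - P.Lev (rkS x I₁) s
  hdrop₀ : 0 < ε → (Ac.card : ℝ) / 288 ≤ P.Lev (rkS x A) s - P.Lev (rkS x I₀) s
  hheavy : Fc = ∅ ∨ (0 < ε ∧ (∀ k, k ∉ thickSet P μ → k ∉ Ac → μ k ≤ ε * P.η ^ 2 / 4) ∧
    (∀ v, (∀ k, k ∉ Ac → ⟪b k, v⟫ = 0) → ∑ i ∈ F₁, a₁ i * ⟪x i, v⟫ ^ 2 ≤ 0) ∧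
    (∀ v, (∀ k, k ∉ Ac → ⟪b k, v⟫ = 0) → ∑ i ∈ F₀, a₀ i * ⟪x i, v⟫ ^ 2 ≤ 0))

/-- The pool at a node is at least a sixth of the active rank. -/
lemma pool_ge (P : Par) (x : ι → E) (A : Finset ι) {b : OrthonormalBasis (Fin P.n) ℝ E}
    {μ : Fin P.n → ℝ} (hb : ∀ k, (rkS x A) (b k) = μ k • b k) (hμ : ∀ k, 0 ≤ μ k) (s : ℕ)
    (Ac : Finset (Fin P.n)) (hAc : ∀ k ∈ Ac, P.κm s ≤ μ k ∧ μ k < P.E₂) :
    (Ac.card : ℝ) / 6 ≤ ∑ i ∈ A, qt (rkS x A) (P.κm s) (2 * P.E₂) (x i) := by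
  have hκ := Par.κm_pos (P := P) s
  have hE₂ := Par.E₂_pos (P := P)
  have hκle : P.κm s ≤ 2 * P.E₂ := by
    have h1 : P.κm s ≤ 1 := by
      unfold Par.κm
      exact pow_le_one₀ (by norm_num) (by norm_num)
    have h2 : (1 : ℝ) ≤ P.g := Par.one_le_g
    have h3 : P.E₂ = 32 * P.g := rfl
    linarith
  rw [pool_eq x A hb hμ hκ (by positivity)]
  have hnn : ∀ k, 0 ≤ μ k / (μ k + P.κm s) - μ k / (μ k + 2 * P.E₂) := by
    intro k
    have h1 := hμ k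
    have h2 : μ k / (μ k + 2 * P.E₂) ≤ μ k / (μ k + P.κm s) := by
      apply div_le_div_of_nonneg_left h1 (by positivity)
      linarith
    linarith
  have h1 : ∑ k ∈ Ac, (1 / 6 : ℝ) ≤ ∑ k ∈ Ac, (μ k / (μ k + P.κm s) - μ k / (μ k + 2 * P.E₂)) := by
    refine Finset.sum_le_sum (fun k hk => ?_)
    obtain ⟨h2, h3⟩ := hAc k hk
    have h4 : 0 < μ k := lt_of_lt_of_le hκ h2
    have h5 : (1 / 2 : ℝ) ≤ μ k / (μ k + P.κm s) := by
      rw [le_div_iff₀ (by positivity)]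
      linarith
    have h6 : μ k / (μ k + 2 * P.E₂) ≤ (1 / 3 : ℝ) := by
      rw [div_le_iff₀ (by positivity)]
      linarith
    linarith
  have h2 : ∑ k ∈ Ac, (μ k / (μ k + P.κm s) - μ k / (μ k + 2 * P.E₂)) ≤
      ∑ k, (μ k / (μ k + P.κm s) - μ k / (μ k + 2 * P.E₂)) :=
    Finset.sum_le_sum_of_subset_of_nonneg (Finset.subset_univ _) (fun k _ _ => hnn k)
  simp only [Finset.sum_const, nsmul_eq_mul] at h1
  linarith

/-- The drop of the level at a scale in terms of the measure of removed items. -/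
lemma lev_drop (P : Par) (x : ι → E) {A I : Finset ι} (hI : I ⊆ A) (s : ℕ) :
    ∑ i ∈ A \ I, qt (rkS x A) (P.κm s) (2 * P.E₂) (x i) ≤
      P.Lev (rkS x A) s - P.Lev (rkS x I) s := by
  have := Gs_drop x hI (Par.κm_pos (P := P) s) (P.J s)
  rw [Par.κm_top] at this
  exact this

lemma qq_nonneg (P : Par) (x : ι → E) (A : Finset ι) (s : ℕ) (i : ι) :
    0 ≤ qt (rkS x A) (P.κm s) (2 * P.E₂) (x i) := by
  have hκ := Par.κm_pos (P := P) s
  have hE₂ := Par.E₂_pos (P := P)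
  have hκle : P.κm s ≤ 2 * P.E₂ := by
    have h1 : P.κm s ≤ 1 := by
      unfold Par.κm
      exact pow_le_one₀ (by norm_num) (by norm_num)
    have h2 : (1 : ℝ) ≤ P.g := Par.one_le_g
    have h3 : P.E₂ = 32 * P.g := rfl
    linarith
  exact qt_nonneg (rkS_posOp x A) hκ hκle _

/-- `κm` is below the dead threshold. -/
lemma κm_le (P : Par) (hP : P.Adm) {ε : ℝ} {s : ℕ} (hε : (1 / 4 : ℝ) ^ (s + 1) < ε) :
    P.κm s ≤ ε * P.η ^ 2 / 4 := by
  have hn : (1 : ℝ) ≤ (P.n : ℝ) := by exact_mod_cast hP.hn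
  have hη : P.η ^ 2 = 1 / (P.n : ℝ) ^ 6 := by
    unfold Par.η
    rw [div_pow, one_pow, ← pow_mul]
  have h1 : (1 / 2 : ℝ) ^ (6 * P.ρ) ≤ 1 / (P.n : ℝ) ^ 6 := by
    have h2 : ((P.n : ℝ)) ≤ 2 ^ P.ρ := by exact_mod_cast hP.hρ1
    have h3 : (P.n : ℝ) ^ 6 ≤ (2 ^ P.ρ) ^ 6 := pow_le_pow_left₀ (by positivity) h2 6
    have h4 : (1 / 2 : ℝ) ^ (6 * P.ρ) = 1 / (2 ^ P.ρ) ^ 6 := by
      rw [one_div, inv_pow, ← pow_mul, mul_comm P.ρ 6, one_div]
    rw [h4]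
    apply one_div_le_one_div_of_le (by positivity) h3
  have h5 : P.κm s = (1 / 4 : ℝ) ^ (s + 1) * (1 / 2) ^ (6 * P.ρ) / 4 := by
    unfold Par.κm
    have h6 : (1 / 4 : ℝ) ^ (s + 1) = (1 / 2) ^ (2 * s + 2) := by
      rw [show (1 / 4 : ℝ) = (1 / 2) ^ 2 by norm_num, ← pow_mul]
      congr 1
    rw [h6, show 2 * s + 4 + 6 * P.ρ = (2 * s + 2) + 6 * P.ρ + 2 by ring, pow_add, pow_add]
    norm_num
    ring
  rw [h5, hη]
  have h7 : (0 : ℝ) ≤ (1 / 2) ^ (6 * P.ρ) := by positivity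
  have h8 : (0 : ℝ) ≤ (1 / 4) ^ (s + 1) := by positivity
  have h9 : (1 / 4 : ℝ) ^ (s + 1) * (1 / 2) ^ (6 * P.ρ) ≤ ε * (1 / (P.n : ℝ) ^ 6) :=
    mul_le_mul hε.le h1 h7 (by linarith)
  linarith

/-- Existence of the split at a node. -/
theorem node_exists (P : Par) (hP : P.Adm) (x : ι → E) (hx : ∀ i, ‖x i‖ ≤ 1) (A : Finset ι)
    (hA : 34 ≤ A.card) (b : OrthonormalBasis (Fin P.n) ℝ E) (μ : Fin P.n → ℝ)
    (hb : ∀ k, (rkS x A) (b k) = μ k • b k) (hμ : ∀ k, 0 ≤ μ k) (h y : E) (hh : ‖h‖ ≤ 1 / 4) :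
    Nonempty (NodeOut P x A b μ h y) := by
  classical
  set Th := thickSet P μ with hTh
  have hThM : ∀ k ∈ Th, P.E₂ ≤ μ k := fun k hk => (Finset.mem_filter.mp hk).2
  have hThN : ∀ k, k ∉ Th → μ k < P.E₂ := by
    intro k hk
    by_contra hcon
    push Not at hcon
    exact hk (Finset.mem_filter.mpr ⟨Finset.mem_univ _, hcon⟩)
  have hnb : ∀ i, |⟪x i, h⟫| ≤ 1 / 4 := by
    intro i
    have h1 : |⟪x i, h⟫| ≤ ‖x i‖ * ‖h‖ := abs_real_inner_le_norm _ _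
    have h2 : ‖x i‖ * ‖h‖ ≤ 1 * (1 / 4) :=
      mul_le_mul (hx i) hh (norm_nonneg _) zero_le_one
    linarith
  have hne : A.Nonempty := by
    rw [← Finset.card_pos]
    omega
  obtain ⟨i₁, hi₁, hmax⟩ := Finset.exists_max_image A
    (fun i => ‖sproj b Thᶜ (x i)‖ ^ 2) hne
  set ε := ‖sproj b Thᶜ (x i₁)‖ ^ 2 with hεdef
  have hε0 : 0 ≤ ε := by positivity
  have hsoft : ∀ i ∈ A, ‖sproj b Thᶜ (x i)‖ ^ 2 ≤ ε := hmax
  have hnorm1 : ∀ i, ∑ k, ⟪b k, x i⟫ ^ 2 ≤ 1 := by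
    intro i
    rw [← norm_sq_eq_sum b]
    exact pow_le_one₀ (norm_nonneg _) (hx i)
  have hTh1 : ∀ i, ∑ k ∈ Th, ⟪b k, x i⟫ ^ 2 ≤ 1 := fun i =>
    (Finset.sum_le_sum_of_subset_of_nonneg (Finset.subset_univ _)
      (fun _ _ _ => sq_nonneg _)).trans (hnorm1 i)
  have hSo1 : ∀ i ∈ A, ∑ k ∈ Thᶜ, ⟪b k, x i⟫ ^ 2 ≤ ε := by
    intro i hi
    have := hsoft i hi
    rwa [sproj_norm_sq] at this
  have hε1 : ε ≤ 1 := by
    rw [hεdef, sproj_norm_sq]
    exact (Finset.sum_le_sum_of_subset_of_nonneg (Finset.subset_univ _)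
      (fun _ _ _ => sq_nonneg _)).trans (hnorm1 i₁)
  have hcoordμ : ∀ i ∈ A, ∀ k, ⟪b k, x i⟫ ^ 2 ≤ μ k := by
    intro i hi k
    rw [← sum_coord_sq x A hb k]
    exact Finset.single_le_sum (f := fun j => ⟪b k, x j⟫ ^ 2) (fun _ _ => sq_nonneg _) hi
  -- numerics
  have hn1 : (1 : ℝ) ≤ (P.n : ℝ) := by exact_mod_cast hP.hn
  set d : ℝ := P.η ^ 2 / 4 with hd
  have hd0 : 0 ≤ d := by positivity
  have hdn : ∀ t ≤ P.ρ, (P.n : ℝ) * d ≤ 1 / 2 ^ t := by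
    intro t ht
    have h1 : (2 : ℝ) ^ t ≤ 2 * (P.n : ℝ) := by
      have h2 : (2 : ℝ) ^ t ≤ 2 ^ P.ρ := pow_le_pow_right₀ (by norm_num) ht
      have h3 : ((2 ^ P.ρ : ℕ) : ℝ) ≤ ((2 * P.n : ℕ) : ℝ) := by exact_mod_cast hP.hρ2
      push_cast at h3
      linarith
    have h4 : (P.n : ℝ) * d = 1 / (4 * (P.n : ℝ) ^ 5) := by
      rw [hd]
      unfold Par.η
      field_simp
    rw [h4]
    apply one_div_le_one_div_of_le (by positivity)
    have h5 : (P.n : ℝ) ≤ (P.n : ℝ) ^ 5 := le_self_pow₀ hn1 (by norm_num)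
    linarith
  have hnd4 : (P.n : ℝ) * d ≤ 1 / 4 := by
    have h4 : (P.n : ℝ) * d = 1 / (4 * (P.n : ℝ) ^ 5) := by
      rw [hd]
      unfold Par.η
      field_simp
    rw [h4]
    apply one_div_le_one_div_of_le (by norm_num)
    have h5 : (1 : ℝ) ≤ (P.n : ℝ) ^ 5 := one_le_pow₀ hn1
    linarith
  have hKn : P.n ≤ 2 ^ (P.ρ + 1) := by
    rw [pow_succ]
    have := hP.hρ1
    omega
  have hBg : (0 : ℝ) < P.B := Par.B_pos
  -- general facts about a set of weights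
  have hgen : ∀ Ac : Finset (Fin P.n), (∀ i ∈ A, ∀ k, k ∉ Th → k ∉ Ac → ⟪b k, x i⟫ ^ 2 ≤ ε * d) →
      (∀ t ≤ P.ρ, ∀ i ∈ A, ∑ k, (if k ∈ schS μ Th Ac t then 0 else wgt μ Th Ac ε k) * ⟪b k, x i⟫ ^ 2
        ≤ 5 / 2 ^ t) ∧ (∀ i ∈ A, ∑ k, wgt μ Th Ac ε k * ⟪b k, x i⟫ ^ 2 ≤ 5) := by
    intro Ac hdead
    have h1 : ∀ t ≤ P.ρ, ∀ i ∈ A,
        ∑ k, (if k ∈ schS μ Th Ac t then 0 else wgt μ Th Ac ε k) * ⟪b k, x i⟫ ^ 2 ≤ 5 / 2 ^ t := by
      intro t ht i hi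
      exact sched_tau Th Ac hε0 hd0 (fun k => ⟪b k, x i⟫) t (hTh1 i) (hSo1 i hi) (hdead i hi) (hdn t ht)
    refine ⟨h1, ?_⟩
    intro i hi
    have h2 := h1 0 (Nat.zero_le _) i hi
    have h3 : ∀ k, k ∉ schS μ Th Ac 0 := by
      intro k hk
      unfold schS at hk
      rcases Finset.mem_union.mp hk with h4 | h4
      · have h5 := Finset.mem_filter.mp h4
        have h6 := jr_pos (μ := μ) h5.1
        have h7 := h5.2
        norm_num at h7
        omega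
      · split_ifs at h4 with h5
        · norm_num at h5
          rw [h5] at h4
          simp at h4
        · simp at h4
    simp only [h3, if_false] at h2
    norm_num at h2
    exact h2
  by_cases hεz : ε = 0
  · -- no soft part at all
    have hdead : ∀ i ∈ A, ∀ k, k ∉ Th → k ∉ (∅ : Finset (Fin P.n)) → ⟪b k, x i⟫ ^ 2 ≤ ε * d := by
      intro i hi k hk _
      rw [hεz, zero_mul]
      have h1 := hSo1 i hi
      have h2 : ⟪b k, x i⟫ ^ 2 ≤ ∑ l ∈ Thᶜ, ⟪b l, x i⟫ ^ 2 :=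
        Finset.single_le_sum (f := fun l => ⟪b l, x i⟫ ^ 2) (fun _ _ => sq_nonneg _)
          (by simpa using hk)
      linarith
    obtain ⟨hτ, hit⟩ := hgen ∅ hdead
    obtain ⟨I₁, e, a, F, hI₁, hc1, hc0, hsum, hye, hQ, hzero, hbal1, hbal0, hFA, hFc, ha, _, _⟩ :=
      L_level x A b h y hnb (fun _ => 0) (fun _ _ => le_rfl) (fun _ _ => by simp)
        (wgt μ Th ∅ ε) (wgt_nonneg Th ∅ hε0) (schS μ Th ∅) P.ρ (fun t _ => schS_card Th ∅ t) hτ hit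
        hKn hA
    have hQB : ∑ k, wgt μ Th ∅ ε k * ⟪b k, e⟫ ^ 2 ≤ P.B := by
      refine hQ.trans ?_
      unfold Par.B cH
      push_cast
      nlinarith [sq_nonneg ((P.ρ : ℝ) + 1)]
    have hth := wgt_cons_th (μ := μ) Th ∅ hε0 (fun k => ⟪b k, e⟫) hQB
    have hso0 : ∑ k ∈ Thᶜ, ⟪b k, e⟫ ^ 2 = 0 := by
      apply Finset.sum_eq_zero
      intro k hk
      have hk' : k ∉ Th := by simpa using hk
      rw [hzero k (fun i hi => by
        have h1 := hdead i hi k hk' (by simp)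
        rw [hεz, zero_mul] at h1
        have h2 := sq_nonneg ⟪b k, x i⟫
        have h3 : ⟪b k, x i⟫ ^ 2 = 0 := le_antisymm h1 h2
        simpa using h3)]
      simp
    have hthn := th_sum_le (μ := μ) Th (fun k => ⟪b k, e⟫) hth
    have hen : ‖e‖ ^ 2 ≤ 3 * (P.n : ℝ) * P.B := by
      rw [norm_sq_eq_sum b, ← Finset.sum_add_sum_compl Th, hso0, add_zero]
      have : (0 : ℝ) ≤ (P.n : ℝ) * P.B := by positivity
      linarith
    have hFcD : F.card ≤ P.D := by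
      have h3 : 2 * (3 + P.n + P.n ^ 2) ≤ P.D := by
        unfold Par.D cH
        omega
      exact hFc.trans h3
    exact ⟨{ ε := ε, s := 0, Ac := ∅, I₁ := I₁, I₀ := A \ I₁, Fc := ∅, ν := fun _ => 0, e := e,
             a₁ := a, a₀ := fun i => - a i, F₁ := F, F₀ := F,
             hε0 := hε0, hε1 := hε1, hsoft := hsoft, hAc := by simp,
             hεs := fun h => absurd hεz h.ne', hr1 := fun h => absurd hεz h.ne',
             hI₁ := hI₁, hI₀ := Finset.sdiff_subset, hFc := by simp,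
             hd₁ := Finset.disjoint_sdiff, hd₂ := by simp, hd₃ := by simp,
             hU := by
               rw [Finset.union_empty]
               exact Finset.union_sdiff_of_subset hI₁,
             hc₁ := hc1, hc₀ := hc0, hFcC := by simp [C₃]; positivity, hνFc := by simp,
             hsum := by simpa using hsum, hye := hye, hth := hth,
             hso := by rw [hso0, hεz]; simp, hen := hen,
             hbal₁ := hbal1, hbal₀ := hbal0, hF₁ := hFA, hF₀ := hFA,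
             hF₁c := hFcD, hF₀c := hFcD, ha₁ := ha,
             ha₀ := fun i hi => by rw [abs_neg]; exact ha i hi,
             hdrop₁ := fun h => absurd hεz h.ne', hdrop₀ := fun h => absurd hεz h.ne',
             hheavy := Or.inl rfl }⟩
  · -- a soft part exists
    have hεp : 0 < ε := lt_of_le_of_ne hε0 (Ne.symm hεz)
    obtain ⟨s, hs1, hs2⟩ := exists_nat_pow_near_of_lt_one hεp hε1
      (by norm_num : (0 : ℝ) < 1 / 4) (by norm_num : (1 / 4 : ℝ) < 1)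
    set Ac : Finset (Fin P.n) := Finset.univ.filter (fun k => k ∉ Th ∧ ε * P.η ^ 2 / 4 < μ k) with hAcdef
    have hAcd : Disjoint Th Ac := by
      rw [Finset.disjoint_left]
      intro k h1 h2
      exact (Finset.mem_filter.mp h2).2.1 h1
    have hAcdead : ∀ k, k ∉ Th → k ∉ Ac → μ k ≤ ε * P.η ^ 2 / 4 := by
      intro k h1 h2
      by_contra hcon
      push Not at hcon
      exact h2 (Finset.mem_filter.mpr ⟨Finset.mem_univ _, h1, hcon⟩)
    have hdead : ∀ i ∈ A, ∀ k, k ∉ Th → k ∉ Ac → ⟪b k, x i⟫ ^ 2 ≤ ε * d := by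
      intro i hi k h1 h2
      have h3 := hcoordμ i hi k
      have h4 := hAcdead k h1 h2
      have h5 : ε * d = ε * P.η ^ 2 / 4 := by rw [hd]; ring
      rw [h5]
      linarith
    obtain ⟨hτ, hit⟩ := hgen Ac hdead
    have hr1 : 1 ≤ (Ac.card : ℝ) := by
      by_contra hcon
      push Not at hcon
      have hc0 : Ac.card = 0 := by
        have : (Ac.card : ℝ) < 1 := hcon
        have h2 : Ac.card < 1 := by exact_mod_cast this
        omega
      have hAe : Ac = ∅ := Finset.card_eq_zero.mp hc0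
      have h2 : ε ≤ ∑ k ∈ Thᶜ, ε * d := by
        have h3 : ε = ∑ k ∈ Thᶜ, ⟪b k, x i₁⟫ ^ 2 := by rw [hεdef, sproj_norm_sq]
        conv_lhs => rw [h3]
        refine Finset.sum_le_sum (fun k hk => ?_)
        exact hdead i₁ hi₁ k (by simpa using hk) (by rw [hAe]; simp)
      have h3 : ∑ k ∈ Thᶜ, ε * d ≤ (P.n : ℝ) * (ε * d) := by
        rw [Finset.sum_const, nsmul_eq_mul]
        apply mul_le_mul_of_nonneg_right _ (by positivity)
        have : (Thᶜ).card ≤ P.n := by simpa using Finset.card_le_univ Thᶜ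
        exact_mod_cast this
      have h4 : (P.n : ℝ) * d ≤ 1 / 4 := hnd4
      nlinarith
    have hAcμ : ∀ k ∈ Ac, P.κm s ≤ μ k ∧ μ k < P.E₂ := by
      intro k hk
      have h1 := (Finset.mem_filter.mp hk).2
      have h2 := κm_le P hP hs1
      exact ⟨by linarith [h1.2], hThN k h1.1⟩
    set qq : ι → ℝ := fun i => qt (rkS x A) (P.κm s) (2 * P.E₂) (x i) with hqqdef
    have hqq0 : ∀ i, 0 ≤ qq i := fun i => qq_nonneg P x A s i
    have hκm := Par.κm_pos (P := P) s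
    have hqq1 : ∀ i ∈ A, qq i ≤ 1 := by
      intro i hi
      have h1 : P.κm s ≤ 2 * P.E₂ := by
        have h2 : P.κm s ≤ 1 := by
          unfold Par.κm
          exact pow_le_one₀ (by norm_num) (by norm_num)
        have h3 : (1 : ℝ) ≤ P.g := Par.one_le_g
        have h4 : P.E₂ = 32 * P.g := rfl
        linarith
      exact qt_item_le x hi hκm h1
    have hpool : (Ac.card : ℝ) / 6 ≤ ∑ i ∈ A, qq i := pool_ge P x A hb hμ s Ac hAcμ
    have hcons : ∀ e : E, ∑ k, wgt μ Th Ac ε k * ⟪b k, e⟫ ^ 2 ≤ P.B →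
        ∑ k ∈ Th, ⟪b k, e⟫ ^ 2 / (jr μ Th k : ℝ) ≤ P.B ∧
        ∑ k ∈ Thᶜ, ⟪b k, e⟫ ^ 2 ≤ 2 * P.B * (ε * (Ac.card : ℝ)) ∧
        ‖e‖ ^ 2 ≤ 3 * (P.n : ℝ) * P.B := by
      intro e hQB
      have hth := wgt_cons_th (μ := μ) Th Ac hε0 (fun k => ⟪b k, e⟫) hQB
      have hso := wgt_cons (μ := μ) Th Ac hAcd hεp hr1 hBg.le (fun k => ⟪b k, e⟫) hQB
      refine ⟨hth, hso, ?_⟩
      have hthn := th_sum_le (μ := μ) Th (fun k => ⟪b k, e⟫) hth
      rw [norm_sq_eq_sum b, ← Finset.sum_add_sum_compl Th]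
      have h1 : ε * (Ac.card : ℝ) ≤ 1 * (P.n : ℝ) := by
        apply mul_le_mul hε1 _ (Nat.cast_nonneg _) zero_le_one
        have : Ac.card ≤ P.n := by simpa using Finset.card_le_univ Ac
        exact_mod_cast this
      have h2 : 2 * P.B * (ε * (Ac.card : ℝ)) ≤ 2 * P.B * (1 * (P.n : ℝ)) :=
        mul_le_mul_of_nonneg_left h1 (by positivity)
      nlinarith
    by_cases hL : ∀ i ∈ A, qq i ≤ (∑ j ∈ A, qq j) / 48
    · -- no heavy item
      obtain ⟨I₁, e, a, F, hI₁, hc1, hc0, hsum, hye, hQ, _, hbal1, hbal0, hFA, hFc, ha, hd0, hd1⟩ :=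
        L_level x A b h y hnb qq (fun i _ => hqq0 i) hL
          (wgt μ Th Ac ε) (wgt_nonneg Th Ac hε0) (schS μ Th Ac) P.ρ (fun t _ => schS_card Th Ac t) hτ hit
          hKn hA
      have hQB : ∑ k, wgt μ Th Ac ε k * ⟪b k, e⟫ ^ 2 ≤ P.B := by
        refine hQ.trans ?_
        unfold Par.B cH
        push_cast
        nlinarith [sq_nonneg ((P.ρ : ℝ) + 1)]
      obtain ⟨hth, hso, hen⟩ := hcons e hQB
      have hFcD : F.card ≤ P.D := by
        have h3 : 2 * (3 + P.n + P.n ^ 2) ≤ P.D := by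
          unfold Par.D cH
          omega
        exact hFc.trans h3
      have hr0 : (0 : ℝ) ≤ (Ac.card : ℝ) := Nat.cast_nonneg _
      have hdrop1 : (Ac.card : ℝ) / 288 ≤ P.Lev (rkS x A) s - P.Lev (rkS x I₁) s := by
        have h1 := lev_drop P x hI₁ s
        have h2 : ∑ i ∈ A \ I₁, qt (rkS x A) (P.κm s) (2 * P.E₂) (x i) = ∑ i ∈ A \ I₁, qq i := rfl
        rw [h2] at h1
        linarith
      have hdrop0 : (Ac.card : ℝ) / 288 ≤ P.Lev (rkS x A) s - P.Lev (rkS x (A \ I₁)) s := by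
        have h1 := lev_drop P x (Finset.sdiff_subset : A \ I₁ ⊆ A) s
        rw [Finset.sdiff_sdiff_eq_self hI₁] at h1
        have h2 : ∑ i ∈ I₁, qt (rkS x A) (P.κm s) (2 * P.E₂) (x i) = ∑ i ∈ I₁, qq i := rfl
        rw [h2] at h1
        linarith
      exact ⟨{ ε := ε, s := s, Ac := Ac, I₁ := I₁, I₀ := A \ I₁, Fc := ∅, ν := fun _ => 0, e := e,
               a₁ := a, a₀ := fun i => - a i, F₁ := F, F₀ := F,
               hε0 := hε0, hε1 := hε1, hsoft := hsoft, hAc := hAcd,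
               hεs := fun _ => hs2, hr1 := fun _ => hr1,
               hI₁ := hI₁, hI₀ := Finset.sdiff_subset, hFc := by simp,
               hd₁ := Finset.disjoint_sdiff, hd₂ := by simp, hd₃ := by simp,
               hU := by
                 rw [Finset.union_empty]
                 exact Finset.union_sdiff_of_subset hI₁,
               hc₁ := hc1, hc₀ := hc0, hFcC := by simp [C₃]; positivity, hνFc := by simp,
               hsum := by simpa using hsum, hye := hye, hth := hth,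
               hso := hso, hen := hen,
               hbal₁ := hbal1, hbal₀ := hbal0, hF₁ := hFA, hF₀ := hFA,
               hF₁c := hFcD, hF₀c := hFcD, ha₁ := ha,
               ha₀ := fun i hi => by rw [abs_neg]; exact ha i hi,
               hdrop₁ := fun _ => hdrop1, hdrop₀ := fun _ => hdrop0,
               hheavy := Or.inl rfl }⟩
    · -- a heavy item
      push Not at hL
      obtain ⟨i₀, hi₀, hheavy⟩ := hL
      have hq1 := hqq1 i₀ hi₀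
      have hr288 : (Ac.card : ℝ) < 288 := by linarith
      have hr287 : Ac.card ≤ 287 := by
        have : Ac.card < 288 := by exact_mod_cast hr288
        omega
      have hAcH : 1 + Ac.card ^ 2 ≤ cH := by
        have h1 : Ac.card ^ 2 ≤ 287 ^ 2 := Nat.pow_le_pow_left hr287 2
        unfold cH
        omega
      obtain ⟨I₁, I₀, Fc, ν, e, a₁, a₀, F, hI₁, hI₀, hFcA, hd10, hd1F, hd0F, hU, hi₀Fc, hFccard, hνc,
        hsum, hye, hQ, _, hbal1, hbal0, hFA, hFcard, ha₁, ha₀, hbl1, hbl0⟩ :=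
        H_level x A b h y hnb Ac (wgt μ Th Ac ε) (wgt_nonneg Th Ac hε0) (schS μ Th Ac) P.ρ
          (fun t _ => schS_card Th Ac t) hτ hKn i₀ hi₀ hAcH
      have hQB : ∑ k, wgt μ Th Ac ε k * ⟪b k, e⟫ ^ 2 ≤ P.B := by
        refine hQ.trans ?_
        unfold Par.B
        linarith
      obtain ⟨hth, hso, hen⟩ := hcons e hQB
      have hi₀1 : i₀ ∉ I₁ := fun h1 => (Finset.disjoint_left.mp hd1F h1) hi₀Fc
      have hi₀0 : i₀ ∉ I₀ := fun h1 => (Finset.disjoint_left.mp hd0F h1) hi₀Fc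
      have hcard : ∀ I : Finset ι, I ⊆ A → i₀ ∉ I → I.card < A.card := by
        intro I hI hi
        apply Finset.card_lt_card
        refine ⟨hI, fun h1 => hi (h1 hi₀)⟩
      have hdropI : ∀ I : Finset ι, I ⊆ A → i₀ ∉ I →
          (Ac.card : ℝ) / 288 ≤ P.Lev (rkS x A) s - P.Lev (rkS x I) s := by
        intro I hI hi
        have h1 := lev_drop P x hI s
        have h2 : qq i₀ ≤ ∑ i ∈ A \ I, qq i :=
          Finset.single_le_sum (f := qq) (fun j _ => hqq0 j) (Finset.mem_sdiff.mpr ⟨hi₀, hi⟩)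
        have h3 : ∑ i ∈ A \ I, qt (rkS x A) (P.κm s) (2 * P.E₂) (x i) = ∑ i ∈ A \ I, qq i := rfl
        rw [h3] at h1
        linarith
      exact ⟨{ ε := ε, s := s, Ac := Ac, I₁ := I₁, I₀ := I₀, Fc := Fc, ν := ν, e := e,
               a₁ := a₁, a₀ := a₀, F₁ := F, F₀ := F,
               hε0 := hε0, hε1 := hε1, hsoft := hsoft, hAc := hAcd,
               hεs := fun _ => hs2, hr1 := fun _ => hr1,
               hI₁ := hI₁, hI₀ := hI₀, hFc := hFcA,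
               hd₁ := hd10, hd₂ := hd1F, hd₃ := hd0F,
               hU := hU,
               hc₁ := hcard I₁ hI₁ hi₀1, hc₀ := hcard I₀ hI₀ hi₀0,
               hFcC := by
                 have : (Fc.card : ℝ) ≤ ((2 * cH + 3 : ℕ) : ℝ) := by exact_mod_cast hFccard
                 push_cast at this
                 exact this,
               hνFc := hνc,
               hsum := hsum, hye := hye.le, hth := hth,
               hso := hso, hen := hen,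
               hbal₁ := hbal1, hbal₀ := hbal0, hF₁ := hFA, hF₀ := hFA,
               hF₁c := hFcard, hF₀c := hFcard, ha₁ := ha₁, ha₀ := ha₀,
               hdrop₁ := fun _ => hdropI I₁ hI₁ hi₀1, hdrop₀ := fun _ => hdropI I₀ hI₀ hi₀0,
               hheavy := Or.inr ⟨hεp, hAcdead, hbl1, hbl0⟩ }⟩

end Vale.Agent.Lib.P262.U
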