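import Vale.Agent.Lib.P262.U.Res

/-!
The positive operator of a finite family of vectors, and spectral formulas for the resolvent.
-/

open scoped RealInnerProductSpace BigOperators
open Module

set_option linter.unusedSectionVars false

namespace Vale.Agent.Lib.P262.U

variable {E : Type*} [NormedAddCommGroup E] [InnerProductSpace ℝ E] [FiniteDimensional ℝ E]
variable {ι : Type*}

/-- The operator `∑ i ∈ A, ⟪x i, ·⟫ x i`. -/
noncomputable def rkS (x : ι → E) (A : Finset ι) : E →ₗ[ℝ] E :=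
  ∑ i ∈ A, (innerSL ℝ (x i)).toLinearMap.smulRight (x i)

lemma rkS_apply (x : ι → E) (A : Finset ι) (v : E) : rkS x A v = ∑ i ∈ A, ⟪x i, v⟫ • x i := by
  simp [rkS, LinearMap.sum_apply]

lemma rkS_inner (x : ι → E) (A : Finset ι) (v w : E) :
    ⟪rkS x A v, w⟫ = ∑ i ∈ A, ⟪x i, v⟫ * ⟪x i, w⟫ := by
  rw [rkS_apply, sum_inner]
  refine Finset.sum_congr rfl (fun i _ => ?_)
  rw [inner_smul_left]
  simp

lemma rkS_form (x : ι → E) (A : Finset ι) (v : E) : ⟪rkS x A v, v⟫ = ∑ i ∈ A, ⟪x i, v⟫ ^ 2 := by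
  rw [rkS_inner]
  refine Finset.sum_congr rfl (fun i _ => ?_)
  ring

lemma rkS_posOp (x : ι → E) (A : Finset ι) : PosOp (rkS x A) := by
  refine ⟨?_, ?_⟩
  · intro v w
    rw [rkS_inner, real_inner_comm, rkS_inner]
    refine Finset.sum_congr rfl (fun i _ => ?_)
    ring
  · intro v
    rw [rkS_form]
    exact Finset.sum_nonneg (fun i _ => sq_nonneg _)

lemma rkS_mono (x : ι → E) {A B : Finset ι} (h : A ⊆ B) (v : E) :
    ⟪rkS x A v, v⟫ ≤ ⟪rkS x B v, v⟫ := by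
  classical
  rw [rkS_form, rkS_form]
  exact Finset.sum_le_sum_of_subset_of_nonneg h (fun i _ _ => sq_nonneg _)

section spectral

variable {n : ℕ} {T : E →ₗ[ℝ] E} {b : OrthonormalBasis (Fin n) ℝ E} {μ : Fin n → ℝ}

/-- Eigenbasis of a positive operator. -/
lemma exists_spec (hT : PosOp T) (hn : finrank ℝ E = n) :
    ∃ (b : OrthonormalBasis (Fin n) ℝ E) (μ : Fin n → ℝ),
      (∀ k, T (b k) = μ k • b k) ∧ (∀ k, 0 ≤ μ k) := by
  have hs : T.IsSymmetric := fun v w => hT.symm v w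
  refine ⟨hs.eigenvectorBasis hn, fun k => hs.eigenvalues hn k, ?_, ?_⟩
  · intro k
    have := hs.apply_eigenvectorBasis hn k
    rw [this]
    rfl
  · intro k
    have h1 := hT.nonneg (hs.eigenvectorBasis hn k)
    have h2 := hs.apply_eigenvectorBasis hn k
    rw [h2] at h1
    have h3 : ‖hs.eigenvectorBasis hn k‖ = 1 := (hs.eigenvectorBasis hn).orthonormal.1 k
    rw [inner_smul_left, real_inner_self_eq_norm_sq, h3] at h1
    simpa using h1

lemma inner_eq_sum (b : OrthonormalBasis (Fin n) ℝ E) (v w : E) :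
    ⟪v, w⟫ = ∑ k, ⟪b k, v⟫ * ⟪b k, w⟫ := by
  rw [← OrthonormalBasis.sum_inner_mul_inner b v w]
  refine Finset.sum_congr rfl (fun k _ => ?_)
  rw [real_inner_comm]

lemma norm_sq_eq_sum (b : OrthonormalBasis (Fin n) ℝ E) (v : E) :
    ‖v‖ ^ 2 = ∑ k, ⟪b k, v⟫ ^ 2 := by
  rw [← real_inner_self_eq_norm_sq, inner_eq_sum b]
  refine Finset.sum_congr rfl (fun k _ => ?_)
  ring

lemma eig_inner (hT : PosOp T) (hb : ∀ k, T (b k) = μ k • b k) (k : Fin n) (v : E) :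
    ⟪b k, T v⟫ = μ k * ⟪b k, v⟫ := by
  rw [← hT.symm, hb, inner_smul_left]
  simp

lemma form_eq_sum (hT : PosOp T) (hb : ∀ k, T (b k) = μ k • b k) (v w : E) :
    ⟪T v, w⟫ = ∑ k, μ k * (⟪b k, v⟫ * ⟪b k, w⟫) := by
  rw [inner_eq_sum b]
  refine Finset.sum_congr rfl (fun k _ => ?_)
  rw [eig_inner hT hb]
  ring

lemma res_inner_basis (hT : PosOp T) (hb : ∀ k, T (b k) = μ k • b k) (hμ : ∀ k, 0 ≤ μ k) {κ : ℝ}
    (hκ : 0 < κ) (k : Fin n) (v : E) : ⟪b k, res T κ v⟫ = ⟪b k, v⟫ / (μ k + κ) := by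
  have h1 : ⟪b k, v⟫ = ⟪b k, T (res T κ v) + κ • res T κ v⟫ := by rw [res_right hT hκ]
  rw [inner_add_right, eig_inner hT hb, inner_smul_right] at h1
  have h2 : μ k + κ ≠ 0 := by have := hμ k; positivity
  rw [h1]
  field_simp

lemma res_eq_sum (hT : PosOp T) (hb : ∀ k, T (b k) = μ k • b k) (hμ : ∀ k, 0 ≤ μ k) {κ : ℝ}
    (hκ : 0 < κ) (v w : E) : ⟪res T κ v, w⟫ = ∑ k, ⟪b k, v⟫ * ⟪b k, w⟫ / (μ k + κ) := by
  rw [inner_eq_sum b]
  refine Finset.sum_congr rfl (fun k _ => ?_)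
  rw [res_inner_basis hT hb hμ hκ]
  ring

lemma pf_eq_sum (hT : PosOp T) (hb : ∀ k, T (b k) = μ k • b k) (hμ : ∀ k, 0 ≤ μ k) {κ : ℝ}
    (hκ : 0 < κ) (v : E) : pf T κ v = ∑ k, κ / (μ k + κ) * ⟪b k, v⟫ ^ 2 := by
  unfold pf
  rw [res_eq_sum hT hb hμ hκ, Finset.mul_sum]
  refine Finset.sum_congr rfl (fun k _ => ?_)
  ring

lemma pf_basis (hT : PosOp T) (hb : ∀ k, T (b k) = μ k • b k) (hμ : ∀ k, 0 ≤ μ k) {κ : ℝ}
    (hκ : 0 < κ) (k : Fin n) : pf T κ (b k) = κ / (μ k + κ) := by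
  rw [pf_eq_sum hT hb hμ hκ, Finset.sum_eq_single k]
  · have : ⟪b k, b k⟫ = 1 := by
      rw [real_inner_self_eq_norm_sq, b.orthonormal.1 k]
      simp
    rw [this]
    simp
  · intro l _ hl
    have : ⟪b l, b k⟫ = 0 := b.orthonormal.2 hl
    rw [this]
    simp
  · simp

lemma sum_coord_mul (x : ι → E) (A : Finset ι) (hb : ∀ k, (rkS x A) (b k) = μ k • b k)
    (k l : Fin n) : ∑ i ∈ A, ⟪b k, x i⟫ * ⟪b l, x i⟫ = if k = l then μ k else 0 := by
  have h1 : ⟪rkS x A (b k), b l⟫ = ∑ i ∈ A, ⟪b k, x i⟫ * ⟪b l, x i⟫ := by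
    rw [rkS_inner]
    refine Finset.sum_congr rfl (fun i _ => ?_)
    rw [real_inner_comm (b k), real_inner_comm (b l)]
  rw [← h1, hb, inner_smul_left]
  simp only [conj_trivial]
  by_cases hkl : k = l
  · subst hkl
    rw [real_inner_self_eq_norm_sq, b.orthonormal.1 k]
    simp
  · have : ⟪b k, b l⟫ = 0 := b.orthonormal.2 hkl
    rw [this]
    simp [hkl]

lemma sum_coord_sq (x : ι → E) (A : Finset ι) (hb : ∀ k, (rkS x A) (b k) = μ k • b k)
    (k : Fin n) : ∑ i ∈ A, ⟪b k, x i⟫ ^ 2 = μ k := by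
  have := sum_coord_mul x A hb k k
  simp only [if_true] at this
  rw [← this]
  refine Finset.sum_congr rfl (fun i _ => ?_)
  ring

/-- Spectral projection on a set of eigenvectors. -/
noncomputable def sproj (b : OrthonormalBasis (Fin n) ℝ E) (S : Finset (Fin n)) (v : E) : E :=
  ∑ k ∈ S, ⟪b k, v⟫ • b k

lemma sproj_inner (b : OrthonormalBasis (Fin n) ℝ E) (S : Finset (Fin n)) (v : E) (k : Fin n) :
    ⟪b k, sproj b S v⟫ = if k ∈ S then ⟪b k, v⟫ else 0 := by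
  unfold sproj
  rw [inner_sum]
  by_cases hk : k ∈ S
  · rw [Finset.sum_eq_single k, if_pos hk, inner_smul_right, real_inner_self_eq_norm_sq,
      b.orthonormal.1 k]
    · simp
    · intro l _ hl
      rw [inner_smul_right, show ⟪b k, b l⟫ = 0 from b.orthonormal.2 (Ne.symm hl)]
      simp
    · intro h
      exact absurd hk h
  · rw [if_neg hk]
    apply Finset.sum_eq_zero
    intro l hl
    have hne : k ≠ l := fun h => hk (h ▸ hl)
    rw [inner_smul_right, show ⟪b k, b l⟫ = 0 from b.orthonormal.2 hne]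
    simp

lemma sproj_inner_right (b : OrthonormalBasis (Fin n) ℝ E) (S : Finset (Fin n)) (v w : E) :
    ⟪sproj b S v, w⟫ = ∑ k ∈ S, ⟪b k, v⟫ * ⟪b k, w⟫ := by
  unfold sproj
  rw [sum_inner]
  refine Finset.sum_congr rfl (fun k _ => ?_)
  rw [inner_smul_left]
  simp

lemma sproj_norm_sq (b : OrthonormalBasis (Fin n) ℝ E) (S : Finset (Fin n)) (v : E) :
    ‖sproj b S v‖ ^ 2 = ∑ k ∈ S, ⟪b k, v⟫ ^ 2 := by
  rw [← real_inner_self_eq_norm_sq, sproj_inner_right]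
  refine Finset.sum_congr rfl (fun k _ => ?_)
  rw [sproj_inner, if_pos ‹k ∈ S›]
  ring

lemma sproj_add_compl (b : OrthonormalBasis (Fin n) ℝ E) (S : Finset (Fin n)) (v : E) :
    sproj b S v + sproj b Sᶜ v = v := by
  unfold sproj
  rw [Finset.sum_add_sum_compl]
  exact b.sum_repr' v

lemma sproj_add (b : OrthonormalBasis (Fin n) ℝ E) (S : Finset (Fin n)) (v w : E) :
    sproj b S (v + w) = sproj b S v + sproj b S w := by
  unfold sproj
  rw [← Finset.sum_add_distrib]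
  refine Finset.sum_congr rfl (fun k _ => ?_)
  rw [inner_add_right, add_smul]

lemma sproj_smul (b : OrthonormalBasis (Fin n) ℝ E) (S : Finset (Fin n)) (c : ℝ) (v : E) :
    sproj b S (c • v) = c • sproj b S v := by
  unfold sproj
  rw [Finset.smul_sum]
  refine Finset.sum_congr rfl (fun k _ => ?_)
  rw [inner_smul_right, mul_smul]

lemma sproj_sum (b : OrthonormalBasis (Fin n) ℝ E) (S : Finset (Fin n)) {κ : Type*} (F : Finset κ)
    (f : κ → E) : sproj b S (∑ i ∈ F, f i) = ∑ i ∈ F, sproj b S (f i) := by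
  unfold sproj
  rw [Finset.sum_comm]
  refine Finset.sum_congr rfl (fun k _ => ?_)
  rw [inner_sum, Finset.sum_smul]

end spectral

end Vale.Agent.Lib.P262.U
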