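import Vale.Agent.Lib.P262.U.Walk

/-!
The dyadic schedule of the walk.
-/

open scoped BigOperators
open Module

set_option linter.unusedSectionVars false

namespace Vale.Agent.Lib.P262.U

variable {ι : Type*} [DecidableEq ι]

/-- Minkowski inequality for a weighted sum of squares, squared form. -/
lemma wsq_add {K : Type*} [Fintype K] (w : K → ℝ) (hw : ∀ k, 0 ≤ w k) (a b : K → ℝ) (r s : ℝ)
    (hr : 0 ≤ r) (hs : 0 ≤ s) (h₁ : ∑ k, w k * a k ^ 2 ≤ r ^ 2) (h₂ : ∑ k, w k * b k ^ 2 ≤ s ^ 2) :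
    ∑ k, w k * (a k + b k) ^ 2 ≤ (r + s) ^ 2 := by
  have hC : (∑ k, w k * (a k * b k)) ^ 2 ≤ (∑ k, w k * a k ^ 2) * (∑ k, w k * b k ^ 2) := by
    apply Finset.sum_sq_le_sum_mul_sum_of_sq_le_mul
    · intro k _
      exact mul_nonneg (hw k) (sq_nonneg _)
    · intro k _
      exact mul_nonneg (hw k) (sq_nonneg _)
    · intro k _
      apply le_of_eq
      ring
  have hX : 0 ≤ ∑ k, w k * a k ^ 2 := Finset.sum_nonneg (fun k _ => mul_nonneg (hw k) (sq_nonneg _))
  have hY : 0 ≤ ∑ k, w k * b k ^ 2 := Finset.sum_nonneg (fun k _ => mul_nonneg (hw k) (sq_nonneg _))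
  have hZ : (∑ k, w k * (a k * b k)) ^ 2 ≤ (r * s) ^ 2 := by
    calc _ ≤ _ := hC
      _ ≤ r ^ 2 * s ^ 2 := mul_le_mul h₁ h₂ hY (sq_nonneg _)
      _ = (r * s) ^ 2 := by ring
  have hZ2 : ∑ k, w k * (a k * b k) ≤ r * s := by
    exact abs_le_of_sq_le_sq' hZ (by positivity) |>.2
  have h3 : ∑ k, w k * (a k + b k) ^ 2 =
      ∑ k, w k * a k ^ 2 + 2 * ∑ k, w k * (a k * b k) + ∑ k, w k * b k ^ 2 := by
    rw [Finset.mul_sum, ← Finset.sum_add_distrib, ← Finset.sum_add_distrib]
    exact Finset.sum_congr rfl (fun k _ => by ring)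
  rw [h3]
  nlinarith

/-- The dyadic schedule: after all stages at most `2 c + 2` fractional coordinates remain. -/
lemma schedule_walk {K : Type*} [Fintype K] [DecidableEq K] (w : K → ℝ) (hw : ∀ k, 0 ≤ w k)
    (g : K → ι → ℝ) (A : Finset ι) (L₀ : Finset (ι → ℝ)) (T : ℕ) (S : ℕ → Finset K)
    (hS : ∀ t ≤ T, (S t).card ≤ 2 ^ t)
    (hτ : ∀ t ≤ T, ∀ i ∈ A, ∑ k, (if k ∈ S t then 0 else w k) * (g k i) ^ 2 ≤ 5 / 2 ^ t)
    (hK : Fintype.card K ≤ 2 ^ (T + 1))
    (ν₀ : ι → ℝ) (hν₀ : ∀ i ∈ A, 0 ≤ ν₀ i ∧ ν₀ i ≤ 1) :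
    ∃ ν : ι → ℝ, (∀ i ∈ A, 0 ≤ ν i ∧ ν i ≤ 1) ∧ (∀ i, i ∉ fl A ν₀ → ν i = ν₀ i) ∧
      (fl A ν).card ≤ 2 * L₀.card + 2 ∧ (∀ a ∈ L₀, ∑ i ∈ A, a i * (ν i - ν₀ i) = 0) ∧
      ∑ k, w k * (∑ i ∈ A, (ν i - ν₀ i) * g k i) ^ 2
        ≤ ((T : ℝ) + 1) ^ 2 * (10 + 5 * (L₀.card : ℝ)) := by
  classical
  set c := L₀.card with hc
  set ρ : ℝ := Real.sqrt (10 + 5 * (c : ℝ)) with hρ
  have hρ0 : 0 ≤ ρ := Real.sqrt_nonneg _
  have hρ2 : ρ ^ 2 = 10 + 5 * (c : ℝ) := Real.sq_sqrt (by positivity)
  -- the induction over the stages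
  have main : ∀ j : ℕ, j ≤ T + 1 → ∃ ν : ι → ℝ, (∀ i ∈ A, 0 ≤ ν i ∧ ν i ≤ 1) ∧
      (∀ i, i ∉ fl A ν₀ → ν i = ν₀ i) ∧ (fl A ν).card ≤ 2 * c + 2 ^ (T + 2 - j) ∧
      (∀ a ∈ L₀, ∑ i ∈ A, a i * (ν i - ν₀ i) = 0) ∧
      ∑ k, w k * (∑ i ∈ A, (ν i - ν₀ i) * g k i) ^ 2 ≤ ((j : ℝ) * ρ) ^ 2 := by
    intro j
    induction j with
    | zero =>
      intro _
      -- all coordinates exact
      let L : Finset (ι → ℝ) := L₀ ∪ (Finset.univ : Finset K).image g
      have hLcard : L.card ≤ c + Fintype.card K := by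
        calc L.card ≤ L₀.card + ((Finset.univ : Finset K).image g).card := Finset.card_union_le _ _
          _ ≤ c + Fintype.card K := by
            have : ((Finset.univ : Finset K).image g).card ≤ (Finset.univ : Finset K).card :=
              Finset.card_image_le
            rw [Finset.card_univ] at this
            omega
      obtain ⟨ν, h1, h2, h3, h4, _⟩ := stage (fun _ : K => (0 : ℝ)) (fun _ => le_rfl) g A L
        (2 * (c + Fintype.card K)) (by omega) 0 ν₀ hν₀ (by simp)
      refine ⟨ν, h1, h2, ?_, ?_, ?_⟩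
      · have : 2 ^ (T + 2 - 0) = 2 * 2 ^ (T + 1) := by
          rw [Nat.sub_zero, pow_succ]; ring
        rw [this]
        omega
      · intro a ha
        exact h4 a (Finset.mem_union_left _ ha)
      · have h5 : ∀ k, ∑ i ∈ A, (ν i - ν₀ i) * g k i = 0 := by
          intro k
          have := h4 (g k) (Finset.mem_union_right _ (Finset.mem_image_of_mem _ (Finset.mem_univ k)))
          rw [← this]
          exact Finset.sum_congr rfl (fun i _ => by ring)
        simp [h5]
    | succ j ih =>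
      intro hj
      obtain ⟨ν₁, h1, h2, h3, h4, h5⟩ := ih (by omega)
      set t := T - j with ht
      have htT : t ≤ T := Nat.sub_le _ _
      have htj : t + j = T := by omega
      -- the exact functionals of this stage
      let L : Finset (ι → ℝ) := L₀ ∪ (S t).image g
      have hLcard : L.card ≤ c + 2 ^ t := by
        calc L.card ≤ L₀.card + ((S t).image g).card := Finset.card_union_le _ _
          _ ≤ c + 2 ^ t := by
            have h6 : ((S t).image g).card ≤ (S t).card := Finset.card_image_le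
            have h7 := hS t htT
            omega
      let w' : K → ℝ := fun k => if k ∈ S t then 0 else w k
      have hw' : ∀ k, 0 ≤ w' k := by
        intro k
        simp only [w']
        split_ifs
        · exact le_rfl
        · exact hw k
      obtain ⟨ν, h6, h7, h8, h9, h10⟩ := stage w' hw' g A L (2 * (c + 2 ^ t)) (by omega)
        (5 / 2 ^ t) ν₁ h1 (fun i hi => hτ t htT i (Finset.mem_of_mem_filter i hi))
      refine ⟨ν, h6, ?_, ?_, ?_, ?_⟩
      · intro i hi
        have h11 := h2 i hi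
        have h12 : i ∉ fl A ν₁ := by
          intro hmem
          apply hi
          rw [mem_fl] at hmem ⊢
          rwa [h11] at hmem
        rw [h7 i h12, h11]
      · have h13 : T + 2 - (j + 1) = t + 1 := by omega
        rw [h13, pow_succ]
        omega
      · intro a ha
        have h14 := h9 a (Finset.mem_union_left _ ha)
        have h15 := h4 a ha
        have : ∑ i ∈ A, a i * (ν i - ν₀ i) =
            ∑ i ∈ A, a i * (ν i - ν₁ i) + ∑ i ∈ A, a i * (ν₁ i - ν₀ i) := by
          rw [← Finset.sum_add_distrib]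
          exact Finset.sum_congr rfl (fun i _ => by ring)
        rw [this, h14, h15, add_zero]
      · -- error of this stage in the full weights
        have h16 : ∀ k, k ∈ S t → ∑ i ∈ A, (ν i - ν₁ i) * g k i = 0 := by
          intro k hk
          have := h9 (g k) (Finset.mem_union_right _ (Finset.mem_image_of_mem _ hk))
          rw [← this]
          exact Finset.sum_congr rfl (fun i _ => by ring)
        have h17 : ∑ k, w k * (∑ i ∈ A, (ν i - ν₁ i) * g k i) ^ 2 =
            ∑ k, w' k * (∑ i ∈ A, (ν i - ν₁ i) * g k i) ^ 2 := by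
          refine Finset.sum_congr rfl (fun k _ => ?_)
          simp only [w']
          split_ifs with hk
          · rw [h16 k hk]; simp
          · rfl
        have h18 : (5 / 2 ^ t : ℝ) * ((fl A ν₁).card : ℝ) / 2 ≤ ρ ^ 2 := by
          have h19 : ((fl A ν₁).card : ℝ) ≤ 2 * (c : ℝ) + 2 ^ (t + 2) := by
            have h20 : T + 2 - j = t + 2 := by omega
            rw [h20] at h3
            exact_mod_cast h3
          have hpow : (0 : ℝ) < 2 ^ t := by positivity
          have h21 : (1 : ℝ) ≤ 2 ^ t := one_le_pow₀ (by norm_num)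
          have h22 : (5 / 2 ^ t : ℝ) * (2 * (c : ℝ) + 2 ^ (t + 2)) / 2 = 5 * (c : ℝ) / 2 ^ t + 10 := by
            rw [pow_add]
            field_simp
            ring
          have h23 : (5 / 2 ^ t : ℝ) * ((fl A ν₁).card : ℝ) / 2 ≤
              (5 / 2 ^ t : ℝ) * (2 * (c : ℝ) + 2 ^ (t + 2)) / 2 := by
            have : (0 : ℝ) ≤ 5 / 2 ^ t := by positivity
            have := mul_le_mul_of_nonneg_left h19 this
            linarith
          have h24 : 5 * (c : ℝ) / 2 ^ t ≤ 5 * (c : ℝ) := by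
            apply div_le_self (by positivity) h21
          rw [hρ2]
          linarith
        have h25 : ∑ k, w k * (∑ i ∈ A, (ν i - ν₁ i) * g k i) ^ 2 ≤ ρ ^ 2 := by
          rw [h17]
          exact h10.trans h18
        have h26 := wsq_add w hw (fun k => ∑ i ∈ A, (ν₁ i - ν₀ i) * g k i)
          (fun k => ∑ i ∈ A, (ν i - ν₁ i) * g k i) ((j : ℝ) * ρ) ρ (by positivity) hρ0 h5 h25
        have h27 : ∀ k, ∑ i ∈ A, (ν i - ν₀ i) * g k i =
            (∑ i ∈ A, (ν₁ i - ν₀ i) * g k i) + ∑ i ∈ A, (ν i - ν₁ i) * g k i := by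
          intro k
          rw [← Finset.sum_add_distrib]
          exact Finset.sum_congr rfl (fun i _ => by ring)
        simp_rw [h27]
        refine h26.trans (le_of_eq ?_)
        push_cast
        ring
  obtain ⟨ν, h1, h2, h3, h4, h5⟩ := main (T + 1) le_rfl
  refine ⟨ν, h1, h2, ?_, h4, ?_⟩
  · have : T + 2 - (T + 1) = 1 := by omega
    rw [this] at h3
    simpa using h3
  · refine h5.trans (le_of_eq ?_)
    rw [mul_pow, hρ2]
    push_cast
    ring

end Vale.Agent.Lib.P262.U
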