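import Vale.Agent.Lib.P262.U.Op

/-!
The trace potential and its drops.
-/

open scoped RealInnerProductSpace BigOperators
open Module

set_option linter.unusedSectionVars false

namespace Vale.Agent.Lib.P262.U

variable {E : Type*} [NormedAddCommGroup E] [InnerProductSpace ℝ E] [FiniteDimensional ℝ E]
variable {ι : Type*} [DecidableEq ι]

/-- The trace potential. -/
noncomputable def psi (T : E →ₗ[ℝ] E) (κ : ℝ) : ℝ :=
  (finrank ℝ E : ℝ) - κ * LinearMap.trace ℝ E (res T κ)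

lemma psi_eq_basis {n : ℕ} (hn : finrank ℝ E = n) (b : OrthonormalBasis (Fin n) ℝ E)
    (T : E →ₗ[ℝ] E) (κ : ℝ) : psi T κ = ∑ k : Fin n, (1 - pf T κ (b k)) := by
  unfold psi pf
  rw [LinearMap.trace_eq_sum_inner (res T κ) b, Finset.sum_sub_distrib, hn, Finset.mul_sum]
  simp only [Finset.sum_const, Finset.card_univ, Fintype.card_fin, nsmul_eq_mul, mul_one]
  congr 1
  refine Finset.sum_congr rfl (fun k _ => ?_)
  rw [real_inner_comm]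

lemma psi_eq_sum {n : ℕ} (hn : finrank ℝ E = n) {b : OrthonormalBasis (Fin n) ℝ E}
    {T : E →ₗ[ℝ] E} {μ : Fin n → ℝ} (hT : PosOp T) (hb : ∀ k, T (b k) = μ k • b k)
    (hμ : ∀ k, 0 ≤ μ k) {κ : ℝ} (hκ : 0 < κ) : psi T κ = ∑ k, μ k / (μ k + κ) := by
  rw [psi_eq_basis hn b]
  refine Finset.sum_congr rfl (fun k _ => ?_)
  rw [pf_basis hT hb hμ hκ]
  have h2 : μ k + κ ≠ 0 := by have := hμ k; positivity
  field_simp
  ring

lemma psi_nonneg {T : E →ₗ[ℝ] E} (hT : PosOp T) {κ : ℝ} (hκ : 0 < κ) : 0 ≤ psi T κ := by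
  obtain ⟨b, μ, hb, hμ⟩ := exists_spec hT (rfl : finrank ℝ E = finrank ℝ E)
  rw [psi_eq_sum rfl hT hb hμ hκ]
  refine Finset.sum_nonneg (fun k _ => ?_)
  have := hμ k
  positivity

lemma psi_le {T : E →ₗ[ℝ] E} (hT : PosOp T) {κ : ℝ} (hκ : 0 < κ) :
    psi T κ ≤ (finrank ℝ E : ℝ) := by
  unfold psi
  have : 0 ≤ κ * LinearMap.trace ℝ E (res T κ) := by
    obtain ⟨b, μ, hb, hμ⟩ := exists_spec hT (rfl : finrank ℝ E = finrank ℝ E)
    have h1 := LinearMap.trace_eq_sum_inner (res T κ) b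
    rw [h1]
    refine mul_nonneg hκ.le (Finset.sum_nonneg (fun k _ => ?_))
    rw [real_inner_comm]
    exact res_nonneg hT hκ _
  linarith

/-- Smaller operator, smaller potential. -/
lemma psi_mono {T S : E →ₗ[ℝ] E} (hT : PosOp T) (hS : PosOp S) (hle : ∀ w, ⟪T w, w⟫ ≤ ⟪S w, w⟫)
    {κ : ℝ} (hκ : 0 < κ) : psi T κ ≤ psi S κ := by
  obtain ⟨b, μ, hb, hμ⟩ := exists_spec hT (rfl : finrank ℝ E = finrank ℝ E)
  rw [psi_eq_basis rfl b, psi_eq_basis rfl b]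
  refine Finset.sum_le_sum (fun k _ => ?_)
  have := pf_anti hT hS hle hκ (b k)
  linarith

/-- Removing items raises the resolvent form by at least the squares of their scalar products. -/
lemma res_remove (x : ι → E) {A₁ A : Finset ι} (hsub : A₁ ⊆ A) {κ : ℝ} (hκ : 0 < κ) (v : E) :
    ⟪res (rkS x A) κ v, v⟫ + ∑ i ∈ A \ A₁, ⟪x i, res (rkS x A) κ v⟫ ^ 2
      ≤ ⟪res (rkS x A₁) κ v, v⟫ := by
  have h := res_tangent (rkS_posOp x A) (rkS_posOp x A₁) hκ hκ v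
  set z := res (rkS x A) κ v with hz
  have h2 : ⟪rkS x A z, z⟫ = ⟪rkS x A₁ z, z⟫ + ∑ i ∈ A \ A₁, ⟪x i, z⟫ ^ 2 := by
    rw [rkS_form, rkS_form, add_comm, Finset.sum_sdiff hsub]
  linarith

lemma pf_remove (x : ι → E) {A₁ A : Finset ι} (hsub : A₁ ⊆ A) {κ : ℝ} (hκ : 0 < κ) (v : E) :
    pf (rkS x A) κ v + κ * ∑ i ∈ A \ A₁, ⟪x i, res (rkS x A) κ v⟫ ^ 2
      ≤ pf (rkS x A₁) κ v := by
  have h := mul_le_mul_of_nonneg_left (res_remove x hsub hκ v) hκ.le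
  unfold pf
  linarith

/-- The drop of the potential when items are removed. -/
lemma psi_drop (x : ι → E) {A₁ A : Finset ι} (hsub : A₁ ⊆ A) {κ : ℝ} (hκ : 0 < κ) :
    κ * ∑ i ∈ A \ A₁, ‖res (rkS x A) κ (x i)‖ ^ 2 ≤ psi (rkS x A) κ - psi (rkS x A₁) κ := by
  have hT := rkS_posOp x A
  have hn : finrank ℝ E = finrank ℝ E := rfl
  obtain ⟨b, μ, hb, hμ⟩ := exists_spec hT hn
  rw [psi_eq_basis hn b, psi_eq_basis hn b, ← Finset.sum_sub_distrib]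
  have h1 : ∀ k, κ * ∑ i ∈ A \ A₁, ⟪x i, res (rkS x A) κ (b k)⟫ ^ 2 ≤
      (1 - pf (rkS x A) κ (b k)) - (1 - pf (rkS x A₁) κ (b k)) := by
    intro k
    have := pf_remove x hsub hκ (b k)
    linarith
  have h2 : ∑ i ∈ A \ A₁, ‖res (rkS x A) κ (x i)‖ ^ 2 =
      ∑ k, ∑ i ∈ A \ A₁, ⟪x i, res (rkS x A) κ (b k)⟫ ^ 2 := by
    rw [Finset.sum_comm]
    refine Finset.sum_congr rfl (fun i _ => ?_)
    rw [norm_sq_eq_sum b]
    refine Finset.sum_congr rfl (fun k _ => ?_)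
    rw [real_inner_comm, res_symm hT hκ, real_inner_comm]
  rw [h2, Finset.mul_sum]
  exact Finset.sum_le_sum (fun k _ => h1 k)

/-- One doubling step of the resolvent form. -/
lemma res_double {T : E →ₗ[ℝ] E} (hT : PosOp T) {κ : ℝ} (hκ : 0 < κ) (v : E) :
    ⟪res T κ v, v⟫ - ⟪res T (κ * 2) v, v⟫ ≤ κ * ‖res T κ v‖ ^ 2 := by
  have h1 := res_var hT (by positivity : 0 < κ * 2) v (res T κ v)
  have h2 := res_form hT hκ v
  have h3 : ⟪v, res T κ v⟫ = ⟪res T κ v, v⟫ := real_inner_comm _ _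
  rw [h3] at h1
  nlinarith

/-- Antitonicity of the resolvent form in the parameter. -/
lemma res_anti {T : E →ₗ[ℝ] E} (hT : PosOp T) {κ σ : ℝ} (hκ : 0 < κ) (hle : κ ≤ σ) (v : E) :
    ⟪res T σ v, v⟫ ≤ ⟪res T κ v, v⟫ := by
  have hσ : 0 < σ := lt_of_lt_of_le hκ hle
  have h := res_le_of_form hT hT (κ := σ) (σ := κ) (c := 1) hσ hκ one_pos
    (fun w => by nlinarith [sq_nonneg ‖w‖]) v
  linarith

/-- Leverage of an item of the family. -/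
lemma res_item_le (x : ι → E) {A : Finset ι} {i : ι} (hi : i ∈ A) {κ : ℝ} (hκ : 0 < κ) :
    ⟪res (rkS x A) κ (x i), x i⟫ ≤ 1 := by
  set T := rkS x A with hT'
  have hT := rkS_posOp x A
  set z := res T κ (x i) with hz
  have h1 : ⟪z, x i⟫ = ⟪T z, z⟫ + κ * ‖z‖ ^ 2 := res_form hT hκ (x i)
  have h2 : ⟪x i, z⟫ ^ 2 ≤ ⟪T z, z⟫ := by
    rw [hT', rkS_form]
    exact Finset.single_le_sum (f := fun j => ⟪x j, z⟫ ^ 2) (fun j _ => sq_nonneg _) hi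
  rw [real_inner_comm] at h2
  have h3 : 0 ≤ κ * ‖z‖ ^ 2 := by positivity
  by_contra hcon
  push Not at hcon
  nlinarith

/-- The dyadic grid sum of the potential. -/
noncomputable def Gs (T : E →ₗ[ℝ] E) (κ₀ : ℝ) (J : ℕ) : ℝ :=
  ∑ j ∈ Finset.range (J + 1), psi T (κ₀ * 2 ^ j)

lemma Gs_nonneg {T : E →ₗ[ℝ] E} (hT : PosOp T) {κ₀ : ℝ} (hκ : 0 < κ₀) (J : ℕ) : 0 ≤ Gs T κ₀ J :=
  Finset.sum_nonneg (fun j _ => psi_nonneg hT (by positivity))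

lemma Gs_le {T : E →ₗ[ℝ] E} (hT : PosOp T) {κ₀ : ℝ} (hκ : 0 < κ₀) (J : ℕ) :
    Gs T κ₀ J ≤ (finrank ℝ E : ℝ) * (J + 1) := by
  unfold Gs
  calc _ ≤ ∑ j ∈ Finset.range (J + 1), (finrank ℝ E : ℝ) :=
        Finset.sum_le_sum (fun j _ => psi_le hT (by positivity))
    _ = _ := by
      simp
      ring

lemma Gs_mono {T S : E →ₗ[ℝ] E} (hT : PosOp T) (hS : PosOp S) (hle : ∀ w, ⟪T w, w⟫ ≤ ⟪S w, w⟫)
    {κ₀ : ℝ} (hκ : 0 < κ₀) (J : ℕ) : Gs T κ₀ J ≤ Gs S κ₀ J :=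
  Finset.sum_le_sum (fun j _ => psi_mono hT hS hle (by positivity))

/-- The measure of an item on the grid. -/
noncomputable def qt (T : E →ₗ[ℝ] E) (κ₀ κ₁ : ℝ) (v : E) : ℝ :=
  ⟪res T κ₀ v, v⟫ - ⟪res T κ₁ v, v⟫

lemma qt_nonneg {T : E →ₗ[ℝ] E} (hT : PosOp T) {κ₀ κ₁ : ℝ} (h0 : 0 < κ₀) (h : κ₀ ≤ κ₁) (v : E) :
    0 ≤ qt T κ₀ κ₁ v := by
  have := res_anti hT h0 h v
  unfold qt
  linarith

lemma qt_item_le (x : ι → E) {A : Finset ι} {i : ι} (hi : i ∈ A) {κ₀ κ₁ : ℝ} (h0 : 0 < κ₀)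
    (h : κ₀ ≤ κ₁) : qt (rkS x A) κ₀ κ₁ (x i) ≤ 1 := by
  have h1 := res_item_le x hi h0
  have h2 := res_nonneg (rkS_posOp x A) (lt_of_lt_of_le h0 h) (x i)
  unfold qt
  linarith

/-- Telescoping the grid: the drop of the grid sum pays for the measure of the removed items. -/
lemma Gs_drop (x : ι → E) {A₁ A : Finset ι} (hsub : A₁ ⊆ A) {κ₀ : ℝ} (hκ : 0 < κ₀) (J : ℕ) :
    ∑ i ∈ A \ A₁, qt (rkS x A) κ₀ (κ₀ * 2 ^ (J + 1)) (x i) ≤ Gs (rkS x A) κ₀ J - Gs (rkS x A₁) κ₀ J := by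
  set T := rkS x A with hT'
  have hT := rkS_posOp x A
  unfold Gs
  rw [← Finset.sum_sub_distrib]
  have h1 : ∀ j ∈ Finset.range (J + 1), ∑ i ∈ A \ A₁,
      (⟪res T (κ₀ * 2 ^ j) (x i), x i⟫ - ⟪res T (κ₀ * 2 ^ (j + 1)) (x i), x i⟫) ≤
      psi T (κ₀ * 2 ^ j) - psi (rkS x A₁) (κ₀ * 2 ^ j) := by
    intro j _
    have hκj : 0 < κ₀ * 2 ^ j := by positivity
    refine le_trans ?_ (psi_drop x hsub hκj)
    rw [Finset.mul_sum]
    refine Finset.sum_le_sum (fun i _ => ?_)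
    have := res_double hT hκj (x i)
    rw [show κ₀ * 2 ^ j * 2 = κ₀ * 2 ^ (j + 1) by rw [pow_succ]; ring] at this
    exact this
  refine le_trans (le_of_eq ?_) (Finset.sum_le_sum h1)
  rw [Finset.sum_comm]
  refine Finset.sum_congr rfl (fun i _ => ?_)
  unfold qt
  rw [Finset.sum_range_sub' (fun j => ⟪res T (κ₀ * 2 ^ j) (x i), x i⟫) (J + 1)]
  simp

/-- The pool of an operator: spectral form. -/
lemma pool_eq (x : ι → E) (A : Finset ι) {n : ℕ} {b : OrthonormalBasis (Fin n) ℝ E} {μ : Fin n → ℝ}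
    (hb : ∀ k, (rkS x A) (b k) = μ k • b k) (hμ : ∀ k, 0 ≤ μ k) {κ₀ κ₁ : ℝ} (h0 : 0 < κ₀)
    (h1 : 0 < κ₁) :
    ∑ i ∈ A, qt (rkS x A) κ₀ κ₁ (x i) = ∑ k, (μ k / (μ k + κ₀) - μ k / (μ k + κ₁)) := by
  have hT := rkS_posOp x A
  have key : ∀ κ : ℝ, 0 < κ → ∑ i ∈ A, ⟪res (rkS x A) κ (x i), x i⟫ = ∑ k, μ k / (μ k + κ) := by
    intro κ hκ
    simp_rw [res_eq_sum hT hb hμ hκ]
    rw [Finset.sum_comm]
    refine Finset.sum_congr rfl (fun k _ => ?_)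
    rw [← sum_coord_sq x A hb k, Finset.sum_div]
    refine Finset.sum_congr rfl (fun i _ => ?_)
    ring
  unfold qt
  rw [Finset.sum_sub_distrib, key κ₀ h0, key κ₁ h1, Finset.sum_sub_distrib]

end Vale.Agent.Lib.P262.U
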