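import Mathlib

/-!
Resolvents of positive operators on a finite dimensional real inner product space:
basic identities, variational bounds, monotonicity.
-/

open scoped RealInnerProductSpace BigOperators
open Module

set_option linter.unusedSectionVars false

namespace Vale.Agent.Lib.P262.U

variable {E : Type*} [NormedAddCommGroup E] [InnerProductSpace ℝ E] [FiniteDimensional ℝ E]

/-- Symmetric and positive. -/
structure PosOp (T : E →ₗ[ℝ] E) : Prop where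
  symm : ∀ v w, ⟪T v, w⟫ = ⟪v, T w⟫
  nonneg : ∀ v, 0 ≤ ⟪T v, v⟫

/-- The resolvent `(T + κ)⁻¹`. -/
noncomputable def res (T : E →ₗ[ℝ] E) (κ : ℝ) : E →ₗ[ℝ] E :=
  Ring.inverse (T + κ • (1 : E →ₗ[ℝ] E))

lemma PosOp.symm' {T : E →ₗ[ℝ] E} (hT : PosOp T) (v w : E) : ⟪T v, w⟫ = ⟪T w, v⟫ := by
  rw [hT.symm, real_inner_comm]

lemma PosOp.shift_isUnit {T : E →ₗ[ℝ] E} (hT : PosOp T) {κ : ℝ} (hκ : 0 < κ) :
    IsUnit (T + κ • (1 : E →ₗ[ℝ] E)) := by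
  rw [LinearMap.isUnit_iff_ker_eq_bot, LinearMap.ker_eq_bot']
  intro v hv
  have h1 : ⟪(T + κ • (1 : E →ₗ[ℝ] E)) v, v⟫ = 0 := by rw [hv]; simp
  have h2 : ⟪T v, v⟫ + κ * ‖v‖ ^ 2 = 0 := by
    have : (T + κ • (1 : E →ₗ[ℝ] E)) v = T v + κ • v := by simp
    rw [this, inner_add_left, inner_smul_left] at h1
    simpa [real_inner_self_eq_norm_sq] using h1
  have h3 := hT.nonneg v
  have h4 : 0 ≤ κ * ‖v‖ ^ 2 := by positivity
  have h5 : κ * ‖v‖ ^ 2 = 0 := by linarith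
  have h6 : ‖v‖ ^ 2 = 0 := by
    rcases mul_eq_zero.mp h5 with h | h
    · exact absurd h hκ.ne'
    · exact h
  simpa using h6

lemma res_right {T : E →ₗ[ℝ] E} (hT : PosOp T) {κ : ℝ} (hκ : 0 < κ) (v : E) :
    T (res T κ v) + κ • res T κ v = v := by
  have h := Ring.mul_inverse_cancel _ (hT.shift_isUnit hκ)
  have h2 := congrArg (fun f : E →ₗ[ℝ] E => f v) h
  simpa [res] using h2

lemma res_left {T : E →ₗ[ℝ] E} (hT : PosOp T) {κ : ℝ} (hκ : 0 < κ) (v : E) :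
    res T κ (T v + κ • v) = v := by
  have h := Ring.inverse_mul_cancel _ (hT.shift_isUnit hκ)
  have h2 := congrArg (fun f : E →ₗ[ℝ] E => f v) h
  simpa [res] using h2

/-- For `z = res T κ v`, the vector `v` is `(T + κ) z`. -/
lemma inner_res_eq {T : E →ₗ[ℝ] E} (hT : PosOp T) {κ : ℝ} (hκ : 0 < κ) (v w : E) :
    ⟪v, w⟫ = ⟪T (res T κ v), w⟫ + κ * ⟪res T κ v, w⟫ := by
  conv_lhs => rw [← res_right hT hκ v]
  rw [inner_add_left, inner_smul_left]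
  simp

lemma res_symm {T : E →ₗ[ℝ] E} (hT : PosOp T) {κ : ℝ} (hκ : 0 < κ) (v w : E) :
    ⟪res T κ v, w⟫ = ⟪v, res T κ w⟫ := by
  have h1 := inner_res_eq hT hκ w (res T κ v)
  have h2 := inner_res_eq hT hκ v (res T κ w)
  have h3 : ⟪res T κ v, w⟫ = ⟪w, res T κ v⟫ := real_inner_comm _ _
  have h4 : ⟪T (res T κ w), res T κ v⟫ = ⟪T (res T κ v), res T κ w⟫ := hT.symm' _ _
  have h5 : ⟪res T κ w, res T κ v⟫ = ⟪res T κ v, res T κ w⟫ := real_inner_comm _ _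
  rw [h3, h1, h2, h4, h5]

lemma res_form {T : E →ₗ[ℝ] E} (hT : PosOp T) {κ : ℝ} (hκ : 0 < κ) (v : E) :
    ⟪res T κ v, v⟫ = ⟪T (res T κ v), res T κ v⟫ + κ * ‖res T κ v‖ ^ 2 := by
  have h := inner_res_eq hT hκ v (res T κ v)
  rw [real_inner_self_eq_norm_sq] at h
  rw [real_inner_comm]
  exact h

lemma res_nonneg {T : E →ₗ[ℝ] E} (hT : PosOp T) {κ : ℝ} (hκ : 0 < κ) (v : E) :
    0 ≤ ⟪res T κ v, v⟫ := by
  rw [res_form hT hκ]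
  have := hT.nonneg (res T κ v)
  positivity

lemma res_posOp {T : E →ₗ[ℝ] E} (hT : PosOp T) {κ : ℝ} (hκ : 0 < κ) : PosOp (res T κ) :=
  ⟨res_symm hT hκ, res_nonneg hT hκ⟩

/-- Expansion of a quadratic form on a difference. -/
lemma PosOp.form_sub {T : E →ₗ[ℝ] E} (hT : PosOp T) (a b : E) :
    ⟪T (a - b), a - b⟫ = ⟪T a, a⟫ - 2 * ⟪T a, b⟫ + ⟪T b, b⟫ := by
  simp only [map_sub, inner_sub_left, inner_sub_right]
  have := hT.symm' a b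
  linarith

/-- Expansion of a quadratic form on a sum. -/
lemma PosOp.form_add {T : E →ₗ[ℝ] E} (hT : PosOp T) (a b : E) :
    ⟪T (a + b), a + b⟫ = ⟪T a, a⟫ + 2 * ⟪T a, b⟫ + ⟪T b, b⟫ := by
  simp only [map_add, inner_add_left, inner_add_right]
  have := hT.symm' a b
  linarith

/-- Cauchy inequality for a positive operator. -/
lemma PosOp.cauchy {T : E →ₗ[ℝ] E} (hT : PosOp T) (a b : E) :
    ⟪T a, b⟫ ^ 2 ≤ ⟪T a, a⟫ * ⟪T b, b⟫ := by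
  have key : ∀ t : ℝ, 0 ≤ ⟪T a, a⟫ * t ^ 2 - 2 * ⟪T a, b⟫ * t + ⟪T b, b⟫ := by
    intro t
    have h := hT.nonneg (t • a - b)
    rw [hT.form_sub, map_smul, inner_smul_left, inner_smul_right, inner_smul_left] at h
    simp only [conj_trivial] at h
    nlinarith [h]
  by_cases ha : ⟪T a, a⟫ = 0
  · -- then the cross term vanishes
    have h2 : ⟪T a, b⟫ = 0 := by
      by_contra hne
      have h3 := key ((⟪T b, b⟫ + 1) / (2 * ⟪T a, b⟫))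
      have h4 : 2 * ⟪T a, b⟫ * ((⟪T b, b⟫ + 1) / (2 * ⟪T a, b⟫)) = ⟪T b, b⟫ + 1 := by
        field_simp
      rw [ha, h4] at h3
      linarith
    rw [ha, h2]; simp
  · have hpos : 0 < ⟪T a, a⟫ := lt_of_le_of_ne (hT.nonneg a) (Ne.symm ha)
    have h3 := key (⟪T a, b⟫ / ⟪T a, a⟫)
    have h4 : ⟪T a, a⟫ * (⟪T a, b⟫ / ⟪T a, a⟫) ^ 2 - 2 * ⟪T a, b⟫ * (⟪T a, b⟫ / ⟪T a, a⟫)
        = - (⟪T a, b⟫ ^ 2 / ⟪T a, a⟫) := by
      field_simp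
      ring
    rw [h4] at h3
    have h5 : ⟪T a, b⟫ ^ 2 / ⟪T a, a⟫ ≤ ⟪T b, b⟫ := by linarith
    rw [div_le_iff₀ hpos] at h5
    linarith

/-- Variational lower bound. -/
lemma res_var {T : E →ₗ[ℝ] E} (hT : PosOp T) {κ : ℝ} (hκ : 0 < κ) (v w : E) :
    2 * ⟪v, w⟫ - (⟪T w, w⟫ + κ * ‖w‖ ^ 2) ≤ ⟪res T κ v, v⟫ := by
  set z := res T κ v with hz
  have h0 := hT.nonneg (w - z)
  rw [hT.form_sub] at h0
  have h1 : ⟪v, w⟫ = ⟪T z, w⟫ + κ * ⟪z, w⟫ := inner_res_eq hT hκ v w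
  have h2 : ⟪z, v⟫ = ⟪T z, z⟫ + κ * ‖z‖ ^ 2 := res_form hT hκ v
  have h3 : 0 ≤ ‖w - z‖ ^ 2 := by positivity
  have h4 : ‖w - z‖ ^ 2 = ‖w‖ ^ 2 - 2 * ⟪z, w⟫ + ‖z‖ ^ 2 := by
    rw [norm_sub_sq_real, real_inner_comm]
  have h5 := hT.symm' w z
  rw [h1, h2]
  nlinarith [mul_nonneg hκ.le h3]

/-- If a form dominates a multiple of another, the resolvent forms compare in reverse. -/
lemma res_le_of_form {T S : E →ₗ[ℝ] E} (hT : PosOp T) (hS : PosOp S) {κ σ c : ℝ} (hκ : 0 < κ)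
    (hσ : 0 < σ) (hc : 0 < c)
    (h : ∀ w, c * (⟪S w, w⟫ + σ * ‖w‖ ^ 2) ≤ ⟪T w, w⟫ + κ * ‖w‖ ^ 2) (v : E) :
    c * ⟪res T κ v, v⟫ ≤ ⟪res S σ v, v⟫ := by
  set z := res T κ v with hz
  have h1 := res_form hT hκ v
  rw [← hz] at h1
  have h2 := res_var hS hσ v (c • z)
  have h3 : ⟪S (c • z), c • z⟫ + σ * ‖c • z‖ ^ 2 = c ^ 2 * (⟪S z, z⟫ + σ * ‖z‖ ^ 2) := by
    rw [map_smul, inner_smul_left, inner_smul_right, norm_smul]
    simp only [conj_trivial, Real.norm_eq_abs]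
    rw [mul_pow, sq_abs]
    ring
  have h4 := h z
  have h5 : ⟪v, c • z⟫ = c * ⟪z, v⟫ := by
    rw [inner_smul_right, real_inner_comm]
  rw [h3, h5] at h2
  nlinarith [h2, h4, h1, hc, mul_le_mul_of_nonneg_left h4 hc.le]

/-- Tangent line inequality for the resolvent form. -/
lemma res_tangent {T S : E →ₗ[ℝ] E} (hT : PosOp T) (hS : PosOp S) {κ σ : ℝ} (hκ : 0 < κ)
    (hσ : 0 < σ) (v : E) :
    ⟪res T κ v, v⟫ + (⟪T (res T κ v), res T κ v⟫ + κ * ‖res T κ v‖ ^ 2)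
        - (⟪S (res T κ v), res T κ v⟫ + σ * ‖res T κ v‖ ^ 2) ≤ ⟪res S σ v, v⟫ := by
  have h2 := res_var hS hσ v (res T κ v)
  have h1 := res_form hT hκ v
  have h3 : ⟪v, res T κ v⟫ = ⟪res T κ v, v⟫ := real_inner_comm _ _
  rw [h3] at h2
  linarith

lemma res_form_le {T : E →ₗ[ℝ] E} (hT : PosOp T) {κ : ℝ} (hκ : 0 < κ) (v : E) :
    κ * ⟪res T κ v, v⟫ ≤ ‖v‖ ^ 2 := by
  set z := res T κ v with hz
  have h1 := res_form hT hκ v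
  rw [← hz] at h1
  have h2 : ⟪z, v⟫ ≤ ‖z‖ * ‖v‖ := real_inner_le_norm _ _
  have h3 := hT.nonneg z
  have h4 : κ * ‖z‖ ≤ ‖v‖ := by
    by_cases hz0 : ‖z‖ = 0
    · rw [hz0]; simp
    · have hzpos : 0 < ‖z‖ := lt_of_le_of_ne (norm_nonneg _) (Ne.symm hz0)
      have : κ * ‖z‖ ^ 2 ≤ ‖z‖ * ‖v‖ := by linarith
      have h5 : ‖z‖ * (κ * ‖z‖) ≤ ‖z‖ * ‖v‖ := by nlinarith
      exact le_of_mul_le_mul_left h5 hzpos
  have h5 : κ * ⟪z, v⟫ ≤ κ * (‖z‖ * ‖v‖) := mul_le_mul_of_nonneg_left h2 hκ.le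
  have h6 : (κ * ‖z‖) * ‖v‖ ≤ ‖v‖ * ‖v‖ := mul_le_mul_of_nonneg_right h4 (norm_nonneg _)
  nlinarith

lemma res_norm_le {T : E →ₗ[ℝ] E} (hT : PosOp T) {κ : ℝ} (hκ : 0 < κ) (v : E) :
    κ * ‖res T κ v‖ ≤ ‖v‖ := by
  set z := res T κ v with hz
  have h1 := res_form hT hκ v
  rw [← hz] at h1
  have h2 : ⟪z, v⟫ ≤ ‖z‖ * ‖v‖ := real_inner_le_norm _ _
  have h3 := hT.nonneg z
  by_cases hz0 : ‖z‖ = 0
  · rw [hz0]; simp
  · have hzpos : 0 < ‖z‖ := lt_of_le_of_ne (norm_nonneg _) (Ne.symm hz0)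
    have : κ * ‖z‖ ^ 2 ≤ ‖z‖ * ‖v‖ := by linarith
    have h5 : ‖z‖ * (κ * ‖z‖) ≤ ‖z‖ * ‖v‖ := by nlinarith
    exact le_of_mul_le_mul_left h5 hzpos

/-- The form of `κ (T + κ)⁻¹`. -/
noncomputable def pf (T : E →ₗ[ℝ] E) (κ : ℝ) (v : E) : ℝ := κ * ⟪res T κ v, v⟫

lemma pf_nonneg {T : E →ₗ[ℝ] E} (hT : PosOp T) {κ : ℝ} (hκ : 0 < κ) (v : E) : 0 ≤ pf T κ v :=
  mul_nonneg hκ.le (res_nonneg hT hκ v)

lemma pf_le {T : E →ₗ[ℝ] E} (hT : PosOp T) {κ : ℝ} (hκ : 0 < κ) (v : E) : pf T κ v ≤ ‖v‖ ^ 2 :=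
  res_form_le hT hκ v

/-- Form comparison: smaller operator, larger form. -/
lemma pf_anti {T S : E →ₗ[ℝ] E} (hT : PosOp T) (hS : PosOp S) (hle : ∀ w, ⟪T w, w⟫ ≤ ⟪S w, w⟫)
    {κ : ℝ} (hκ : 0 < κ) (v : E) : pf S κ v ≤ pf T κ v := by
  have h := res_le_of_form hS hT (κ := κ) (σ := κ) (c := 1) hκ hκ one_pos
    (fun w => by have := hle w; linarith) v
  unfold pf
  have := mul_le_mul_of_nonneg_left h hκ.le
  linarith

/-- The form is monotone in the parameter. -/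
lemma pf_mono {T : E →ₗ[ℝ] E} (hT : PosOp T) {κ σ : ℝ} (hκ : 0 < κ) (hle : κ ≤ σ) (v : E) :
    pf T κ v ≤ pf T σ v := by
  have hσ : 0 < σ := lt_of_lt_of_le hκ hle
  have h := res_le_of_form hT hT (κ := κ) (σ := σ) (c := κ / σ) hκ hσ (by positivity)
    (fun w => by
      have h1 := hT.nonneg w
      have h2 : κ / σ ≤ 1 := (div_le_one hσ).mpr hle
      have h3 : κ / σ * (⟪T w, w⟫ + σ * ‖w‖ ^ 2) = κ / σ * ⟪T w, w⟫ + κ * ‖w‖ ^ 2 := by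
        field_simp
      rw [h3]
      have h4 : κ / σ * ⟪T w, w⟫ ≤ 1 * ⟪T w, w⟫ := mul_le_mul_of_nonneg_right h2 h1
      linarith) v
  unfold pf
  have h5 := mul_le_mul_of_nonneg_left h hσ.le
  have h6 : σ * (κ / σ * ⟪res T κ v, v⟫) = κ * ⟪res T κ v, v⟫ := by field_simp
  linarith

end Vale.Agent.Lib.P262.U
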