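import Vale.Agent.Lib.P262.U.Zon

/-!
New points at a node: the certificate along all descendants.
-/

open scoped RealInnerProductSpace BigOperators
open Module

set_option linter.unusedSectionVars false

namespace Vale.Agent.Lib.P262.U

variable {E : Type*} [NormedAddCommGroup E] [InnerProductSpace ℝ E] [FiniteDimensional ℝ E]
variable {ι : Type*} [DecidableEq ι]

/-- The potential inequality at a set. -/
def Good (P : Par) (x : ι → E) (u : E) (A : Finset ι) : Prop :=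
  pf (rkS x A) P.g u ≤ P.F - P.Φ (rkS x A)

/-- The potential inequality at all descendants of a set. -/
def GoodFrom (P : Par) (x : ι → E) (u : E) (C Top : Finset ι) : Prop :=
  ∀ (a : ℕ) (A'' : Finset ι), A'' ⊆ Top →
    Comp (P.D : ℝ) P.ζ P.g (rkS x C) (rkS x A'') (a + 1) → Good P x u A''

/-- Certificate of a point at a set. -/
def Cert (P : Par) (x : ι → E) (u : E) (A : Finset ι) : Prop :=
  u = 0 ∨ ∃ (C Top : Finset ι) (a : ℕ), A ⊆ Top ∧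
    Comp (P.D : ℝ) P.ζ P.g (rkS x C) (rkS x A) (a + 1) ∧ GoodFrom P x u C Top

lemma Φ_nonneg {P : Par} {T : E →ₗ[ℝ] E} (hT : PosOp T) : 0 ≤ P.Φ T := by
  unfold Par.Φ
  have h1 := Par.Φl_nonneg (P := P) hT
  have h2 := psi_nonneg hT (Par.g_pos (P := P))
  have h3 := Par.β_pos (P := P)
  positivity

lemma cert_good {P : Par} (hfin : finrank ℝ E = P.n) {x : ι → E} {u : E} {A : Finset ι}
    (hc : Cert P x u A) : Good P x u A := by
  rcases hc with h0 | ⟨C, Top, a, hsub, hcomp, hg⟩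
  · rw [h0]
    unfold Good pf
    have := Par.Φ_le (P := P) (rkS_posOp x A) hfin
    simp
    linarith
  · exact hg a A hsub hcomp

/-- From the balance formula to the halving bound. -/
lemma bal_to_comp {x : ι → E} {A I : Finset ι} {h : E} {ζ : ℝ} {D : ℕ} (hx : ∀ i, ‖x i‖ ≤ 1)
    (hζ : 0 ≤ ζ) (hh : ⟪rkS x A h, h⟫ ≤ ζ ^ 2) {σ : ℝ} (hσ : |σ| ≤ 1) (a : ι → ℝ) (F' : Finset ι)
    (hcard : F'.card ≤ D) (ha : ∀ i ∈ F', |a i| ≤ 1)
    (hbal : ∀ v, ⟪rkS x I v, v⟫ = (1 / 2) * ⟪rkS x A v, v⟫ +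
      σ * ∑ i ∈ A, ⟪x i, h⟫ * ⟪x i, v⟫ ^ 2 + ∑ i ∈ F', a i * ⟪x i, v⟫ ^ 2) (v : E) :
    |⟪rkS x I v, v⟫ - (1 / 2 : ℝ) * ⟪rkS x A v, v⟫| ≤
      (D : ℝ) * ‖v‖ ^ 2 + ζ * ‖v‖ * Real.sqrt ⟪rkS x A v, v⟫ := by
  have hT := rkS_posOp x A
  have hT0 := hT.nonneg v
  have hs0 : 0 ≤ Real.sqrt ⟪rkS x A v, v⟫ := Real.sqrt_nonneg _
  have hs2 : Real.sqrt ⟪rkS x A v, v⟫ ^ 2 = ⟪rkS x A v, v⟫ := Real.sq_sqrt hT0
  have h1 : |∑ i ∈ A, ⟪x i, h⟫ * ⟪x i, v⟫ ^ 2| ≤ ζ * ‖v‖ * Real.sqrt ⟪rkS x A v, v⟫ := by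
    apply abs_le_of_sq_le_sq _ (by positivity)
    have h2 : (∑ i ∈ A, ⟪x i, h⟫ * ⟪x i, v⟫ ^ 2) ^ 2 ≤
        (∑ i ∈ A, ⟪x i, h⟫ ^ 2) * ∑ i ∈ A, (⟪x i, v⟫ ^ 2) ^ 2 :=
      Finset.sum_mul_sq_le_sq_mul_sq _ _ _
    have h3 : ∑ i ∈ A, ⟪x i, h⟫ ^ 2 ≤ ζ ^ 2 := by
      rw [← rkS_form]
      exact hh
    have h4 : ∑ i ∈ A, (⟪x i, v⟫ ^ 2) ^ 2 ≤ ‖v‖ ^ 2 * ⟪rkS x A v, v⟫ := by
      rw [rkS_form, Finset.mul_sum]
      refine Finset.sum_le_sum (fun i _ => ?_)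
      rw [sq (⟪x i, v⟫ ^ 2)]
      exact mul_le_mul_of_nonneg_right (inner_item_sq_le (hx i) v) (sq_nonneg _)
    have h5 : 0 ≤ ∑ i ∈ A, (⟪x i, v⟫ ^ 2) ^ 2 := Finset.sum_nonneg (fun _ _ => sq_nonneg _)
    calc _ ≤ _ := h2
      _ ≤ ζ ^ 2 * (‖v‖ ^ 2 * ⟪rkS x A v, v⟫) := mul_le_mul h3 h4 h5 (sq_nonneg _)
      _ = _ := by rw [mul_pow, mul_pow, hs2]; ring
  have h2 : |∑ i ∈ F', a i * ⟪x i, v⟫ ^ 2| ≤ (D : ℝ) * ‖v‖ ^ 2 := by
    calc _ ≤ ∑ i ∈ F', |a i * ⟪x i, v⟫ ^ 2| := Finset.abs_sum_le_sum_abs _ _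
      _ ≤ ∑ i ∈ F', ‖v‖ ^ 2 := by
          refine Finset.sum_le_sum (fun i hi => ?_)
          rw [abs_mul, abs_of_nonneg (sq_nonneg ⟪x i, v⟫)]
          calc _ ≤ 1 * ⟪x i, v⟫ ^ 2 := mul_le_mul_of_nonneg_right (ha i hi) (sq_nonneg _)
            _ = ⟪x i, v⟫ ^ 2 := one_mul _
            _ ≤ _ := inner_item_sq_le (hx i) v
      _ = (F'.card : ℝ) * ‖v‖ ^ 2 := by simp
      _ ≤ _ := by
          apply mul_le_mul_of_nonneg_right _ (sq_nonneg _)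
          exact_mod_cast hcard
  rw [hbal v]
  have h3 : (1 / 2 : ℝ) * ⟪rkS x A v, v⟫ + σ * ∑ i ∈ A, ⟪x i, h⟫ * ⟪x i, v⟫ ^ 2 +
      ∑ i ∈ F', a i * ⟪x i, v⟫ ^ 2 - (1 / 2 : ℝ) * ⟪rkS x A v, v⟫ =
      σ * ∑ i ∈ A, ⟪x i, h⟫ * ⟪x i, v⟫ ^ 2 + ∑ i ∈ F', a i * ⟪x i, v⟫ ^ 2 := by ring
  rw [h3]
  have h4 : |σ * ∑ i ∈ A, ⟪x i, h⟫ * ⟪x i, v⟫ ^ 2| ≤ ζ * ‖v‖ * Real.sqrt ⟪rkS x A v, v⟫ := by
    rw [abs_mul]
    have h5 := mul_le_mul hσ h1 (abs_nonneg _) zero_le_one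
    linarith
  exact (abs_add_le _ _).trans (by linarith)

lemma cert_step {P : Par} (hP : P.Adm) {x : ι → E} {u : E} {A I : Finset ι} (hI : I ⊆ A)
    (hc : Cert P x u A)
    (hb : ∀ v, |⟪rkS x I v, v⟫ - (1 / 2 : ℝ) * ⟪rkS x A v, v⟫| ≤
      (P.D : ℝ) * ‖v‖ ^ 2 + P.ζ * ‖v‖ * Real.sqrt ⟪rkS x A v, v⟫) : Cert P x u I := by
  rcases hc with h0 | ⟨C, Top, a, hsub, hcomp, hg⟩
  · exact Or.inl h0
  · refine Or.inr ⟨C, Top, a + 1, hI.trans hsub, ?_, hg⟩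
    exact comp_step (rkS_posOp x C) (rkS_posOp x A) (Nat.cast_nonneg _) Par.ζ_nonneg Par.g_pos hP.h2D
      hP.h7 hcomp hb

lemma sproj_norm_le {n : ℕ} (b : OrthonormalBasis (Fin n) ℝ E) (S : Finset (Fin n)) (v : E) :
    ‖sproj b S v‖ ≤ ‖v‖ := by
  have h : ‖sproj b S v‖ ^ 2 ≤ ‖v‖ ^ 2 := by
    rw [sproj_norm_sq, norm_sq_eq_sum b v]
    exact Finset.sum_le_sum_of_subset_of_nonneg (Finset.subset_univ _) (fun _ _ _ => sq_nonneg _)
  exact le_of_sq_le_sq h (norm_nonneg _) |> fun h' => h'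

section newpt

variable (P : Par) (x : ι → E) (A : Finset ι) (b : OrthonormalBasis (Fin P.n) ℝ E) (μ : Fin P.n → ℝ)

/-- The new first component. -/
noncomputable def newU (u e : E) (Fc : Finset ι) (c : ι → ℝ) : E :=
  steer (rkS x A) P.g u + (e + ∑ i ∈ Fc, c i • sproj b (thickSet P μ) (x i) +
    (rkS x A) (res (rkS x A) P.g (∑ i ∈ Fc, c i • sproj b (thickSet P μ)ᶜ (x i))))

/-- The soft image of an item. -/
noncomputable def softIm (i : ι) : E :=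
  P.g • res (rkS x A) P.g (sproj b (thickSet P μ)ᶜ (x i))

variable {P x A b μ}

lemma split_sum (hg : 0 < P.g) (Fc : Finset ι) (c : ι → ℝ) :
    ∑ i ∈ Fc, c i • x i = ∑ i ∈ Fc, c i • sproj b (thickSet P μ) (x i) +
      (rkS x A) (res (rkS x A) P.g (∑ i ∈ Fc, c i • sproj b (thickSet P μ)ᶜ (x i))) +
      ∑ i ∈ Fc, c i • softIm P x A b μ i := by
  have hT := rkS_posOp x A
  set G₂ := ∑ i ∈ Fc, c i • sproj b (thickSet P μ)ᶜ (x i) with hG₂
  have h1 : ∑ i ∈ Fc, c i • softIm P x A b μ i = P.g • res (rkS x A) P.g G₂ := by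
    rw [hG₂, map_sum, Finset.smul_sum]
    refine Finset.sum_congr rfl (fun i _ => ?_)
    unfold softIm
    rw [map_smul, smul_comm]
  have h2 := res_right hT hg G₂
  have h3 : ∑ i ∈ Fc, c i • x i = ∑ i ∈ Fc, c i • sproj b (thickSet P μ) (x i) + G₂ := by
    rw [hG₂, ← Finset.sum_add_distrib]
    refine Finset.sum_congr rfl (fun i _ => ?_)
    rw [← smul_add, sproj_add_compl]
  rw [h3, h1, add_assoc, h2]

end newpt

lemma sq_add_le2 (p q : ℝ) : (p + q) ^ 2 ≤ 2 * p ^ 2 + 2 * q ^ 2 := by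
  nlinarith [sq_nonneg (p - q)]

lemma sq_add_le3 (p q r : ℝ) : (p + q + r) ^ 2 ≤ 3 * (p ^ 2 + q ^ 2 + r ^ 2) := by
  nlinarith [sq_nonneg (p - q), sq_nonneg (q - r), sq_nonneg (p - r)]

/-- The two properties of a new point. -/
theorem new_point {P : Par} (hP : P.Adm) (hfin : finrank ℝ E = P.n) {x : ι → E}
    (hx : ∀ i, ‖x i‖ ≤ 1) {A : Finset ι} {b : OrthonormalBasis (Fin P.n) ℝ E} {μ : Fin P.n → ℝ}
    (hb : ∀ k, (rkS x A) (b k) = μ k • b k) (hμ : ∀ k, 0 ≤ μ k) {u : E}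
    (hu : pf (rkS x A) P.g u ≤ P.F - P.Φ (rkS x A))
    (out : NodeOut P x A b μ (res (rkS x A) P.g u) (steer (rkS x A) P.g u))
    {I : Finset ι} (hI : I ⊆ A)
    (hdrop : 0 < out.ε → (out.Ac.card : ℝ) / 288 ≤ P.Lev (rkS x A) out.s - P.Lev (rkS x I) out.s)
    (c : ι → ℝ) (hc : ∀ i ∈ out.Fc, |c i| ≤ 1) :
    ‖newU P x A b μ u out.e out.Fc c‖ ≤ P.Ru ∧
      GoodFrom P x (newU P x A b μ u out.e out.Fc c) A I := by
  have hT : PosOp (rkS x A) := rkS_posOp x A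
  have hg := Par.g_pos (P := P)
  set Th := thickSet P μ with hTh
  have hThM : ∀ k ∈ Th, 32 * P.g ≤ μ k := fun k hk => (Finset.mem_filter.mp hk).2
  set G₁ := ∑ i ∈ out.Fc, c i • sproj b Th (x i) with hG₁
  set G₂ := ∑ i ∈ out.Fc, c i • sproj b Thᶜ (x i) with hG₂
  set ε := out.ε with hε
  set e := out.e with he
  have hC₃ := Par.C₃_pos
  have hFcC := out.hFcC
  have hFcn : (0 : ℝ) ≤ (out.Fc.card : ℝ) := Nat.cast_nonneg _
  -- the committed vectors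
  have hG₁t : ∀ k, k ∉ Th → ⟪b k, G₁⟫ = 0 := by
    intro k hk
    rw [hG₁, inner_sum]
    apply Finset.sum_eq_zero
    intro i _
    rw [inner_smul_right, sproj_inner, if_neg hk, mul_zero]
  have hG₁n : ‖G₁‖ ≤ C₃ := by
    calc ‖G₁‖ ≤ ∑ i ∈ out.Fc, ‖c i • sproj b Th (x i)‖ := norm_sum_le _ _
      _ ≤ ∑ i ∈ out.Fc, (1 : ℝ) := by
          refine Finset.sum_le_sum (fun i hi => ?_)
          rw [norm_smul, Real.norm_eq_abs]
          have h1 := (sproj_norm_le b Th (x i)).trans (hx i)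
          exact (mul_le_mul (hc i hi) h1 (norm_nonneg _) zero_le_one).trans (le_of_eq (one_mul _))
      _ = (out.Fc.card : ℝ) := by simp
      _ ≤ C₃ := hFcC
  have hG₂n : ‖G₂‖ ^ 2 ≤ C₃ ^ 2 * ε := by
    have hs0 : 0 ≤ Real.sqrt ε := Real.sqrt_nonneg _
    have hs2 : Real.sqrt ε ^ 2 = ε := Real.sq_sqrt out.hε0
    have h1 : ‖G₂‖ ≤ C₃ * Real.sqrt ε := by
      calc ‖G₂‖ ≤ ∑ i ∈ out.Fc, ‖c i • sproj b Thᶜ (x i)‖ := norm_sum_le _ _
        _ ≤ ∑ i ∈ out.Fc, Real.sqrt ε := by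
            refine Finset.sum_le_sum (fun i hi => ?_)
            rw [norm_smul, Real.norm_eq_abs]
            have h2 : ‖sproj b Thᶜ (x i)‖ ≤ Real.sqrt ε :=
              Real.le_sqrt_of_sq_le (out.hsoft i (out.hFc hi))
            exact (mul_le_mul (hc i hi) h2 (norm_nonneg _) zero_le_one).trans (le_of_eq (one_mul _))
        _ = (out.Fc.card : ℝ) * Real.sqrt ε := by simp
        _ ≤ C₃ * Real.sqrt ε := mul_le_mul_of_nonneg_right hFcC hs0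
    have h3 : ‖G₂‖ ^ 2 ≤ (C₃ * Real.sqrt ε) ^ 2 := pow_le_pow_left₀ (norm_nonneg _) h1 2
    rw [mul_pow, hs2] at h3
    exact h3
  have hGuu : ‖(steer (rkS x A) P.g u)‖ ^ 2 ≤ P.F := by
    have h1 := pf_steer hT hg u
    have h2 := mval_nonneg hT hg (steer (rkS x A) P.g u)
    have h3 := Φ_nonneg (P := P) hT
    linarith
  constructor
  · -- the Euclidean bound
    have hΞ : ‖(rkS x A) (res (rkS x A) P.g G₂)‖ ^ 2 ≤ C₃ ^ 2 := by
      have h1 := norm_T_res_le hT hb hμ hg G₂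
      have h2 : C₃ ^ 2 * ε ≤ C₃ ^ 2 * 1 := mul_le_mul_of_nonneg_left out.hε1 (sq_nonneg _)
      linarith
    have hen := out.hen
    have hG₁2 : ‖G₁‖ ^ 2 ≤ C₃ ^ 2 := pow_le_pow_left₀ (norm_nonneg _) hG₁n 2
    apply Real.le_sqrt_of_sq_le
    unfold newU
    rw [← hTh]
    set p := ‖(steer (rkS x A) P.g u)‖
    set q₁ := ‖e‖
    set q₂ := ‖G₁‖
    set q₃ := ‖(rkS x A) (res (rkS x A) P.g G₂)‖
    have hp0 : 0 ≤ p := norm_nonneg _
    have hq1 : 0 ≤ q₁ := norm_nonneg _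
    have hq2 : 0 ≤ q₂ := norm_nonneg _
    have hq3 : 0 ≤ q₃ := norm_nonneg _
    have hN : ‖(steer (rkS x A) P.g u) + (e + G₁ + (rkS x A) (res (rkS x A) P.g G₂))‖ ≤ p + (q₁ + q₂ + q₃) := by
      calc _ ≤ ‖(steer (rkS x A) P.g u)‖ + ‖e + G₁ + (rkS x A) (res (rkS x A) P.g G₂)‖ := norm_add_le _ _
        _ ≤ ‖(steer (rkS x A) P.g u)‖ + (‖e + G₁‖ + ‖(rkS x A) (res (rkS x A) P.g G₂)‖) := by gcongr; exact norm_add_le _ _
        _ ≤ ‖(steer (rkS x A) P.g u)‖ + (‖e‖ + ‖G₁‖ + ‖(rkS x A) (res (rkS x A) P.g G₂)‖) := by gcongr; exact norm_add_le _ _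
    have hN2 := pow_le_pow_left₀ (norm_nonneg _) hN 2
    refine hN2.trans ?_
    unfold Par.Ru2
    have h1 := sq_add_le2 p (q₁ + q₂ + q₃)
    have h2 := sq_add_le3 q₁ q₂ q₃
    have h3 : (P.n : ℝ) * P.B * 18 = 18 * (P.n : ℝ) * P.B := by ring
    linarith
  · -- the descendants
    intro a A'' hA'' hcomp
    have hA''A : A'' ⊆ A := hA''.trans hI
    have hT'' := rkS_posOp x A''
    have hle := rkS_mono x hA''A
    set κ : ℝ := 2 ^ (a + 1) * P.g with hκ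
    have hκ2 : 2 * P.g ≤ κ := by
      rw [hκ, pow_succ]
      have h1 : (1 : ℝ) ≤ 2 ^ a := one_le_pow₀ (by norm_num)
      have h2 : 2 * P.g * 1 ≤ 2 * P.g * 2 ^ a := mul_le_mul_of_nonneg_left h1 (by positivity)
      linarith
    have hκ0 : 0 < κ := by positivity
    have hD0 : (0 : ℝ) ≤ (P.D : ℝ) := Nat.cast_nonneg _
    have hζ0 := Par.ζ_nonneg (P := P)
    have hup : ∀ v, (1 / 2) * pf (rkS x A'') P.g v ≤ pf (rkS x A) κ v := by
      intro v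
      have h1 := comp_pf_upper hT hT'' hD0 hζ0 hg hP.hξ (by norm_num) hcomp v
      have h2 := pf_nonneg hT'' hg v
      linarith
    set τ := tauS μ Th κ with hτ
    have hcost := chain_cost (T'' := rkS x A'') hT hT'' hle hb hμ hg hThM hκ2 hup u e G₁ G₂
      hG₁t hG₁n out.hye (fun k => (jr μ Th k : ℝ))
      (fun k hk => by
        have := jr_pos (μ := μ) hk
        simpa using (by exact_mod_cast this : (0 : ℝ) < (jr μ Th k : ℝ)))
      (fun k hk => jr_mul_le hμ hκ0 hk) out.hth out.hso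
    have hpay := psi_pay (T'' := rkS x A'') hT hT'' hle hfin hb hμ hg hThM hD0 hζ0 hP.hξ
      (by norm_num) le_rfl hcomp
    rw [← hκ, ← hτ] at hpay
    have hτ0 : 0 ≤ τ := tauS_nonneg hμ hκ0
    have hB := Par.B_pos (P := P)
    -- the level payment
    have hr0 : (0 : ℝ) ≤ (out.Ac.card : ℝ) := Nat.cast_nonneg _
    have hlev : 18 * (2 * P.B * (ε * (out.Ac.card : ℝ))) + 13 * ‖G₂‖ ^ 2 ≤
        P.Φl (rkS x A) - P.Φl (rkS x A'') := by
      by_cases hε0 : ε = 0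
      · have h1 : ‖G₂‖ ^ 2 ≤ 0 := by
          rw [hε0, mul_zero] at hG₂n
          exact hG₂n
        have h2 := Par.Φl_mono (P := P) hT'' hT hle hfin
        rw [hε0]
        simp only [zero_mul, mul_zero]
        linarith
      · have hεp : 0 < ε := lt_of_le_of_ne out.hε0 (Ne.symm hε0)
        have hr1 := out.hr1 hεp
        have hεs := out.hεs hεp
        have hdp := hdrop hεp
        have hL := Par.Lev_mono (P := P) hT'' (rkS_posOp x I) (rkS_mono x hA'') out.s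
        have hΦ := Par.Φl_drop (P := P) hT'' hT hle hfin out.s
        have hws := Par.ws_pos (P := P) out.s
        have h1 : P.ws out.s * ((out.Ac.card : ℝ) / 288) ≤
            P.ws out.s * (P.Lev (rkS x A) out.s - P.Lev (rkS x A'') out.s) := by
          apply mul_le_mul_of_nonneg_left _ hws.le
          linarith
        have hCS := Par.CS_pos (P := P)
        have h2 : P.ws out.s * ((out.Ac.card : ℝ) / 288) =
            P.CS * ((1 / 4) ^ out.s * (out.Ac.card : ℝ)) := by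
          unfold Par.ws
          ring
        have h3 : ε * (out.Ac.card : ℝ) ≤ (1 / 4) ^ out.s * (out.Ac.card : ℝ) :=
          mul_le_mul_of_nonneg_right hεs hr0
        have h4 : ε ≤ ε * (out.Ac.card : ℝ) := le_mul_of_one_le_right hεp.le hr1
        have h5 : P.CS * (ε * (out.Ac.card : ℝ)) ≤ P.CS * ((1 / 4) ^ out.s * (out.Ac.card : ℝ)) :=
          mul_le_mul_of_nonneg_left h3 hCS.le
        have h6 : 13 * ‖G₂‖ ^ 2 ≤ 13 * C₃ ^ 2 * (ε * (out.Ac.card : ℝ)) := by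
          have h7 : C₃ ^ 2 * ε ≤ C₃ ^ 2 * (ε * (out.Ac.card : ℝ)) :=
            mul_le_mul_of_nonneg_left h4 (sq_nonneg _)
          linarith
        have h8 : P.CS = 36 * P.B + 13 * C₃ ^ 2 := rfl
        rw [h8] at h5
        rw [h8] at h2
        linarith
    -- conclusion
    unfold Good
    have hgoal : pf (rkS x A'') P.g (newU P x A b μ u e out.Fc c) =
        pf (rkS x A'') P.g ((steer (rkS x A) P.g u) + (e + G₁ + (rkS x A) (res (rkS x A) P.g G₂))) := rfl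
    rw [hgoal]
    refine hcost.trans ?_
    unfold Par.Φ
    have hβ : P.β = 5 / 2 * P.CT := rfl
    have hCT : P.CT = 18 * P.B + 22 * C₃ ^ 2 := rfl
    have h10 : P.CT * τ ≤ P.β * (psi (rkS x A) P.g - psi (rkS x A'') P.g) := by
      rw [hβ]
      have h11 := mul_le_mul_of_nonneg_left hpay (by
        have := Par.CT_pos (P := P)
        positivity : 0 ≤ 5 / 2 * P.CT)
      calc P.CT * τ = 5 / 2 * P.CT * (2 / 5 * τ) := by ring
        _ ≤ _ := h11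
    unfold Par.Φ at hu
    rw [← hCT]
    have h12 : P.β * (psi (rkS x A) P.g - psi (rkS x A'') P.g) =
        P.β * psi (rkS x A) P.g - P.β * psi (rkS x A'') P.g := by ring
    linarith

end Vale.Agent.Lib.P262.U
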