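import Vale.Agent.Lib.P262.U.Step

/-!
The recursion: from the split at a node to an ordering of the family.
-/

open scoped RealInnerProductSpace BigOperators
open Module

set_option linter.unusedSectionVars false

namespace Vale.Agent.Lib.P262.U

variable {E : Type*} [NormedAddCommGroup E] [InnerProductSpace ℝ E] [FiniteDimensional ℝ E]
variable {ι : Type*} [DecidableEq ι]

/-- The state of a node of the recursion. -/
structure St (P : Par) (x : ι → E) (Root A : Finset ι) (u u' v v' : E) (H : Finset ι)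
    (sc : ι → ℕ) (wv : ι → E) : Prop where
  sum_eq : u' + v' - (u + v) = ∑ i ∈ A, x i
  bu : ‖u‖ ≤ P.Ru
  bu' : ‖u'‖ ≤ P.Ru
  cu : Cert P x u A
  cu' : Cert P x u' A
  hd : Disjoint H A
  zv : Zon H wv v
  zv' : Zon H wv v'
  hist : HistOK P x Root A H sc wv

/-- The step of the recursion. -/
theorem node_step {P : Par} (hP : P.Adm) (hfin : finrank ℝ E = P.n) {x : ι → E}
    (hx : ∀ i, ‖x i‖ ≤ 1) {Root A : Finset ι} {u u' v v' : E} {H : Finset ι} {sc : ι → ℕ}
    {wv : ι → E} (hA : 34 ≤ A.card) (hS : St P x Root A u u' v v' H sc wv) :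
    ∃ (I₁ I₀ Fc : Finset ι) (um vm up vp : E) (H' : Finset ι) (sc' : ι → ℕ) (wv' : ι → E),
      I₁.card < A.card ∧ I₀.card < A.card ∧ Disjoint I₁ I₀ ∧ Disjoint I₁ Fc ∧ Disjoint I₀ Fc ∧
      I₁ ∪ Fc ∪ I₀ = A ∧ (Fc.card : ℝ) ≤ C₃ ∧
      St P x Root I₁ u um v vm H' sc' wv' ∧ St P x Root I₀ up u' vp v' H' sc' wv' ∧
      um + vm = u + v + ∑ i ∈ I₁, x i ∧ up + vp = um + vm + ∑ i ∈ Fc, x i := by
  classical
  have hT : PosOp (rkS x A) := rkS_posOp x A
  have hg := Par.g_pos (P := P)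
  obtain ⟨b, μ, hb, hμ⟩ := exists_spec hT hfin
  set ub : E := (1 / 2 : ℝ) • (u + u') with hub
  set vb : E := (1 / 2 : ℝ) • (v + v') with hvb
  have hRu0 := Par.Ru_nonneg (P := P)
  have hubn : ‖ub‖ ≤ P.Ru := by
    rw [hub, norm_smul]
    have h1 := norm_add_le u u'
    have h2 := hS.bu
    have h3 := hS.bu'
    norm_num
    linarith
  have hgood : pf (rkS x A) P.g ub ≤ P.F - P.Φ (rkS x A) := by
    have h1 := pf_mid hT hg u u'
    have h2 := cert_good hfin hS.cu
    have h3 := cert_good hfin hS.cu'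
    unfold Good at h2 h3
    linarith
  have hhn : ‖res (rkS x A) P.g ub‖ ≤ 1 / 4 := by
    have h1 := res_norm_le hT hg ub
    have h2 := hP.hu
    have h3 : P.g * ‖res (rkS x A) P.g ub‖ ≤ P.g * (1 / 4) := by linarith
    exact le_of_mul_le_mul_left h3 hg
  have hhζ : ⟪rkS x A (res (rkS x A) P.g ub), res (rkS x A) P.g ub⟫ ≤ P.ζ ^ 2 := by
    have h1 := form_res_le hT hg ub
    have h2 : P.ζ ^ 2 = P.Ru ^ 2 / P.g := by
      unfold Par.ζ
      rw [div_pow, Real.sq_sqrt hg.le]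
    rw [h2, le_div_iff₀ hg]
    have h3 : ‖ub‖ ^ 2 ≤ P.Ru ^ 2 := pow_le_pow_left₀ (norm_nonneg _) hubn 2
    linarith
  obtain ⟨out⟩ := node_exists P hP x hx A hA b μ hb hμ (res (rkS x A) P.g ub)
    (steer (rkS x A) P.g ub) hhn
  -- balance for both children
  have hσ1 : |(-1 : ℝ)| ≤ 1 := by norm_num
  have hσ0 : |(1 : ℝ)| ≤ 1 := by norm_num
  have hζ0 := Par.ζ_nonneg (P := P)
  have hb₁ := bal_to_comp hx hζ0 hhζ hσ1 out.a₁ out.F₁ out.hF₁c out.ha₁ out.hbal₁
  have hb₀ := bal_to_comp hx hζ0 hhζ hσ0 out.a₀ out.F₀ out.hF₀c out.ha₀ out.hbal₀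
  have hD0 : (0 : ℝ) ≤ (P.D : ℝ) := Nat.cast_nonneg _
  have hcomp₁ : Comp (P.D : ℝ) P.ζ P.g (rkS x A) (rkS x out.I₁) (0 + 1) :=
    comp_step hT hT hD0 hζ0 hg hP.h2D hP.h7 (comp_zero hD0 hζ0 _) hb₁
  have hcomp₀ : Comp (P.D : ℝ) P.ζ P.g (rkS x A) (rkS x out.I₀) (0 + 1) :=
    comp_step hT hT hD0 hζ0 hg hP.h2D hP.h7 (comp_zero hD0 hζ0 _) hb₀
  -- the new points
  have hcm : ∀ i ∈ out.Fc, |(fun i => - out.ν i) i| ≤ 1 := by
    intro i hi
    have h1 := out.hνFc i hi
    simp only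
    rw [abs_neg, abs_of_nonneg h1.1]
    exact h1.2
  have hcp : ∀ i ∈ out.Fc, |(fun i => 1 - out.ν i) i| ≤ 1 := by
    intro i hi
    have h1 := out.hνFc i hi
    simp only
    rw [abs_le]
    constructor <;> linarith [h1.1, h1.2]
  obtain ⟨hnm, hgm⟩ := new_point hP hfin hx hb hμ hgood out out.hI₁ out.hdrop₁ _ hcm
  obtain ⟨hnp, hgp⟩ := new_point hP hfin hx hb hμ hgood out out.hI₀ out.hdrop₀ _ hcp
  set um := newU P x A b μ ub out.e out.Fc (fun i => - out.ν i) with hum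
  set up := newU P x A b μ ub out.e out.Fc (fun i => 1 - out.ν i) with hup
  -- the new items
  set sc' : ι → ℕ := fun i => if i ∈ out.Fc then out.s else sc i with hsc'
  set wv' : ι → E := fun i => if i ∈ out.Fc then softIm P x A b μ i else wv i with hwv'
  set vm : E := vb + ∑ i ∈ out.Fc, (- out.ν i) • wv' i with hvm
  set vp : E := vb + ∑ i ∈ out.Fc, (1 - out.ν i) • wv' i with hvp
  have hpoint : ∀ c : ι → ℝ, newU P x A b μ ub out.e out.Fc c + (vb + ∑ i ∈ out.Fc, c i • wv' i) =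
      steer (rkS x A) P.g ub + vb + out.e + ∑ i ∈ out.Fc, c i • x i := by
    intro c
    have h1 := split_sum (P := P) (x := x) (A := A) (b := b) (μ := μ) hg out.Fc c
    have h2 : ∑ i ∈ out.Fc, c i • wv' i = ∑ i ∈ out.Fc, c i • softIm P x A b μ i := by
      refine Finset.sum_congr rfl (fun i hi => ?_)
      simp only [hwv', if_pos hi]
    rw [h1, h2]
    unfold newU
    abel
  have hmid0 : ∀ e S : E, u + v + ((1 / 2 : ℝ) • ∑ i ∈ A, x i - rkS x A (res (rkS x A) P.g ub) + e - S) =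
      steer (rkS x A) P.g ub + vb + e - S := by
    intro e S
    rw [← hS.sum_eq, steer_eq hT hg]
    generalize rkS x A (res (rkS x A) P.g ub) = t
    rw [hvb, hub]
    module
  have hmid : u + v + ∑ i ∈ out.I₁, x i = steer (rkS x A) P.g ub + vb + out.e -
      ∑ i ∈ out.Fc, out.ν i • x i := by
    rw [out.hsum]
    have h1 : ∑ i ∈ A, nbv x (res (rkS x A) P.g ub) i • x i =
        (1 / 2 : ℝ) • ∑ i ∈ A, x i - rkS x A (res (rkS x A) P.g ub) := by
      rw [rkS_apply, Finset.smul_sum, ← Finset.sum_sub_distrib]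
      refine Finset.sum_congr rfl (fun i _ => ?_)
      unfold nbv
      rw [sub_smul]
    rw [h1]
    exact hmid0 _ _
  have hsumm : um + vm = u + v + ∑ i ∈ out.I₁, x i := by
    rw [hmid, hum, hvm, hpoint]
    have h1 : ∑ i ∈ out.Fc, (- out.ν i) • x i = - ∑ i ∈ out.Fc, out.ν i • x i := by
      rw [← Finset.sum_neg_distrib]
      exact Finset.sum_congr rfl (fun i _ => by rw [neg_smul])
    rw [h1]
    abel
  have hsump : up + vp = um + vm + ∑ i ∈ out.Fc, x i := by
    rw [hsumm, hmid, hup, hvp, hpoint]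
    have h1 : ∑ i ∈ out.Fc, (1 - out.ν i) • x i =
        ∑ i ∈ out.Fc, x i - ∑ i ∈ out.Fc, out.ν i • x i := by
      rw [← Finset.sum_sub_distrib]
      exact Finset.sum_congr rfl (fun i _ => by rw [sub_smul, one_smul])
    rw [h1]
    abel
  -- partition facts
  have hdI₁ : Disjoint H out.I₁ := Finset.disjoint_of_subset_right out.hI₁ hS.hd
  have hdI₀ : Disjoint H out.I₀ := Finset.disjoint_of_subset_right out.hI₀ hS.hd
  have hdF : Disjoint H out.Fc := Finset.disjoint_of_subset_right out.hFc hS.hd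
  have hsumA : ∑ i ∈ A, x i = ∑ i ∈ out.I₁, x i + ∑ i ∈ out.Fc, x i + ∑ i ∈ out.I₀, x i := by
    have h1 : ∑ i ∈ out.I₁ ∪ out.Fc ∪ out.I₀, x i =
        ∑ i ∈ out.I₁, x i + ∑ i ∈ out.Fc, x i + ∑ i ∈ out.I₀, x i := by
      rw [Finset.sum_union, Finset.sum_union out.hd₂]
      rw [Finset.disjoint_union_left]
      exact ⟨out.hd₁, out.hd₃.symm⟩
    rw [← h1]
    exact Finset.sum_congr out.hU.symm (fun _ _ => rfl)
  have hagree : ∀ i ∈ H, wv' i = wv i := by
    intro i hi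
    have h1 : i ∉ out.Fc := Finset.disjoint_left.mp hdF hi
    simp only [hwv', if_neg h1]
  have hzold : ∀ w, Zon H wv w → Zon (H ∪ out.Fc) wv' w := by
    intro w hw
    have h1 := zon_ext hagree hw hdF (fun _ => 0) (fun i _ => by simp)
    simpa using h1
  have hzvb : Zon H wv vb := zon_mid hS.zv hS.zv'
  have hzm : Zon (H ∪ out.Fc) wv' vm := zon_ext hagree hzvb hdF _ hcm
  have hzp : Zon (H ∪ out.Fc) wv' vp := zon_ext hagree hzvb hdF _ hcp
  -- invariants along the path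
  have hFcout₁ : out.Fc ⊆ A \ out.I₁ := by
    intro i hi
    exact Finset.mem_sdiff.mpr ⟨out.hFc hi, fun h1 => Finset.disjoint_left.mp out.hd₂ h1 hi⟩
  have hFcout₀ : out.Fc ⊆ A \ out.I₀ := by
    intro i hi
    exact Finset.mem_sdiff.mpr ⟨out.hFc hi, fun h1 => Finset.disjoint_left.mp out.hd₃ h1 hi⟩
  have hhist : ∀ (I : Finset ι) (σ : ℝ) (a : ι → ℝ) (F' : Finset ι), I ⊆ A → |σ| ≤ 1 → F' ⊆ A →
      F'.card ≤ P.D → (∀ i ∈ F', |a i| ≤ 1) →
      (∀ v, ⟪rkS x I v, v⟫ = (1 / 2) * ⟪rkS x A v, v⟫ +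
        σ * ∑ i ∈ A, ⟪x i, res (rkS x A) P.g ub⟫ * ⟪x i, v⟫ ^ 2 + ∑ i ∈ F', a i * ⟪x i, v⟫ ^ 2) →
      (out.Fc ≠ ∅ → ∀ v, (∀ k, k ∉ out.Ac → ⟪b k, v⟫ = 0) → ∑ i ∈ F', a i * ⟪x i, v⟫ ^ 2 ≤ 0) →
      out.Fc ⊆ A \ I → (0 < out.ε → (out.Ac.card : ℝ) / 288 ≤ P.Lev (rkS x A) out.s - P.Lev (rkS x I) out.s) →
      HistOK P x Root I (H ∪ out.Fc) sc' wv' := by
    intro I σ a F' hI hσ hF' hcard ha hbal hblock hFcI hdrop
    by_cases hFe : out.Fc = ∅
    · have h1 : sc' = sc := by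
        funext i
        simp [hsc', hFe]
      have h2 : wv' = wv := by
        funext i
        simp [hwv', hFe]
      rw [h1, h2, hFe, Finset.union_empty]
      exact hist_mono hI hS.hist
    · rcases out.hheavy with h0 | ⟨hεp, hDe, _, _⟩
      · exact absurd h0 hFe
      · have hr1 := out.hr1 hεp
        have hd1 : 1 / 288 ≤ P.Lev (rkS x A) out.s - P.Lev (rkS x I) out.s := by
          have := hdrop hεp
          linarith
        exact hist_add hP hx out.hε0 (out.hεs hεp) hb hμ out.hAc hDe out.hsoft hhζ hσ a F' hF' hcard ha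
          hbal (hblock hFe) hFcI hI (Finset.nonempty_iff_ne_empty.mpr hFe) out.hFcC hd1 hdF hS.hist
  have hblock₁ : out.Fc ≠ ∅ → ∀ v, (∀ k, k ∉ out.Ac → ⟪b k, v⟫ = 0) →
      ∑ i ∈ out.F₁, out.a₁ i * ⟪x i, v⟫ ^ 2 ≤ 0 := by
    intro hFe
    rcases out.hheavy with h0 | ⟨_, _, h1, _⟩
    · exact absurd h0 hFe
    · exact h1
  have hblock₀ : out.Fc ≠ ∅ → ∀ v, (∀ k, k ∉ out.Ac → ⟪b k, v⟫ = 0) →
      ∑ i ∈ out.F₀, out.a₀ i * ⟪x i, v⟫ ^ 2 ≤ 0 := by
    intro hFe
    rcases out.hheavy with h0 | ⟨_, _, _, h1⟩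
    · exact absurd h0 hFe
    · exact h1
  have hh₁ := hhist out.I₁ (-1) out.a₁ out.F₁ out.hI₁ hσ1 out.hF₁ out.hF₁c out.ha₁ out.hbal₁ hblock₁
    hFcout₁ out.hdrop₁
  have hh₀ := hhist out.I₀ 1 out.a₀ out.F₀ out.hI₀ hσ0 out.hF₀ out.hF₀c out.ha₀ out.hbal₀ hblock₀
    hFcout₀ out.hdrop₀
  refine ⟨out.I₁, out.I₀, out.Fc, um, vm, up, vp, H ∪ out.Fc, sc', wv', out.hc₁, out.hc₀, out.hd₁,
    out.hd₂, out.hd₃, out.hU, out.hFcC, ?_, ?_, hsumm, hsump⟩
  · refine ⟨?_, hS.bu, hnm, cert_step hP out.hI₁ hS.cu hb₁,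
      Or.inr ⟨A, out.I₁, 0, subset_rfl, hcomp₁, hgm⟩, ?_, hzold v hS.zv, hzm, hh₁⟩
    · rw [hsumm]
      abel
    · rw [Finset.disjoint_union_left]
      exact ⟨hdI₁, out.hd₂.symm⟩
  · refine ⟨?_, hnp, hS.bu', Or.inr ⟨A, out.I₀, 0, subset_rfl, hcomp₀, hgp⟩,
      cert_step hP out.hI₀ hS.cu' hb₀, ?_, hzp, hzold v' hS.zv', hh₀⟩
    · have h1 := hS.sum_eq
      rw [hsumA] at h1
      rw [hsump, hsumm]
      have h2 : u' + v' = u + v + (∑ i ∈ out.I₁, x i + ∑ i ∈ out.Fc, x i + ∑ i ∈ out.I₀, x i) := by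
        rw [← h1]
        abel
      rw [h2]
      abel
    · rw [Finset.disjoint_union_left]
      exact ⟨hdI₀, out.hd₃.symm⟩

/-- The bound for all partial sums. -/
noncomputable def Rtot (P : Par) : ℝ :=
  P.Ru + Real.sqrt (204 * c₁ * Kz * (P.n : ℝ) * ((P.J 0 : ℝ) + 1) ^ 3) + C₃ + 33

lemma list_sum_norm {x : ι → E} (hx : ∀ i, ‖x i‖ ≤ 1) (l : List ι) :
    ‖(l.map x).sum‖ ≤ (l.length : ℝ) := by
  induction l with
  | nil => simp
  | cons a l ih =>
    simp only [List.map_cons, List.sum_cons, List.length_cons]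
    push_cast
    have h1 := norm_add_le (x a) (l.map x).sum
    have h2 := hx a
    linarith

/-- All partial sums starting from a point are bounded. -/
def PrefOK (x : ι → E) (p : E) (l : List ι) (R : ℝ) : Prop :=
  ∀ k, ‖p + ((l.take k).map x).sum‖ ≤ R

lemma pref_append {x : ι → E} {p : E} {l₁ l₂ : List ι} {R : ℝ} (h₁ : PrefOK x p l₁ R)
    (h₂ : PrefOK x (p + (l₁.map x).sum) l₂ R) : PrefOK x p (l₁ ++ l₂) R := by
  intro k
  by_cases hk : k ≤ l₁.length
  · rw [List.take_append_of_le_length hk]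
    exact h₁ k
  · push Not at hk
    have h3 : (l₁ ++ l₂).take k = l₁ ++ l₂.take (k - l₁.length) := by
      rw [List.take_append]
      rw [List.take_of_length_le hk.le]
    rw [h3, List.map_append, List.sum_append, ← add_assoc]
    exact h₂ _

lemma zon_bound {P : Par} (hP : P.Adm) (hfin : finrank ℝ E = P.n) {x : ι → E}
    {Root A H : Finset ι} {sc : ι → ℕ} {wv : ι → E} (hist : HistOK P x Root A H sc wv)
    {v : E} (hz : Zon H wv v) :
    ‖v‖ ≤ Real.sqrt (204 * c₁ * Kz * (P.n : ℝ) * ((P.J 0 : ℝ) + 1) ^ 3) :=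
  Real.le_sqrt_of_sq_le (zon_norm hP hfin hist hz)

/-- The recursion. -/
theorem tree {P : Par} (hP : P.Adm) (hfin : finrank ℝ E = P.n) {x : ι → E}
    (hx : ∀ i, ‖x i‖ ≤ 1) (Root : Finset ι) (m : ℕ) :
    ∀ (A : Finset ι) (u u' v v' : E) (H : Finset ι) (sc : ι → ℕ) (wv : ι → E), A.card ≤ m →
      St P x Root A u u' v v' H sc wv →
      ∃ l : List ι, l.Nodup ∧ l.toFinset = A ∧ PrefOK x (u + v) l (Rtot P) := by
  classical
  have hC₃ := Par.C₃_pos
  have hRu0 := Par.Ru_nonneg (P := P)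
  have hRv0 := Real.sqrt_nonneg (204 * c₁ * Kz * (P.n : ℝ) * ((P.J 0 : ℝ) + 1) ^ 3)
  induction m with
  | zero =>
    intro A u u' v v' H sc wv hA hS
    have hA0 : A = ∅ := by
      rw [← Finset.card_eq_zero]
      omega
    refine ⟨[], List.nodup_nil, by simp [hA0], ?_⟩
    intro k
    simp only [List.take_nil, List.map_nil, List.sum_nil, add_zero]
    have h1 := norm_add_le u v
    have h2 := hS.bu
    have h3 := zon_bound hP hfin hS.hist hS.zv
    unfold Rtot
    linarith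
  | succ m ih =>
    intro A u u' v v' H sc wv hA hS
    by_cases hsmall : A.card < 34
    · -- arbitrary order
      refine ⟨A.toList, A.nodup_toList, by simp, ?_⟩
      intro k
      have h1 := norm_add_le (u + v) ((A.toList.take k).map x).sum
      have h2 := norm_add_le u v
      have h3 := hS.bu
      have h4 := zon_bound hP hfin hS.hist hS.zv
      have h5 := list_sum_norm hx (A.toList.take k)
      have h6 : ((A.toList.take k).length : ℝ) ≤ 33 := by
        have h7 : (A.toList.take k).length ≤ 33 := by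
          rw [List.length_take, Finset.length_toList]
          omega
        exact_mod_cast h7
      unfold Rtot
      linarith
    · push Not at hsmall
      obtain ⟨I₁, I₀, Fc, um, vm, up, vp, H', sc', wv', hc₁, hc₀, hd₁, hd₂, hd₃, hU, hFcC, hS₁, hS₀,
        hm, hp⟩ := node_step hP hfin hx hsmall hS
      obtain ⟨l₁, hl₁n, hl₁t, hl₁p⟩ := ih I₁ u um v vm H' sc' wv' (by omega) hS₁
      obtain ⟨l₀, hl₀n, hl₀t, hl₀p⟩ := ih I₀ up u' vp v' H' sc' wv' (by omega) hS₀
      have hsum₁ : (l₁.map x).sum = ∑ i ∈ I₁, x i := by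
        rw [← hl₁t, List.sum_toFinset _ hl₁n]
      set lf := Fc.toList with hlf
      have hlfn : lf.Nodup := Fc.nodup_toList
      have hsumf : (lf.map x).sum = ∑ i ∈ Fc, x i := by
        rw [← List.sum_toFinset _ hlfn, Finset.toList_toFinset]
      have hmem₁ : ∀ i, i ∈ l₁ ↔ i ∈ I₁ := fun i => by rw [← hl₁t, List.mem_toFinset]
      have hmem₀ : ∀ i, i ∈ l₀ ↔ i ∈ I₀ := fun i => by rw [← hl₀t, List.mem_toFinset]
      have hmemf : ∀ i, i ∈ lf ↔ i ∈ Fc := fun i => by rw [hlf, Finset.mem_toList]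
      refine ⟨l₁ ++ (lf ++ l₀), ?_, ?_, ?_⟩
      · rw [List.nodup_append']
        refine ⟨hl₁n, ?_, ?_⟩
        · rw [List.nodup_append']
          refine ⟨hlfn, hl₀n, ?_⟩
          intro i hi hi'
          rw [hmemf] at hi
          rw [hmem₀] at hi'
          exact Finset.disjoint_left.mp hd₃ hi' hi
        · intro i hi hi'
          rw [hmem₁] at hi
          rcases List.mem_append.mp hi' with h1 | h1
          · rw [hmemf] at h1
            exact Finset.disjoint_left.mp hd₂ hi h1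
          · rw [hmem₀] at h1
            exact Finset.disjoint_left.mp hd₁ hi h1
      · rw [List.toFinset_append, List.toFinset_append, hl₁t, hl₀t, Finset.toList_toFinset,
          ← Finset.union_assoc]
        exact hU
      · apply pref_append hl₁p
        rw [hsum₁, ← hm]
        apply pref_append
        · intro k
          have h1 := norm_add_le (um + vm) ((lf.take k).map x).sum
          have h2 := norm_add_le um vm
          have h3 := hS₁.bu'
          have h4 := zon_bound hP hfin hS₁.hist hS₁.zv'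
          have h5 := list_sum_norm hx (lf.take k)
          have h6 : ((lf.take k).length : ℝ) ≤ C₃ := by
            have h7 : (lf.take k).length ≤ Fc.card := by
              rw [List.length_take, hlf, Finset.length_toList]
              omega
            have h8 : ((lf.take k).length : ℝ) ≤ (Fc.card : ℝ) := by exact_mod_cast h7
            linarith
          unfold Rtot
          linarith
        · rw [hsumf, ← hp]
          exact hl₀p

/-- The ordering for a family with sum zero. -/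
theorem steinitz_core {P : Par} (hP : P.Adm) (hfin : finrank ℝ E = P.n) {x : ι → E}
    (hx : ∀ i, ‖x i‖ ≤ 1) (A : Finset ι) (hsum : ∑ i ∈ A, x i = 0) :
    ∃ l : List ι, l.Nodup ∧ l.toFinset = A ∧ ∀ k, ‖((l.take k).map x).sum‖ ≤ Rtot P := by
  have hRoot : St P x A A 0 0 0 0 ∅ (fun _ => 0) (fun _ => 0) := by
    refine ⟨by simp [hsum], ?_, ?_, Or.inl rfl, Or.inl rfl, by simp, ⟨fun _ => 0, by simp, by simp⟩,
      ⟨fun _ => 0, by simp, by simp⟩, ⟨?_, ?_⟩⟩
    · simpa using Par.Ru_nonneg (P := P)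
    · simpa using Par.Ru_nonneg (P := P)
    · intro s
      simp [cntf]
    · intro s θ _
      have hT := rkS_posOp x A
      have hκ := κs_pos s
      have h1 := pf_nonneg hT hκ θ
      have h2 := Wf_nonneg hT hκ (P.Ls s) θ
      have hC := Par.C₃_pos
      simp only [Finset.filter_empty, Finset.sum_empty]
      have h3 : (cntf (∅ : Finset ι) (fun _ => 0) s : ℝ) = 0 := by simp [cntf]
      rw [h3, mul_zero, add_zero]
      positivity
  obtain ⟨l, h1, h2, h3⟩ := tree hP hfin hx A A.card A 0 0 0 0 ∅ (fun _ => 0) (fun _ => 0) le_rfl hRoot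
  refine ⟨l, h1, h2, fun k => ?_⟩
  have := h3 k
  simpa using this

end Vale.Agent.Lib.P262.U
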