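import Mathlib

/-!
A walk on the fractional cube: keeps chosen linear functionals exact, reduces the number of
fractional coordinates, and controls a weighted sum of squares of other linear functionals.
-/

open scoped RealInnerProductSpace BigOperators
open Module

set_option linter.unusedSectionVars false

namespace Vale.Agent.Lib.P262.U

variable {ι : Type*} [DecidableEq ι]

open Classical in
/-- Fractional coordinates of `ν` inside `A`. -/
noncomputable def fl (A : Finset ι) (ν : ι → ℝ) : Finset ι :=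
  A.filter (fun i => 0 < ν i ∧ ν i < 1)

lemma mem_fl {A : Finset ι} {ν : ι → ℝ} {i : ι} : i ∈ fl A ν ↔ i ∈ A ∧ 0 < ν i ∧ ν i < 1 := by
  classical
  simp [fl]

/-- A vector in the null space of few functionals with small quadratic cost. -/
lemma null_vector {K : Type*} [Fintype K] (w : K → ℝ) (hw : ∀ k, 0 ≤ w k) (g : K → ι → ℝ)
    (F : Finset ι) (hF : F.Nonempty) (L : Finset (ι → ℝ)) (hL : 2 * L.card ≤ F.card) (τ : ℝ)
    (hτ : ∀ i ∈ F, ∑ k, w k * (g k i) ^ 2 ≤ τ) :
    ∃ z : ι → ℝ, (∀ i, i ∉ F → z i = 0) ∧ (∃ i, z i ≠ 0) ∧ (∀ a ∈ L, ∑ i ∈ F, a i * z i = 0) ∧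
      ∑ k, w k * (∑ i ∈ F, z i * g k i) ^ 2 ≤ 2 * τ * ∑ i ∈ F, (z i) ^ 2 := by
  classical
  -- the ambient space
  let V := EuclideanSpace ℝ (↥F)
  let toV : (ι → ℝ) → V := fun a => WithLp.toLp 2 (fun i : ↥F => a i)
  let U : Submodule ℝ V := Submodule.span ℝ (toV '' (L : Set (ι → ℝ)))
  have hUcard : finrank ℝ U ≤ L.card := by
    have h1 : finrank ℝ U ≤ (L.image toV).card := by
      have : U = Submodule.span ℝ ((L.image toV : Finset V) : Set V) := by
        simp [U, Finset.coe_image]
      rw [this]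
      exact finrank_span_finset_le_card _
    exact h1.trans Finset.card_image_le
  have hN : finrank ℝ U + finrank ℝ (Uᗮ) = F.card := by
    have := Submodule.finrank_add_finrank_orthogonal U
    rw [this]
    simp [V]
  set n := finrank ℝ (Uᗮ) with hn
  have hnpos : 0 < n := by
    have h1 : 0 < F.card := hF.card_pos
    omega
  have hn2 : (F.card : ℝ) ≤ 2 * n := by
    have : F.card ≤ 2 * n := by omega
    exact_mod_cast this
  have hτ0 : 0 ≤ τ := by
    obtain ⟨i, hi⟩ := hF
    refine le_trans ?_ (hτ i hi)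
    exact Finset.sum_nonneg (fun k _ => mul_nonneg (hw k) (sq_nonneg _))
  let b := stdOrthonormalBasis ℝ (Uᗮ)
  let b' : Fin (finrank ℝ (Uᗮ)) → V := fun t => (b t : V)
  have hb' : Orthonormal ℝ b' := by
    have := b.orthonormal.comp_linearIsometry (Uᗮ).subtypeₗᵢ
    exact this
  let gv : K → V := fun k => toV (g k)
  -- inner product with a restricted function
  have hinner : ∀ (t : Fin (finrank ℝ (Uᗮ))) (a : ι → ℝ), ⟪b' t, toV a⟫ = ∑ i : ↥F, a i * (b' t) i := by
    intro t a
    change inner ℝ (b' t : EuclideanSpace ℝ (↥F)) (WithLp.toLp 2 (fun i : ↥F => a i)) = _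
    rw [PiLp.inner_apply]
    refine Finset.sum_congr rfl (fun i _ => ?_)
    simp
  have hnormsq : ∀ a : ι → ℝ, ‖toV a‖ ^ 2 = ∑ i ∈ F, (a i) ^ 2 := by
    intro a
    rw [EuclideanSpace.norm_sq_eq]
    simp only [toV, Real.norm_eq_abs, sq_abs]
    rw [← Finset.sum_coe_sort F (fun i => (a i) ^ 2)]
  -- averaging
  have hsum : ∑ t : Fin (finrank ℝ (Uᗮ)), ∑ k, w k * ⟪b' t, gv k⟫ ^ 2 ≤ (F.card : ℝ) * τ := by
    calc ∑ t : Fin (finrank ℝ (Uᗮ)), ∑ k, w k * ⟪b' t, gv k⟫ ^ 2
        = ∑ k, w k * ∑ t : Fin (finrank ℝ (Uᗮ)), ⟪b' t, gv k⟫ ^ 2 := by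
          rw [Finset.sum_comm]
          simp_rw [Finset.mul_sum]
      _ ≤ ∑ k, w k * ‖gv k‖ ^ 2 := by
          refine Finset.sum_le_sum (fun k _ => mul_le_mul_of_nonneg_left ?_ (hw k))
          have := hb'.sum_inner_products_le (s := Finset.univ) (x := gv k)
          simpa using this
      _ = ∑ k, w k * ∑ i ∈ F, (g k i) ^ 2 := by
          refine Finset.sum_congr rfl (fun k _ => ?_)
          rw [hnormsq]
      _ = ∑ i ∈ F, ∑ k, w k * (g k i) ^ 2 := by
          simp_rw [Finset.mul_sum]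
          rw [Finset.sum_comm]
      _ ≤ ∑ i ∈ F, τ := Finset.sum_le_sum hτ
      _ = (F.card : ℝ) * τ := by simp
  have hex : ∃ t : Fin (finrank ℝ (Uᗮ)), ∑ k, w k * ⟪b' t, gv k⟫ ^ 2 ≤ 2 * τ := by
    by_contra hcon
    push Not at hcon
    have : Nonempty (Fin (finrank ℝ (Uᗮ))) := ⟨⟨0, hnpos⟩⟩
    have h1 : ∑ t : Fin (finrank ℝ (Uᗮ)), (2 * τ) < ∑ t : Fin (finrank ℝ (Uᗮ)),
        ∑ k, w k * ⟪b' t, gv k⟫ ^ 2 :=
      Finset.sum_lt_sum_of_nonempty Finset.univ_nonempty (fun t _ => hcon t)
    simp only [Finset.sum_const, Finset.card_univ, Fintype.card_fin, nsmul_eq_mul] at h1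
    have h2 : (F.card : ℝ) * τ ≤ (2 * (finrank ℝ (Uᗮ) : ℝ)) * τ :=
      mul_le_mul_of_nonneg_right hn2 hτ0
    nlinarith
  obtain ⟨t, ht⟩ := hex
  refine ⟨fun i => if h : i ∈ F then (b' t) ⟨i, h⟩ else 0, ?_, ?_, ?_, ?_⟩
  · intro i hi
    simp [hi]
  · by_contra hcon
    push Not at hcon
    have h0 : b' t = 0 := by
      ext i
      have := hcon i.1
      simpa [i.2] using this
    have h1 := hb'.1 t
    rw [h0] at h1
    simp at h1
  · intro a ha
    have h1 : toV a ∈ U := Submodule.subset_span ⟨a, ha, rfl⟩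
    have h2 : ⟪b' t, toV a⟫ = 0 := by
      have h3 : (b' t) ∈ Uᗮ := (b t).2
      exact (Submodule.mem_orthogonal' U _).mp h3 _ h1
    rw [hinner] at h2
    rw [← h2, ← Finset.sum_coe_sort F]
    refine Finset.sum_congr rfl (fun i _ => ?_)
    simp
  · have h1 : ∑ i ∈ F, (if h : i ∈ F then (b' t) ⟨i, h⟩ else 0) ^ 2 = 1 := by
      have h2 := hb'.1 t
      have h3 : ‖b' t‖ ^ 2 = 1 := by rw [h2]; simp
      rw [EuclideanSpace.norm_sq_eq] at h3
      rw [← h3, ← Finset.sum_coe_sort F]
      refine Finset.sum_congr rfl (fun i _ => ?_)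
      simp
    rw [h1, mul_one]
    refine le_trans (le_of_eq ?_) ht
    refine Finset.sum_congr rfl (fun k _ => ?_)
    congr 2
    have := hinner t (g k)
    simp only [gv]
    rw [this, ← Finset.sum_coe_sort F]
    refine Finset.sum_congr rfl (fun i _ => ?_)
    simp [mul_comm]

/-- Moving along a direction until a coordinate hits the boundary of the cube. -/
lemma hit_boundary (A : Finset ι) (ν z : ι → ℝ) (hν : ∀ i ∈ A, 0 ≤ ν i ∧ ν i ≤ 1)
    (hz : ∀ i, i ∉ fl A ν → z i = 0) (hz0 : ∃ i, z i ≠ 0) :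
    ∃ t : ℝ, 0 < t ∧ (∀ i ∈ A, 0 ≤ ν i + t * z i ∧ ν i + t * z i ≤ 1) ∧
      (fl A (fun i => ν i + t * z i)).card < (fl A ν).card := by
  classical
  -- the candidates
  let S := (fl A ν).filter (fun i => z i ≠ 0)
  have hS : S.Nonempty := by
    obtain ⟨i, hi⟩ := hz0
    refine ⟨i, ?_⟩
    simp only [S, Finset.mem_filter]
    refine ⟨?_, hi⟩
    by_contra h
    exact hi (hz i h)
  let b : ι → ℝ := fun i => if 0 < z i then (1 - ν i) / z i else ν i / (- z i)
  have hbpos : ∀ i ∈ S, 0 < b i := by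
    intro i hi
    simp only [S, Finset.mem_filter, mem_fl] at hi
    obtain ⟨⟨_, h1, h2⟩, h3⟩ := hi
    simp only [b]
    split_ifs with h
    · exact div_pos (by linarith) h
    · have : z i < 0 := lt_of_le_of_ne (not_lt.mp h) h3
      exact div_pos h1 (by linarith)
  obtain ⟨i0, hi0, hmin⟩ := S.exists_min_image b hS
  refine ⟨b i0, hbpos i0 hi0, ?_, ?_⟩
  · intro i hi
    by_cases hiS : i ∈ S
    · have hle := hmin i hiS
      have hpos := hbpos i hiS
      have ht := hbpos i0 hi0
      simp only [S, Finset.mem_filter, mem_fl] at hiS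
      obtain ⟨⟨_, h1, h2⟩, h3⟩ := hiS
      simp only [b] at hle
      by_cases h : 0 < z i
      · rw [if_pos h] at hle
        have h4 : b i0 * z i ≤ 1 - ν i := by
          rwa [le_div_iff₀ h] at hle
        have h5 : 0 ≤ b i0 * z i := by positivity
        constructor <;> linarith
      · rw [if_neg h] at hle
        have hneg : 0 < - z i := by
          have : z i < 0 := lt_of_le_of_ne (not_lt.mp h) h3
          linarith
        have h4 : b i0 * (- z i) ≤ ν i := by
          rwa [le_div_iff₀ hneg] at hle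
        have h5 : 0 ≤ b i0 * (- z i) := by positivity
        constructor <;> nlinarith
    · have hzi : z i = 0 := by
        by_contra hne
        apply hiS
        simp only [S, Finset.mem_filter]
        refine ⟨?_, hne⟩
        by_contra h
        exact hne (hz i h)
      simpa [hzi] using hν i hi
  · apply Finset.card_lt_card
    rw [Finset.ssubset_iff_of_subset]
    · refine ⟨i0, ?_, ?_⟩
      · simp only [S, Finset.mem_filter] at hi0
        exact hi0.1
      · -- the minimizing coordinate is on the boundary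
        simp only [mem_fl, not_and, not_lt]
        intro _ h0
        simp only [S, Finset.mem_filter, mem_fl] at hi0
        obtain ⟨⟨_, h1, h2⟩, h3⟩ := hi0
        by_cases h : 0 < z i0
        · simp only [b, if_pos h]
          field_simp
          linarith
        · exfalso
          simp only [b, if_neg h] at h0
          have hne : - z i0 ≠ 0 := by simpa using h3
          have : ν i0 + ν i0 / (- z i0) * z i0 = 0 := by
            field_simp
            ring
          linarith
    · intro i hi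
      rw [mem_fl] at hi ⊢
      obtain ⟨h1, h2, h3⟩ := hi
      refine ⟨h1, ?_⟩
      by_contra hcon
      have hzi : z i = 0 := hz i (by
        intro hmem
        rw [mem_fl] at hmem
        exact hcon hmem.2)
      simp only [hzi, mul_zero, add_zero] at h2 h3
      exact hcon ⟨h2, h3⟩

/-- One stage of the walk. -/
lemma stage {K : Type*} [Fintype K] (w : K → ℝ) (hw : ∀ k, 0 ≤ w k) (g : K → ι → ℝ)
    (A : Finset ι) (L : Finset (ι → ℝ)) (f : ℕ) (hf : 2 * L.card ≤ f) (τ : ℝ)
    (ν₀ : ι → ℝ) (hν₀ : ∀ i ∈ A, 0 ≤ ν₀ i ∧ ν₀ i ≤ 1)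
    (hτ : ∀ i ∈ fl A ν₀, ∑ k, w k * (g k i) ^ 2 ≤ τ) :
    ∃ ν : ι → ℝ, (∀ i ∈ A, 0 ≤ ν i ∧ ν i ≤ 1) ∧ (∀ i, i ∉ fl A ν₀ → ν i = ν₀ i) ∧
      (fl A ν).card ≤ f ∧ (∀ a ∈ L, ∑ i ∈ A, a i * (ν i - ν₀ i) = 0) ∧
      ∑ k, w k * (∑ i ∈ A, (ν i - ν₀ i) * g k i) ^ 2 ≤ τ * (fl A ν₀).card / 2 := by
  classical
  -- the potential
  let Q : (ι → ℝ) → ℝ := fun y => ∑ k, w k * (∑ i ∈ A, y i * g k i) ^ 2
  let P : (ι → ℝ) → ℝ := fun ν => Q (fun i => ν i - ν₀ i) + 2 * τ * ∑ i ∈ A, ν i * (1 - ν i)
  have hQnonneg : ∀ y, 0 ≤ Q y := fun y =>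
    Finset.sum_nonneg (fun k _ => mul_nonneg (hw k) (sq_nonneg _))
  -- main induction
  have main : ∀ n : ℕ, ∀ ν : ι → ℝ, (fl A ν).card ≤ n → (∀ i ∈ A, 0 ≤ ν i ∧ ν i ≤ 1) →
      fl A ν ⊆ fl A ν₀ →
      ∃ ν' : ι → ℝ, (∀ i ∈ A, 0 ≤ ν' i ∧ ν' i ≤ 1) ∧ (∀ i, i ∉ fl A ν → ν' i = ν i) ∧
        (fl A ν').card ≤ f ∧ (∀ a ∈ L, ∑ i ∈ A, a i * ν' i = ∑ i ∈ A, a i * ν i) ∧ P ν' ≤ P ν := by
    intro n
    induction n with
    | zero =>
      intro ν h0 hν _
      exact ⟨ν, hν, fun _ _ => rfl, h0.trans (Nat.zero_le _), fun _ _ => rfl, le_refl _⟩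
    | succ n ih =>
      intro ν hn hν hsub
      by_cases hcard : (fl A ν).card ≤ f
      · exact ⟨ν, hν, fun _ _ => rfl, hcard, fun _ _ => rfl, le_refl _⟩
      · push Not at hcard
        have hne : (fl A ν).Nonempty := by
          rw [← Finset.card_pos]
          omega
        have hτ0 : 0 ≤ τ := by
          obtain ⟨i, hi⟩ := hne
          refine le_trans ?_ (hτ i (hsub hi))
          exact Finset.sum_nonneg (fun k _ => mul_nonneg (hw k) (sq_nonneg _))
        obtain ⟨z₀, hz₀, hz₀ne, hz₀L, hz₀Q⟩ := null_vector w hw g (fl A ν) hne L (by omega) τ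
          (fun i hi => hτ i (hsub hi))
        -- restrict sums to the floaters
        have hsumz : ∀ (z : ι → ℝ) (c : ι → ℝ), (∀ i, i ∉ fl A ν → z i = 0) →
            ∑ i ∈ A, z i * c i = ∑ i ∈ fl A ν, z i * c i := by
          intro z c hz
          symm
          apply Finset.sum_subset (Finset.filter_subset _ _)
          intro i _ hi
          rw [hz i hi, zero_mul]
        -- quadratic expansion along a direction
        have hexpand : ∀ (z : ι → ℝ) (t : ℝ), P (fun i => ν i + t * z i) =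
            P ν + t * (2 * ∑ k, w k * ((∑ i ∈ A, (ν i - ν₀ i) * g k i) * (∑ i ∈ A, z i * g k i))
                + 2 * τ * ∑ i ∈ A, z i * (1 - 2 * ν i))
              + t ^ 2 * (Q z - 2 * τ * ∑ i ∈ A, (z i) ^ 2) := by
          intro z t
          simp only [P, Q]
          have h1 : ∀ k, (∑ i ∈ A, (ν i + t * z i - ν₀ i) * g k i) =
              (∑ i ∈ A, (ν i - ν₀ i) * g k i) + t * (∑ i ∈ A, z i * g k i) := by
            intro k
            rw [Finset.mul_sum, ← Finset.sum_add_distrib]
            refine Finset.sum_congr rfl (fun i _ => ?_)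
            ring
          simp_rw [h1]
          have h2 : ∑ i ∈ A, (ν i + t * z i) * (1 - (ν i + t * z i)) =
              ∑ i ∈ A, ν i * (1 - ν i) + t * ∑ i ∈ A, z i * (1 - 2 * ν i)
                - t ^ 2 * ∑ i ∈ A, (z i) ^ 2 := by
            rw [Finset.mul_sum, Finset.mul_sum, ← Finset.sum_add_distrib, ← Finset.sum_sub_distrib]
            refine Finset.sum_congr rfl (fun i _ => ?_)
            ring
          rw [h2]
          have h3 : ∑ k, w k * ((∑ i ∈ A, (ν i - ν₀ i) * g k i) + t * (∑ i ∈ A, z i * g k i)) ^ 2 =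
              ∑ k, w k * (∑ i ∈ A, (ν i - ν₀ i) * g k i) ^ 2
              + 2 * t * ∑ k, w k * ((∑ i ∈ A, (ν i - ν₀ i) * g k i) * (∑ i ∈ A, z i * g k i))
              + t ^ 2 * ∑ k, w k * (∑ i ∈ A, z i * g k i) ^ 2 := by
            rw [Finset.mul_sum, Finset.mul_sum, ← Finset.sum_add_distrib, ← Finset.sum_add_distrib]
            refine Finset.sum_congr rfl (fun k _ => ?_)
            ring
          rw [h3]
          ring
        -- quadratic coefficient
        have hquad : ∀ z : ι → ℝ, (∀ i, i ∉ fl A ν → z i = 0) →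
            Q z ≤ 2 * τ * ∑ k ∈ fl A ν, (z k) ^ 2 →
            Q z - 2 * τ * ∑ i ∈ A, (z i) ^ 2 ≤ 0 := by
          intro z hz h
          have h2 : ∑ i ∈ A, (z i) ^ 2 = ∑ i ∈ fl A ν, (z i) ^ 2 := by
            have := hsumz z z hz
            simpa [sq] using this
          rw [h2]
          linarith
        -- choose the sign
        let lin : (ι → ℝ) → ℝ := fun z =>
          2 * ∑ k, w k * ((∑ i ∈ A, (ν i - ν₀ i) * g k i) * (∑ i ∈ A, z i * g k i))
            + 2 * τ * ∑ i ∈ A, z i * (1 - 2 * ν i)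
        have hlinneg : lin (fun i => - z₀ i) = - lin z₀ := by
          simp only [lin]
          have h1 : ∀ k, ∑ i ∈ A, - z₀ i * g k i = - ∑ i ∈ A, z₀ i * g k i := by
            intro k
            rw [← Finset.sum_neg_distrib]
            exact Finset.sum_congr rfl (fun i _ => by ring)
          have h2 : ∑ i ∈ A, - z₀ i * (1 - 2 * ν i) = - ∑ i ∈ A, z₀ i * (1 - 2 * ν i) := by
            rw [← Finset.sum_neg_distrib]
            exact Finset.sum_congr rfl (fun i _ => by ring)
          simp_rw [h1]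
          rw [h2]
          have h3 : ∑ k, w k * ((∑ i ∈ A, (ν i - ν₀ i) * g k i) * - ∑ i ∈ A, z₀ i * g k i) =
              - ∑ k, w k * ((∑ i ∈ A, (ν i - ν₀ i) * g k i) * ∑ i ∈ A, z₀ i * g k i) := by
            rw [← Finset.sum_neg_distrib]
            exact Finset.sum_congr rfl (fun k _ => by ring)
          rw [h3]
          ring
        obtain ⟨z, hz, hzne, hzL, hzQ, hzlin⟩ : ∃ z : ι → ℝ, (∀ i, i ∉ fl A ν → z i = 0) ∧
            (∃ i, z i ≠ 0) ∧ (∀ a ∈ L, ∑ i ∈ fl A ν, a i * z i = 0) ∧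
            Q z ≤ 2 * τ * ∑ i ∈ fl A ν, (z i) ^ 2 ∧ lin z ≤ 0 := by
          by_cases hs : lin z₀ ≤ 0
          · refine ⟨z₀, hz₀, hz₀ne, hz₀L, ?_, hs⟩
            simp only [Q]
            have : ∀ k, ∑ i ∈ A, z₀ i * g k i = ∑ i ∈ fl A ν, z₀ i * g k i :=
              fun k => hsumz z₀ (g k) hz₀
            simp_rw [this]
            exact hz₀Q
          · refine ⟨fun i => - z₀ i, ?_, ?_, ?_, ?_, ?_⟩
            · intro i hi
              simp [hz₀ i hi]
            · obtain ⟨i, hi⟩ := hz₀ne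
              exact ⟨i, by simpa using hi⟩
            · intro a ha
              have := hz₀L a ha
              have h2 : ∑ i ∈ fl A ν, a i * - z₀ i = - ∑ i ∈ fl A ν, a i * z₀ i := by
                rw [← Finset.sum_neg_distrib]
                exact Finset.sum_congr rfl (fun i _ => by ring)
              simp only [h2, this, neg_zero]
            · simp only [Q]
              have h1 : ∀ k, ∑ i ∈ A, - z₀ i * g k i = - ∑ i ∈ fl A ν, z₀ i * g k i := by
                intro k
                rw [← hsumz z₀ (g k) hz₀, ← Finset.sum_neg_distrib]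
                exact Finset.sum_congr rfl (fun i _ => by ring)
              simp_rw [h1, neg_sq]
              exact hz₀Q
            · rw [hlinneg]
              linarith
        -- the move
        obtain ⟨t, ht, hbox, hcardlt⟩ := hit_boundary A ν z hν hz hzne
        let ν₁ : ι → ℝ := fun i => ν i + t * z i
        have hP1 : P ν₁ ≤ P ν := by
          have h1 := hexpand z t
          have h2 := hquad z hz hzQ
          have h3 : t * lin z ≤ 0 := mul_nonpos_of_nonneg_of_nonpos ht.le hzlin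
          have h4 : t ^ 2 * (Q z - 2 * τ * ∑ i ∈ A, (z i) ^ 2) ≤ 0 :=
            mul_nonpos_of_nonneg_of_nonpos (sq_nonneg t) h2
          simp only [lin] at h3
          simp only [ν₁]
          linarith
        have hsub1 : fl A ν₁ ⊆ fl A ν := by
          intro i hi
          rw [mem_fl] at hi
          by_contra hcon
          have hzi := hz i hcon
          apply hcon
          rw [mem_fl]
          simp only [ν₁, hzi, mul_zero, add_zero] at hi
          exact hi
        obtain ⟨ν', h1, h2, h3, h4, h5⟩ := ih ν₁ (by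
            have : (fl A ν₁).card < (fl A ν).card := hcardlt
            omega) hbox (hsub1.trans hsub)
        refine ⟨ν', h1, ?_, h3, ?_, h5.trans hP1⟩
        · intro i hi
          have hi1 : i ∉ fl A ν₁ := fun h => hi (hsub1 h)
          rw [h2 i hi1]
          simp only [ν₁, hz i hi, mul_zero, add_zero]
        · intro a ha
          rw [h4 a ha]
          simp only [ν₁, mul_add, Finset.sum_add_distrib]
          have hzero : ∑ i ∈ A, a i * (t * z i) = 0 := by
            have h6 := hzL a ha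
            have h7 : ∑ i ∈ A, z i * a i = ∑ i ∈ fl A ν, z i * a i := hsumz z a hz
            have h8 : ∑ i ∈ A, a i * (t * z i) = t * ∑ i ∈ A, z i * a i := by
              rw [Finset.mul_sum]
              exact Finset.sum_congr rfl (fun i _ => by ring)
            rw [h8, h7]
            have h9 : ∑ i ∈ fl A ν, z i * a i = ∑ i ∈ fl A ν, a i * z i :=
              Finset.sum_congr rfl (fun i _ => by ring)
            rw [h9, h6, mul_zero]
          rw [hzero, add_zero]
  obtain ⟨ν, h1, h2, h3, h4, h5⟩ := main _ ν₀ le_rfl hν₀ (Finset.Subset.refl _)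
  refine ⟨ν, h1, h2, h3, ?_, ?_⟩
  · intro a ha
    have := h4 a ha
    simp only [mul_sub, Finset.sum_sub_distrib]
    linarith
  · by_cases hne : (fl A ν₀).Nonempty
    · have hτ0 : 0 ≤ τ := by
        obtain ⟨i, hi⟩ := hne
        refine le_trans ?_ (hτ i hi)
        exact Finset.sum_nonneg (fun k _ => mul_nonneg (hw k) (sq_nonneg _))
      -- compare with the start of the potential
      have h6 : 0 ≤ ∑ i ∈ A, ν i * (1 - ν i) :=
        Finset.sum_nonneg (fun i hi => mul_nonneg (h1 i hi).1 (by linarith [(h1 i hi).2]))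
      have h7 : ∑ i ∈ A, ν₀ i * (1 - ν₀ i) ≤ (fl A ν₀).card / 4 := by
        have h8 : ∑ i ∈ A, ν₀ i * (1 - ν₀ i) = ∑ i ∈ fl A ν₀, ν₀ i * (1 - ν₀ i) := by
          symm
          apply Finset.sum_subset (Finset.filter_subset _ _)
          intro i hiA hi0
          have hi : i ∉ fl A ν₀ := hi0
          rw [mem_fl] at hi
          have h9 : ¬ (0 < ν₀ i ∧ ν₀ i < 1) := fun h => hi ⟨hiA, h⟩
          have h10 := hν₀ i hiA
          by_cases h11 : ν₀ i = 0
          · simp [h11]
          · have h12 : 0 < ν₀ i := lt_of_le_of_ne h10.1 (Ne.symm h11)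
            have h13 : ν₀ i = 1 := by
              by_contra h14
              exact h9 ⟨h12, lt_of_le_of_ne h10.2 h14⟩
            simp [h13]
        rw [h8]
        have h15 : ∑ i ∈ fl A ν₀, ν₀ i * (1 - ν₀ i) ≤ ∑ i ∈ fl A ν₀, (1 / 4 : ℝ) :=
          Finset.sum_le_sum (fun i _ => by nlinarith [sq_nonneg (ν₀ i - 1 / 2)])
        simp only [Finset.sum_const, nsmul_eq_mul] at h15
        linarith
      have h16 : Q (fun i => ν₀ i - ν₀ i) = 0 := by
        simp [Q]
      have h17 : P ν₀ = 2 * τ * ∑ i ∈ A, ν₀ i * (1 - ν₀ i) := by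
        simp only [P]
        rw [h16, zero_add]
      have h18 : Q (fun i => ν i - ν₀ i) ≤ P ν := by
        simp only [P]
        have := mul_nonneg (mul_nonneg (by norm_num : (0 : ℝ) ≤ 2) hτ0) h6
        linarith
      have h19 := mul_le_mul_of_nonneg_left h7 (mul_nonneg (by norm_num : (0 : ℝ) ≤ 2) hτ0)
      have h20 : Q (fun i => ν i - ν₀ i) ≤ 2 * τ * ((fl A ν₀).card / 4) := by
        calc Q (fun i => ν i - ν₀ i) ≤ P ν := h18
          _ ≤ P ν₀ := h5
          _ = _ := h17
          _ ≤ _ := h19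
      have h21 : 2 * τ * (((fl A ν₀).card : ℝ) / 4) = τ * (fl A ν₀).card / 2 := by ring
      rw [h21] at h20
      exact h20
    · -- no floaters: nothing moves
      have hemp : fl A ν₀ = ∅ := Finset.not_nonempty_iff_eq_empty.mp hne
      have h6 : ∀ i, ν i = ν₀ i := fun i => h2 i (by simp [hemp])
      simp [h6, hemp]

end Vale.Agent.Lib.P262.U
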